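import Vale.Agent.P002Surf.Fibre

/-!
Representations in general position are joined by rational curves of representations.
-/

namespace P002Surf

open Matrix Polynomial Filter Topology

variable {g n : ℕ}

/-- A rational function of one variable, defined at `0` and `1`. -/
def RatOn (f : ℂ → ℂ) : Prop :=
  ∃ p q : ℂ[X], q.eval 0 ≠ 0 ∧ q.eval 1 ≠ 0 ∧ ∀ s, q.eval s ≠ 0 → f s = p.eval s / q.eval s

theorem ratOn_const (c : ℂ) : RatOn fun _ => c :=
  ⟨C c, 1, by simp, by simp, fun s _ => by simp⟩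

theorem ratOn_id : RatOn fun s => s := ⟨X, 1, by simp, by simp, fun s _ => by simp⟩

theorem RatOn.add {f h : ℂ → ℂ} : RatOn f → RatOn h → RatOn (fun s => f s + h s) := by
  rintro ⟨p, q, a, b, e⟩ ⟨p', q', a', b', e'⟩
  refine ⟨p * q' + p' * q, q * q', by simp [a, a'], by simp [b, b'], fun s hs => ?_⟩
  rw [eval_mul, mul_ne_zero_iff] at hs
  dsimp only
  rw [e s hs.1, e' s hs.2, eval_add, eval_mul, eval_mul, eval_mul]
  rw [div_add_div _ _ hs.1 hs.2]
  ring

theorem RatOn.mul {f h : ℂ → ℂ} : RatOn f → RatOn h → RatOn (fun s => f s * h s) := by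
  rintro ⟨p, q, a, b, e⟩ ⟨p', q', a', b', e'⟩
  refine ⟨p * p', q * q', by simp [a, a'], by simp [b, b'], fun s hs => ?_⟩
  rw [eval_mul, mul_ne_zero_iff] at hs
  dsimp only
  rw [e s hs.1, e' s hs.2, eval_mul, eval_mul, div_mul_div_comm]

theorem RatOn.neg {f : ℂ → ℂ} (hf : RatOn f) : RatOn (fun s => -f s) := by
  simpa using (ratOn_const (-1)).mul hf

theorem RatOn.sub {f h : ℂ → ℂ} (hf : RatOn f) (hh : RatOn h) : RatOn (fun s => f s - h s) := by
  simpa [sub_eq_add_neg] using hf.add hh.neg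

theorem RatOn.inv {f : ℂ → ℂ} (hf : RatOn f) (h0 : f 0 ≠ 0) (h1 : f 1 ≠ 0) :
    RatOn (fun s => (f s)⁻¹) := by
  obtain ⟨p, q, a, b, e⟩ := hf
  rw [e 0 a, div_ne_zero_iff] at h0
  rw [e 1 b, div_ne_zero_iff] at h1
  refine ⟨q * q, p * q, by simp [h0.1, a], by simp [h1.1, b], fun s hs => ?_⟩
  rw [eval_mul, mul_ne_zero_iff] at hs
  dsimp only
  rw [e s hs.2, eval_mul, eval_mul, inv_div, mul_div_mul_right _ _ hs.2]

theorem RatOn.div {f h : ℂ → ℂ} (hf : RatOn f) (hh : RatOn h) (h0 : h 0 ≠ 0) (h1 : h 1 ≠ 0) :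
    RatOn (fun s => f s / h s) := by
  simpa [div_eq_mul_inv] using hf.mul (hh.inv h0 h1)

theorem ratOn_sum {ι : Type} (S : Finset ι) {f : ι → ℂ → ℂ} (h : ∀ i ∈ S, RatOn (f i)) :
    RatOn (fun s => ∑ i ∈ S, f i s) := by
  classical
  induction S using Finset.induction_on with
  | empty => simpa using ratOn_const 0
  | insert a S ha ih =>
    simp only [Finset.sum_insert ha]
    exact (h a (Finset.mem_insert_self a S)).add (ih fun i hi => h i (Finset.mem_insert_of_mem hi))

theorem ratOn_prod {ι : Type} (S : Finset ι) {f : ι → ℂ → ℂ} (h : ∀ i ∈ S, RatOn (f i)) :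
    RatOn (fun s => ∏ i ∈ S, f i s) := by
  classical
  induction S using Finset.induction_on with
  | empty => simpa using ratOn_const 1
  | insert a S ha ih =>
    simp only [Finset.prod_insert ha]
    exact (h a (Finset.mem_insert_self a S)).mul (ih fun i hi => h i (Finset.mem_insert_of_mem hi))

theorem RatOn.pow {f : ℂ → ℂ} (hf : RatOn f) : ∀ k : ℕ, RatOn (fun s => f s ^ k)
  | 0 => by simpa using ratOn_const 1
  | k + 1 => by simpa [pow_succ] using (hf.pow k).mul hf

theorem RatOn.continuousAt {f : ℂ → ℂ} (hf : RatOn f) : ContinuousAt f 0 := by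
  obtain ⟨p, q, a, -, e⟩ := hf
  refine (p.continuousAt.div q.continuousAt a).congr ?_
  filter_upwards [q.continuousAt.eventually_ne a] with s hs using (e s hs).symm

theorem RatOn.eventually_ne {f : ℂ → ℂ} (hf : RatOn f) (h : f 0 ≠ 0) :
    ∀ᶠ s in 𝓝 (0 : ℂ), f s ≠ 0 := hf.continuousAt.eventually_ne h

/-- All entries are rational. -/
def RatM {m k : Type} (F : ℂ → Matrix m k ℂ) : Prop := ∀ i j, RatOn fun s => F s i j

theorem ratM_const {m k : Type} (K : Matrix m k ℂ) : RatM fun _ => K := fun _ _ => ratOn_const _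

theorem ratM_segment {m k : Type} (A B : Matrix m k ℂ) :
    RatM fun s : ℂ => (1 - s) • A + s • B := fun i j => by
  simpa using (((ratOn_const 1).sub ratOn_id).mul (ratOn_const (A i j))).add
    (ratOn_id.mul (ratOn_const (B i j)))

theorem RatM.submatrix {m k m' k' : Type} {F : ℂ → Matrix m k ℂ} (hF : RatM F) (r : m' → m)
    (c : k' → k) : RatM fun s => (F s).submatrix r c := fun i j => hF (r i) (c j)

theorem RatM.mul {m k l : Type} [Fintype k] {F : ℂ → Matrix m k ℂ} {H : ℂ → Matrix k l ℂ}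
    (hF : RatM F) (hH : RatM H) : RatM fun s => F s * H s := fun i j => by
  simp only [Matrix.mul_apply]
  exact ratOn_sum _ fun a _ => (hF i a).mul (hH a j)

theorem RatM.smul {m k : Type} {f : ℂ → ℂ} {F : ℂ → Matrix m k ℂ} (hf : RatOn f) (hF : RatM F) :
    RatM fun s => f s • F s := fun i j => by
  simpa using hf.mul (hF i j)

theorem RatM.sub {m k : Type} {F H : ℂ → Matrix m k ℂ} (hF : RatM F) (hH : RatM H) :
    RatM fun s => F s - H s := fun i j => (hF i j).sub (hH i j)

theorem RatM.det {m : Type} [Fintype m] [DecidableEq m] {F : ℂ → Matrix m m ℂ} (hF : RatM F) :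
    RatOn fun s => (F s).det := by
  simp only [Matrix.det_apply']
  exact ratOn_sum _ fun σ _ => (ratOn_const _).mul (ratOn_prod _ fun i _ => hF _ i)

theorem RatM.adjugate {m : Type} [Fintype m] [DecidableEq m] {F : ℂ → Matrix m m ℂ}
    (hF : RatM F) : RatM fun s => (F s).adjugate := fun i j => by
  simp only [Matrix.adjugate_apply]
  refine RatM.det fun a b => ?_
  rcases eq_or_ne a j with rfl | h
  · simpa using ratOn_const ((Pi.single i (1 : ℂ) : m → ℂ) b)
  · simpa [updateRow_ne h] using hF a b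

theorem RatM.inv {m : Type} [Fintype m] [DecidableEq m] {F : ℂ → Matrix m m ℂ} (hF : RatM F)
    (h0 : (F 0).det ≠ 0) (h1 : (F 1).det ≠ 0) : RatM fun s => (F s)⁻¹ := by
  simp only [Matrix.inv_def, Ring.inverse_eq_inv']
  exact RatM.smul (hF.det.inv h0 h1) hF.adjugate

theorem ratM_diagonal {m : Type} [DecidableEq m] {d : ℂ → m → ℂ}
    (hd : ∀ i, RatOn fun s => d s i) : RatM fun s => diagonal (d s) := fun i j => by
  rcases eq_or_ne i j with rfl | h
  · simpa using hd i
  · simpa [diagonal_apply_ne _ h] using ratOn_const 0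

theorem ratM_list_prod {ι : Type} {m : Type} [Fintype m] [DecidableEq m] (l : List ι)
    {F : ι → ℂ → Matrix m m ℂ} (h : ∀ i, RatM (F i)) :
    RatM fun s => (l.map fun i => F i s).prod := by
  induction l with
  | nil => simpa using ratM_const (1 : Matrix m m ℂ)
  | cons a l ih => simpa using (h a).mul ih

/-! ### rationality of the parametrisation -/

theorem ratOn_dd {e : ℂ → Fin n → ℂ} (he : ∀ i, RatOn fun s => e s i) (h0 : ∀ i, e 0 i ≠ 0)
    (h1 : ∀ i, e 1 i ≠ 0) (i : Fin n) : RatOn fun s => dd (e s) i :=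
  ((he i).pow n).div (ratOn_prod _ fun k _ => he k) (Finset.prod_ne_zero_iff.2 fun k _ => h0 k)
    (Finset.prod_ne_zero_iff.2 fun k _ => h1 k)

theorem ratM_rMat {M : ℂ → Mat n} (hM : RatM M) (h0 : ∀ j, minor (M 0) j ≠ 0)
    (h1 : ∀ j, minor (M 1) j ≠ 0) : RatM fun s => rMat (M s) := fun c j => by
  simp only [rMat, Matrix.of_apply]
  by_cases h : c ≤ j
  · simp only [dif_pos h]
    exact ((hM.submatrix (emb j) (emb j)).adjugate _ _).div (hM.submatrix (emb j) (emb j)).det
      (h0 j) (h1 j)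
  · simp only [dif_neg h]
    exact ratOn_const 0

theorem ratM_eig {M : ℂ → Mat n} {d : ℂ → Fin n → ℂ} (hM : RatM M)
    (hd : ∀ i, RatOn fun s => d s i) (h0 : Function.Injective (d 0))
    (h1 : Function.Injective (d 1)) : RatM fun s => eig (M s) (d s) := by
  classical
  intro i j
  simp only [eig, Matrix.of_apply]
  have key : ∀ S : Finset (Fin n), j ∉ S →
      RatM fun s => aeval (M s) (∏ k ∈ S, C (d s j - d s k)⁻¹ * (X - C (d s k))) := by
    intro S
    induction S using Finset.induction_on with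
    | empty => intro _; simpa using ratM_const (1 : Mat n)
    | insert a S ha ih =>
      intro hj
      rw [Finset.mem_insert, not_or] at hj
      simp only [Finset.prod_insert ha, map_mul, map_sub, aeval_C, aeval_X,
        Algebra.algebraMap_eq_smul_one, smul_mul_assoc, one_mul]
      exact RatM.smul (((hd j).sub (hd a)).inv (sub_ne_zero.2 (h0.ne hj.1))
        (sub_ne_zero.2 (h1.ne hj.1))) ((hM.sub (RatM.smul (hd a) (ratM_const 1))).mul (ih hj.2))
  exact key _ (Finset.notMem_erase j _) i j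

theorem ratM_gauge {C G : ℂ → Mat n} (hC : RatM C) (hG : RatM G) (h0 : Ok (C 0) (G 0))
    (h1 : Ok (C 1) (G 1)) :
    ∀ k, RatM (fun s => gauge (C s) (G s) k) ∧ RatM (fun s => mid (C s) (G s) k) := by
  have hmid : ∀ k, RatM (fun s => gauge (C s) (G s) k) → RatM (fun s => mid (C s) (G s) k) :=
    fun k hk => (hk.mul hC).mul (hk.inv (by rw [det_gauge]; exact h0.1)
      (by rw [det_gauge]; exact h1.1))
  intro k
  induction k with
  | zero => exact ⟨hG, hmid 0 hG⟩
  | succ k ih =>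
    suffices h : RatM fun s => gauge (C s) (G s) (k + 1) from ⟨h, hmid _ h⟩
    by_cases hk : k + 1 < n
    · simp only [gauge, dif_pos hk]
      refine RatM.mul ?_ ih.1
      intro a b
      have hm := ih.2
      have ht : RatOn fun s =>
          tpar (mid (C s) (G s) k) ⟨k, (Nat.lt_succ_self k).trans hk⟩ hk := by
        refine ((ratOn_const 1).sub (hm.submatrix _ _).det).div (hm.submatrix _ _).det ?_ ?_
        · exact h0.2 ⟨k, (Nat.lt_succ_self k).trans hk⟩ hk
        · exact h1.2 ⟨k, (Nat.lt_succ_self k).trans hk⟩ hk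
      simp only [tv, transvection, Matrix.add_apply, Matrix.single_apply]
      refine (ratOn_const _).add ?_
      split_ifs
      · exact ht
      · exact ratOn_const 0
    · simp only [gauge, dif_neg hk]
      exact ih.1

theorem ratM_fib {C G : ℂ → Mat n} {e t : ℂ → Fin n → ℂ} (hC : RatM C) (hG : RatM G)
    (he : ∀ i, RatOn fun s => e s i) (ht : ∀ i, RatOn fun s => t s i)
    (hC0 : (C 0).det = 1) (hC1 : (C 1).det = 1)
    (h0 : FibOk (C 0) (G 0) (e 0) (t 0)) (h1 : FibOk (C 1) (G 1) (e 1) (t 1)) :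
    RatM (fun s => (fib (C s) (G s) (e s) (t s)).1) ∧
      RatM (fun s => (fib (C s) (G s) (e s) (t s)).2) := by
  obtain ⟨hg, hm⟩ := ratM_gauge hC hG h0.1 h1.1 n
  have hne : ∀ {C' G' : Mat n}, C'.det = 1 → Ok C' G' → ∀ j, minor (mid C' G' n) j ≠ 0 :=
    fun hc hok j => by rw [minor_mid hc hok n j j.isLt]; exact one_ne_zero
  have hr := ratM_rMat hm (hne hC0 h0.1) (hne hC1 h1.1)
  have hd := ratOn_dd he h0.2.1 h1.2.1
  have hA : RatM fun s => coA (C s) (G s) (e s) := (hm.mul hr).mul (ratM_diagonal hd)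
  have hd' : ∀ i, RatOn fun s => dinv (dd (e s)) i :=
    fun i => (hd i).inv (dd_ne h0.2.1 i) (dd_ne h1.2.1 i)
  have hU : RatM fun s => uFac (C s) (G s) :=
    hr.inv (det_rMat_ne (hne hC0 h0.1)) (det_rMat_ne (hne hC1 h1.1))
  have hW := ratM_eig hA hd h0.2.2.1 h1.2.2.1
  have hWd : ∀ {C' G' : Mat n} {e' : Fin n → ℂ}, C'.det = 1 → Ok C' G' →
      Function.Injective (dd e') → (eig (coA C' G' e') (dd e')).det ≠ 0 := by
    intro C' G' e' hc hok hinj
    obtain ⟨hL, hL1, -, -, -⟩ := lu_unit fun j => minor_mid hc hok n j j.isLt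
    have hlo : Lo (coA C' G' e') := hL.mul (blockTriangular_diagonal _)
    have hdiag : ∀ i, coA C' G' e' i i = dd e' i := fun i => by
      simp only [coA, lFac, Matrix.mul_diagonal, hL1, one_mul]
    obtain ⟨h2, h3, -⟩ := eig_spec OrderDual.toDual.injective hlo hdiag hinj
      (by rw [lo_charpoly hlo]; simp only [hdiag])
    rw [det_one_of_lo h2 h3]
    exact one_ne_zero
  have hB : RatM fun s => coB (C s) (G s) (e s) (t s) :=
    ((ratM_eig ((ratM_diagonal hd').mul hU) hd' (dinv_injective h0.2.2.1)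
      (dinv_injective h1.2.2.1)).mul (ratM_diagonal (ratOn_dd ht h0.2.2.2 h1.2.2.2))).mul
      (hW.inv (hWd hC0 h0.1 h0.2.2.1) (hWd hC1 h1.1 h1.2.2.1))
  have hgi := hg.inv (by rw [det_gauge]; exact h0.1.1) (by rw [det_gauge]; exact h1.1.1)
  exact ⟨(hgi.mul hA).mul hg, (hgi.mul hB).mul hg⟩

theorem eventually_fibOk {C G : ℂ → Mat n} {e t : ℂ → Fin n → ℂ} (hC : RatM C) (hG : RatM G)
    (he : ∀ i, RatOn fun s => e s i) (ht : ∀ i, RatOn fun s => t s i)
    (h0 : FibOk (C 0) (G 0) (e 0) (t 0)) (h1 : FibOk (C 1) (G 1) (e 1) (t 1)) :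
    ∀ᶠ s in 𝓝 (0 : ℂ), FibOk (C s) (G s) (e s) (t s) := by
  have hgm := ratM_gauge hC hG h0.1 h1.1
  have a1 := hG.det.eventually_ne h0.1.1
  have a2 : ∀ᶠ s in 𝓝 (0 : ℂ), ∀ (j : Fin n) h, sub (mid (C s) (G s) j) j h ≠ 0 :=
    eventually_all.2 fun j => eventually_all.2 fun h =>
      (((hgm j).2.submatrix (subRows j h) (emb j)).det).eventually_ne (h0.1.2 j h)
  have a3 : ∀ᶠ s in 𝓝 (0 : ℂ), ∀ i, e s i ≠ 0 :=
    eventually_all.2 fun i => (he i).eventually_ne (h0.2.1 i)
  have a4 : ∀ᶠ s in 𝓝 (0 : ℂ), ∀ p : {p : Fin n × Fin n // p.1 ≠ p.2},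
      dd (e s) p.1.1 - dd (e s) p.1.2 ≠ 0 :=
    eventually_all.2 fun p => ((ratOn_dd he h0.2.1 h1.2.1 _).sub
      (ratOn_dd he h0.2.1 h1.2.1 _)).eventually_ne (sub_ne_zero.2 (h0.2.2.1.ne p.2))
  have a5 : ∀ᶠ s in 𝓝 (0 : ℂ), ∀ i, t s i ≠ 0 :=
    eventually_all.2 fun i => (ht i).eventually_ne (h0.2.2.2 i)
  filter_upwards [a1, a2, a3, a4, a5] with s b1 b2 b3 b4 b5
  refine ⟨⟨b1, b2⟩, b3, fun i j hij => ?_, b5⟩
  by_contra hne
  exact b4 ⟨(i, j), hne⟩ (sub_eq_zero.2 hij)

/-! ### the curve -/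

/-- The normalised commutator. -/
noncomputable def ncm (x : Pair n) : Mat n := (x.1.det * x.2.det)⁻¹ • cm x

theorem det_ncm {x : Pair n} (h1 : x.1.det ≠ 0) (h2 : x.2.det ≠ 0) : (ncm x).det = 1 := by
  rcases Nat.eq_zero_or_pos n with rfl | hn
  · exact Matrix.det_fin_zero
  obtain ⟨m, rfl⟩ : ∃ m, n = m + 1 := ⟨n - 1, by omega⟩
  rw [ncm, Matrix.det_smul, cm, Matrix.det_mul, Matrix.det_mul, Matrix.det_mul,
    Matrix.det_adjugate, Matrix.det_adjugate, Fintype.card_fin, Nat.add_sub_cancel, inv_pow]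
  have e : x.1.det * x.2.det * x.1.det ^ m * x.2.det ^ m = (x.1.det * x.2.det) ^ (m + 1) := by
    ring
  rw [e]
  exact inv_mul_cancel₀ (pow_ne_zero _ (mul_ne_zero h1 h2))

/-- Two representations in general position are joined by a rational curve of representations. -/
theorem rat_curve (q0 q1 : Fin g → Pair n) (h0 : IsRep q0) (h1 : IsRep q1)
    (g0 : ∀ i, Good (q0 i)) (g1 : ∀ i, Good (q1 i)) :
    ∃ gam : ℂ → Fin g → Pair n, gam 0 = q0 ∧ gam 1 = q1 ∧
      (∀ v, RatOn (fun s => ev (gam s) v)) ∧ ContinuousAt gam 0 ∧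
      ∀ᶠ s in 𝓝 (0 : ℂ), IsRep (gam s) := by
  rcases g with _ | k
  · exact ⟨fun _ => q0, rfl, funext fun i => i.elim0, fun _ => ratOn_const _, continuousAt_const,
      Eventually.of_forall fun _ => h0⟩
  choose G0 e0 t0 ok0 fib0 using fun i => fib_surj (h0.1 i) (g0 i)
  choose G1 e1 t1 ok1 fib1 using fun i => fib_surj (h1.1 i) (g1 i)
  let P : Fin k → ℂ → Pair n := fun i s =>
    ((1 - s) • (q0 i.castSucc).1 + s • (q1 i.castSucc).1,
      (1 - s) • (q0 i.castSucc).2 + s • (q1 i.castSucc).2)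
  let prev : ℂ → Mat n := fun s => (List.ofFn fun i => ncm (P i s)).prod
  let Cc : ℂ → Fin (k + 1) → Mat n := fun s =>
    Fin.snoc (fun i => ncm (P i s)) (prev s).adjugate
  let G : ℂ → Fin (k + 1) → Mat n := fun s i => (1 - s) • G0 i + s • G1 i
  let e : ℂ → Fin (k + 1) → Fin n → ℂ := fun s i j => (1 - s) * e0 i j + s * e1 i j
  let t : ℂ → Fin (k + 1) → Fin n → ℂ := fun s i j => (1 - s) * t0 i j + s * t1 i j
  have hend : ∀ (q : Fin (k + 1) → Pair n), IsRep q → ∀ s,
      (∀ i, P i s = q i.castSucc) → ∀ i, Cc s i = cm (q i) := by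
    intro q hq s hP i
    have hn : ∀ j, ncm (P j s) = cm (q j.castSucc) := fun j => by
      rw [hP, ncm, (hq.1 _).1, (hq.1 _).2, mul_one, inv_one, one_smul]
    induction i using Fin.lastCases with
    | last =>
      simp only [Cc, Fin.snoc_last, prev, hn]
      have hp := hq.2
      rw [List.ofFn_succ', List.prod_concat] at hp
      refine adj_eq_of_mul ?_ hp
      refine List.prod_induction (fun A : Mat n => A.det = 1)
        (fun A B ha hb => by rw [det_mul, ha, hb, mul_one]) det_one fun A hA => ?_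
      obtain ⟨j, rfl⟩ := List.mem_ofFn.1 hA
      exact det_cm (hq.1 _).1 (hq.1 _).2
    | cast j => simp only [Cc, Fin.snoc_castSucc, hn]
  have hP0 : ∀ i, P i 0 = q0 i.castSucc := fun i => by simp [P]
  have hP1 : ∀ i, P i 1 = q1 i.castSucc := fun i => by simp [P]
  have hC0 := hend q0 h0 0 hP0
  have hC1 := hend q1 h1 1 hP1
  have hG00 : ∀ i, G 0 i = G0 i := fun i => by simp [G]
  have hG11 : ∀ i, G 1 i = G1 i := fun i => by simp [G]
  have he00 : ∀ i, e 0 i = e0 i := fun i => by funext j; simp [e]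
  have he11 : ∀ i, e 1 i = e1 i := fun i => by funext j; simp [e]
  have ht00 : ∀ i, t 0 i = t0 i := fun i => by funext j; simp [t]
  have ht11 : ∀ i, t 1 i = t1 i := fun i => by funext j; simp [t]
  have hP0d : ∀ i, (P i 0).1.det = 1 ∧ (P i 0).2.det = 1 := fun i => by
    rw [hP0]; exact h0.1 _
  have hP1d : ∀ i, (P i 1).1.det = 1 ∧ (P i 1).2.det = 1 := fun i => by
    rw [hP1]; exact h1.1 _
  have hA : ∀ i, RatM fun s => (P i s).1 := fun i => ratM_segment _ _
  have hB : ∀ i, RatM fun s => (P i s).2 := fun i => ratM_segment _ _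
  have hncm : ∀ i, RatM fun s => ncm (P i s) := fun i =>
    RatM.smul (((hA i).det.mul (hB i).det).inv (by simp [hP0d i]) (by simp [hP1d i]))
      ((((hA i).mul (hB i)).mul (hA i).adjugate).mul (hB i).adjugate)
  have hprev : RatM prev := by
    have := ratM_list_prod (List.finRange k) hncm
    simpa only [prev, List.ofFn_eq_map] using this
  have hCrat : ∀ i, RatM fun s => Cc s i := fun i => by
    induction i using Fin.lastCases with
    | last => simpa only [Cc, Fin.snoc_last] using hprev.adjugate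
    | cast j => simpa only [Cc, Fin.snoc_castSucc] using hncm j
  have hGrat : ∀ i, RatM fun s => G s i := fun i => ratM_segment _ _
  have herat : ∀ i j, RatOn fun s => e s i j := fun i j =>
    (((ratOn_const 1).sub ratOn_id).mul (ratOn_const _)).add (ratOn_id.mul (ratOn_const _))
  have htrat : ∀ i j, RatOn fun s => t s i j := fun i j =>
    (((ratOn_const 1).sub ratOn_id).mul (ratOn_const _)).add (ratOn_id.mul (ratOn_const _))
  have hok0 : ∀ i, FibOk (Cc 0 i) (G 0 i) (e 0 i) (t 0 i) := fun i => by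
    rw [hC0, hG00, he00, ht00]; exact ok0 i
  have hok1 : ∀ i, FibOk (Cc 1 i) (G 1 i) (e 1 i) (t 1 i) := fun i => by
    rw [hC1, hG11, he11, ht11]; exact ok1 i
  let gam : ℂ → Fin (k + 1) → Pair n := fun s i => fib (Cc s i) (G s i) (e s i) (t s i)
  have hrat : ∀ i, RatM (fun s => (gam s i).1) ∧ RatM (fun s => (gam s i).2) := fun i =>
    ratM_fib (hCrat i) (hGrat i) (herat i) (htrat i)
      (by rw [hC0]; exact det_cm (h0.1 i).1 (h0.1 i).2)
      (by rw [hC1]; exact det_cm (h1.1 i).1 (h1.1 i).2) (hok0 i) (hok1 i)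
  refine ⟨gam, funext fun i => ?_, funext fun i => ?_, ?_, ?_, ?_⟩
  · simp only [gam, hC0, hG00, he00, ht00, fib0]
  · simp only [gam, hC1, hG11, he11, ht11, fib1]
  · rintro ⟨i, b, r, c⟩
    cases b
    · exact (hrat i).1 r c
    · exact (hrat i).2 r c
  · refine continuousAt_pi.2 fun i => ContinuousAt.prodMk ?_ ?_ <;>
      refine continuousAt_pi.2 fun r => continuousAt_pi.2 fun c => ?_
    · exact ((hrat i).1 r c).continuousAt
    · exact ((hrat i).2 r c).continuousAt
  · have a1 : ∀ᶠ s in 𝓝 (0 : ℂ), ∀ i, FibOk (Cc s i) (G s i) (e s i) (t s i) :=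
      eventually_all.2 fun i => eventually_fibOk (hCrat i) (hGrat i) (herat i) (htrat i) (hok0 i)
        (hok1 i)
    have a2 : ∀ᶠ s in 𝓝 (0 : ℂ), ∀ i, (P i s).1.det ≠ 0 ∧ (P i s).2.det ≠ 0 :=
      eventually_all.2 fun i => ((hA i).det.eventually_ne (by rw [(hP0d i).1]; exact one_ne_zero)).and
        ((hB i).det.eventually_ne (by rw [(hP0d i).2]; exact one_ne_zero))
    filter_upwards [a1, a2] with s b1 b2
    have hpd : (prev s).det = 1 := by
      refine List.prod_induction (fun A : Mat n => A.det = 1)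
        (fun A B ha hb => by rw [det_mul, ha, hb, mul_one]) det_one fun A hA => ?_
      obtain ⟨j, rfl⟩ := List.mem_ofFn.1 hA
      exact det_ncm (b2 j).1 (b2 j).2
    have hCd : ∀ i, (Cc s i).det = 1 := fun i => by
      induction i using Fin.lastCases with
      | last => simp only [Cc, Fin.snoc_last]; exact det_adj_one hpd
      | cast j => simp only [Cc, Fin.snoc_castSucc]; exact det_ncm (b2 j).1 (b2 j).2
    refine ⟨fun i => (fib_spec (hCd i) (b1 i)).1, ?_⟩
    have hcm : (fun i => cm (gam s i)) = Cc s := funext fun i => (fib_spec (hCd i) (b1 i)).2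
    rw [hcm, List.ofFn_succ', List.prod_concat]
    simp only [Cc, Fin.snoc_castSucc, Fin.snoc_last]
    exact mul_adj_one hpd

/-- Two pairs in general position with the same commutator are joined by a rational curve with
that commutator. -/
theorem fibre_curve (x y : Pair n) (hx : SL1 x) (hy : SL1 y) (gx : Good x) (gy : Good y)
    (h : cm x = cm y) :
    ∃ gam : ℂ → Pair n, gam 0 = x ∧ gam 1 = y ∧ RatM (fun s => (gam s).1) ∧
      RatM (fun s => (gam s).2) ∧ ContinuousAt gam 0 ∧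
      ∀ᶠ s in 𝓝 (0 : ℂ), SL1 (gam s) ∧ cm (gam s) = cm x := by
  obtain ⟨G0, e0, t0, ok0, f0⟩ := fib_surj hx gx
  obtain ⟨G1, e1, t1, ok1, f1⟩ := fib_surj hy gy
  rw [← h] at ok1 f1
  have hd : (cm x).det = 1 := det_cm hx.1 hx.2
  let G : ℂ → Mat n := fun s => (1 - s) • G0 + s • G1
  let e : ℂ → Fin n → ℂ := fun s j => (1 - s) * e0 j + s * e1 j
  let t : ℂ → Fin n → ℂ := fun s j => (1 - s) * t0 j + s * t1 j
  have a0 : G 0 = G0 ∧ e 0 = e0 ∧ t 0 = t0 :=
    ⟨by simp [G], funext fun j => by simp [e], funext fun j => by simp [t]⟩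
  have a1 : G 1 = G1 ∧ e 1 = e1 ∧ t 1 = t1 :=
    ⟨by simp [G], funext fun j => by simp [e], funext fun j => by simp [t]⟩
  have hG : RatM G := ratM_segment G0 G1
  have he : ∀ j, RatOn fun s => e s j := fun j =>
    (((ratOn_const 1).sub ratOn_id).mul (ratOn_const _)).add (ratOn_id.mul (ratOn_const _))
  have ht : ∀ j, RatOn fun s => t s j := fun j =>
    (((ratOn_const 1).sub ratOn_id).mul (ratOn_const _)).add (ratOn_id.mul (ratOn_const _))
  have b0 : FibOk (cm x) (G 0) (e 0) (t 0) := by rw [a0.1, a0.2.1, a0.2.2]; exact ok0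
  have b1 : FibOk (cm x) (G 1) (e 1) (t 1) := by rw [a1.1, a1.2.1, a1.2.2]; exact ok1
  obtain ⟨hA, hB⟩ := ratM_fib (ratM_const (cm x)) hG he ht hd hd b0 b1
  refine ⟨fun s => fib (cm x) (G s) (e s) (t s), ?_, ?_, hA, hB, ?_, ?_⟩
  · simp only [a0.1, a0.2.1, a0.2.2, f0]
  · simp only [a1.1, a1.2.1, a1.2.2, f1]
  · refine ContinuousAt.prodMk ?_ ?_ <;>
      refine continuousAt_pi.2 fun r => continuousAt_pi.2 fun c => ?_
    · exact (hA r c).continuousAt
    · exact (hB r c).continuousAt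
  · filter_upwards [eventually_fibOk (ratM_const (cm x)) hG he ht b0 b1] with s hs
    exact fib_spec hd hs

/-- Identity theorem along a rational curve. -/
theorem ratOn_eval_eq_zero (gam : ℂ → Fin g → Pair n) (hgam : ∀ v, RatOn (fun s => ev (gam s) v))
    (p : MvPolynomial (Idx g n) ℂ)
    (h : ∀ᶠ s in 𝓝 (0 : ℂ), MvPolynomial.eval (ev (gam s)) p = 0) :
    MvPolynomial.eval (ev (gam 1)) p = 0 := by
  have hF : RatOn fun s => MvPolynomial.eval (ev (gam s)) p := by
    simp only [MvPolynomial.eval_eq]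
    exact ratOn_sum _ fun m _ => (ratOn_const _).mul (ratOn_prod _ fun v _ => (hgam v).pow _)
  obtain ⟨a, q, hq0, hq1, e⟩ := hF
  dsimp only at e
  have ha : a = 0 := by
    refine Polynomial.eq_zero_of_infinite_isRoot a ?_
    have hev : ∀ᶠ s in 𝓝 (0 : ℂ), a.IsRoot s := by
      filter_upwards [h, q.continuousAt.eventually_ne hq0] with s hs hqs
      rw [e s hqs, div_eq_zero_iff] at hs
      exact hs.resolve_right hqs
    exact infinite_of_mem_nhds 0 hev
  rw [e 1 hq1, ha, Polynomial.eval_zero, zero_div]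

/-! ### general position is open and dense -/

theorem isOpen_nondeg : IsOpen {M : Mat n | Nondeg M} := by
  have h : {M : Mat n | Nondeg M} = (⋂ j, {M : Mat n | minor M j ≠ 0}) ∩
      ⋂ j : Fin n, ⋂ h : (j : ℕ) + 1 < n, {M : Mat n | sub M j h ≠ 0} := by
    ext M
    simp [Nondeg]
  rw [h]
  refine (isOpen_iInter_of_finite fun j => ?_).inter
    (isOpen_iInter_of_finite fun j => isOpen_iInter_of_finite fun h => ?_)
  · exact isOpen_ne_fun (continuous_id.matrix_submatrix _ _).matrix_det continuous_const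
  · exact isOpen_ne_fun (continuous_id.matrix_submatrix _ _).matrix_det continuous_const

theorem nondeg_nhds {V B : Mat n} (h : Nondeg (V.adjugate * B * V)) :
    ∃ W1 ∈ 𝓝 V, ∃ W2 ∈ 𝓝 B, ∀ V' ∈ W1, ∀ B' ∈ W2, Nondeg (V'.adjugate * B' * V') := by
  have hc : Continuous fun z : Mat n × Mat n => z.1.adjugate * z.2 * z.1 :=
    ((continuous_fst.matrix_adjugate).matrix_mul continuous_snd).matrix_mul continuous_fst
  have he : ∀ᶠ z in 𝓝 ((V, B) : Mat n × Mat n), z.1.adjugate * z.2 * z.1 ∈ {M : Mat n | Nondeg M} :=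
    hc.continuousAt.eventually_mem (isOpen_nondeg.mem_nhds h)
  rw [nhds_prod_eq, eventually_prod_iff] at he
  obtain ⟨p1, h1, p2, h2, hp⟩ := he
  exact ⟨{V' | p1 V'}, h1, {B' | p2 B'}, h2, fun V' hV B' hB => hp hV hB⟩

theorem good_nhds {A B : Mat n} (h : Good (A, B)) :
    ∃ W1 ∈ 𝓝 A, ∃ W2 ∈ 𝓝 B, ∀ A' ∈ W1, ∀ B' ∈ W2, Good (A', B') := by
  obtain ⟨V, d, hV, hN⟩ := h
  obtain ⟨W1, hW1, W2, hW2, hW⟩ := nondeg_nhds hN
  have h1 := eventually_diagBy hV (W := W1 ×ˢ Set.univ) (prod_mem_nhds hW1 univ_mem)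
  refine ⟨_, h1, W2, hW2, fun A' hA B' hB => ?_⟩
  obtain ⟨V', d', hm, hdiag⟩ := hA
  exact ⟨V', d', hdiag, hW V' hm.1 B' hB⟩

theorem isOpen_good : IsOpen {x : Pair n | Good x} := by
  rw [isOpen_iff_mem_nhds]
  intro x hx
  obtain ⟨W1, hW1, W2, hW2, hW⟩ := good_nhds (A := x.1) (B := x.2) hx
  exact Filter.mem_of_superset (prod_mem_nhds hW1 hW2) fun y hy => hW y.1 hy.1 y.2 hy.2

/-- The product of all minors in `Nondeg`. -/
noncomputable def nondegFun (M : Mat n) : ℂ :=
  (∏ j, minor M j) * ∏ j : Fin n, if h : (j : ℕ) + 1 < n then sub M j h else 1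

theorem polyLine_nondegFun : PolyLine (nondegFun (n := n)) := by
  refine (polyLine_prod _ fun j _ => ?_).mul (polyLine_prod _ fun j _ => ?_)
  · exact (polyLineM_id.submatrix (emb j) (emb j)).det
  · by_cases h : (j : ℕ) + 1 < n
    · simpa only [dif_pos h, sub] using (polyLineM_id.submatrix (subRows j h) (emb j)).det
    · simp only [dif_neg h]
      exact fun _ _ => ⟨1, fun _ => Polynomial.eval_one⟩

theorem nondegFun_ne (M : Mat n) : nondegFun M ≠ 0 ↔ Nondeg M := by
  simp only [nondegFun, mul_ne_zero_iff, Finset.prod_ne_zero_iff, Finset.mem_univ, true_implies]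
  refine and_congr Iff.rfl ⟨fun h j hj => ?_, fun h j => ?_⟩
  · simpa [dif_pos hj] using h j
  · split_ifs with hj
    · exact h j hj
    · exact one_ne_zero

theorem dense_good (x : Pair n) (h : x.1.det = 1 ∧ x.2.det = 1) {U : Set (Pair n)}
    (hU : U ∈ 𝓝 x) : ∃ x' ∈ U, SL1 x' ∧ Good x' := by
  rw [mem_nhds_prod_iff] at hU
  obtain ⟨W1, hW1, W2, hW2, hW⟩ := hU
  obtain ⟨A, hA, hAd, V, d, hV⟩ := dense_simple h.1 hW1
  have hu := isUnit_det_of_ne hV.1
  let B0 := V⁻¹ * x.2 * V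
  have hB0 : B0.det = 1 := by
    rw [Matrix.det_mul, Matrix.det_mul, mul_right_comm, ← Matrix.det_mul,
      Matrix.nonsing_inv_mul _ hu, Matrix.det_one, one_mul, h.2]
  have hback : V * B0 * V⁻¹ = x.2 := by
    simp only [B0, Matrix.mul_assoc, Matrix.mul_nonsing_inv_cancel_left _ _ hu]
    rw [Matrix.mul_nonsing_inv _ hu, Matrix.mul_one]
  have hpre : (fun Y : Mat n => V * Y * V⁻¹) ⁻¹' W2 ∈ 𝓝 B0 := by
    refine ContinuousAt.preimage_mem_nhds ?_ (by rw [hback]; exact hW2)
    exact ((continuous_const.matrix_mul continuous_id).matrix_mul continuous_const).continuousAt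
  obtain ⟨B, hB, hBd, hBN⟩ := dense_SL (Q := Nondeg) polyLine_nondegFun
    (fun M hM _ c hc => ((nondegFun_ne M).1 hM).smul hc)
    (by
      let L : Mat n := Matrix.of fun i j =>
        if i = j ∨ (i : ℕ) = (j : ℕ) + 1 then 1 else 0
      have hL : Lo L := fun i j hij => by
        have hij' : (i : ℕ) < (j : ℕ) := OrderDual.toDual_lt_toDual.1 hij
        simp only [L, Matrix.of_apply]
        rw [if_neg]
        rintro (h | h) <;> omega
      have hL1 : ∀ i, L i i = 1 := fun i => by simp [L]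
      refine ⟨L, (nondegFun_ne L).2 ⟨fun j => ?_, fun j hj => ?_⟩⟩
      · rw [← Matrix.mul_one L, minor_lu hL hL1 blockTriangular_one]
        simp
      · rw [← Matrix.mul_one L, sub_lu hL hL1 blockTriangular_one]
        simp [L, nx])
    B0 hB0 hpre
  refine ⟨(A, V * B * V⁻¹), hW (Set.mk_mem_prod hA hB), ⟨hAd, ?_⟩, V, d, hV, ?_⟩
  · rw [Matrix.det_mul, Matrix.det_mul, mul_right_comm, ← Matrix.det_mul,
      Matrix.mul_nonsing_inv _ hu, Matrix.det_one, one_mul, hBd]
  · have e : V.adjugate * (V * B * V⁻¹) * V = V.det • B := by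
      rw [← Matrix.mul_assoc, ← Matrix.mul_assoc, Matrix.adjugate_mul, smul_mul_assoc,
        Matrix.one_mul, smul_mul_assoc, smul_mul_assoc,
        Matrix.nonsing_inv_mul_cancel_right _ _ hu]
    show Nondeg (V.adjugate * (V * B * V⁻¹) * V)
    rw [e]
    exact hBN.smul hV.1

end P002Surf
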