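import Vale.Agent.P002Surf.PolyLine

/-!
The linear algebra behind the twist flows: traces of `(A D)^k` with `k ≤ 2` against `Δ D`,
for all diagonal `D`, only vanish on `Δ = [x, A]` with `x` diagonal.
-/

namespace P002Surf

open Matrix Filter Topology

variable {n : ℕ}

/-- All entries nonzero and all three-cycles asymmetric. -/
def Triple (A : Mat n) : Prop :=
  (∀ i j, A i j ≠ 0) ∧
  ∀ i j k, i ≠ j → j ≠ k → i ≠ k → A i j * A j k * A k i ≠ A i k * A k j * A j i

theorem extend_zero {F : (Fin n → ℂ) → ℂ} (hF : Continuous F)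
    (h : ∀ d, (∀ i, d i ≠ 0) → F d = 0) (d : Fin n → ℂ) : F d = 0 := by
  have hc : Continuous fun s : ℂ => F (fun i => d i + s) := hF.comp (by fun_prop)
  have hev : ∀ᶠ s in 𝓝[≠] (0 : ℂ), ∀ i, d i + s ≠ 0 := by
    rw [eventually_all]
    intro i
    by_cases hi : d i = 0
    · filter_upwards [self_mem_nhdsWithin] with s hs
      simpa [hi] using hs
    · apply eventually_nhdsWithin_of_eventually_nhds
      exact (continuousAt_const.add continuousAt_id).eventually_ne (by simpa using hi)
  have h0 : Tendsto (fun s : ℂ => F (fun i => d i + s)) (𝓝[≠] 0) (𝓝 0) :=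
    tendsto_const_nhds.congr' (by filter_upwards [hev] with s hs; exact (h _ hs).symm)
  have h1 : Tendsto (fun s : ℂ => F (fun i => d i + s)) (𝓝[≠] 0) (𝓝 (F d)) := by
    have := (hc.tendsto 0).mono_left (nhdsWithin_le_nhds (s := {(0 : ℂ)}ᶜ))
    simpa using this
  exact tendsto_nhds_unique h1 h0

theorem span_key {A Δ : Mat n} (hA : Triple A)
    (h : ∀ d : Fin n → ℂ, (∀ i, d i ≠ 0) → ∀ k : ℕ, k ≤ 2 →
      ((A * diagonal d) ^ k * (Δ * diagonal d)).trace = 0) :
    ∃ x : Fin n → ℂ, Δ = diagonal x * A - A * diagonal x := by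
  have hall : ∀ d : Fin n → ℂ, ∀ k : ℕ, k ≤ 2 →
      ((A * diagonal d) ^ k * (Δ * diagonal d)).trace = 0 := fun d k hk =>
    extend_zero (F := fun d => ((A * diagonal d) ^ k * (Δ * diagonal d)).trace)
      (by fun_prop) (fun d hd => h d hd k hk) d
  have h0 : ∀ i, Δ i i = 0 := by
    intro i
    have := hall (Pi.single i 1) 0 (by omega)
    simpa [Matrix.trace, Matrix.mul_diagonal, Pi.single_apply] using this
  have h1 : ∀ i j, i ≠ j → A i j * Δ j i + A j i * Δ i j = 0 := by
    intro i j hij
    have := hall (Pi.single i 1 + Pi.single j 1) 1 (by omega)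
    simp [Matrix.trace, Matrix.mul_apply, Matrix.diagonal_apply, Pi.single_apply, mul_add,
      add_mul, Finset.sum_add_distrib, h0] at this
    linear_combination this
  have h2 : ∀ i j k, i ≠ j → j ≠ k → i ≠ k →
      A i j * A j k * Δ k i + A j k * A k i * Δ i j + A k i * A i j * Δ j k +
      (A i k * A k j * Δ j i + A k j * A j i * Δ i k + A j i * A i k * Δ k j) = 0 := by
    intro i j k hij hjk hik
    have := hall (Pi.single i 1 + Pi.single j 1 + Pi.single k 1) 2 le_rfl
    simp [pow_two, Matrix.trace, Matrix.mul_apply, Matrix.diagonal_apply, Pi.single_apply, mul_add,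
      add_mul, Finset.sum_add_distrib, h0] at this
    linear_combination this - A i i * h1 i j hij - A j j * h1 i j hij - A i i * h1 i k hik -
      A k k * h1 i k hik - A j j * h1 j k hjk - A k k * h1 j k hjk
  let c : Fin n → Fin n → ℂ := fun i j => Δ i j / A i j
  have hc : ∀ i j, i ≠ j → Δ i j = c i j * A i j := fun i j _ =>
    (div_mul_cancel₀ _ (hA.1 i j)).symm
  have hskew : ∀ i j, i ≠ j → c j i = -c i j := by
    intro i j hij
    have := h1 i j hij
    rw [hc i j hij, hc j i hij.symm] at this
    have h' : A i j * A j i * (c j i + c i j) = 0 := by linear_combination this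
    rcases mul_eq_zero.1 h' with h'' | h''
    · exact absurd h'' (mul_ne_zero (hA.1 i j) (hA.1 j i))
    · linear_combination h''
  have hcyc : ∀ i j k, i ≠ j → j ≠ k → i ≠ k → c i j + c j k + c k i = 0 := by
    intro i j k hij hjk hik
    have := h2 i j k hij hjk hik
    rw [hc k i hik.symm, hc i j hij, hc j k hjk, hc j i hij.symm, hc i k hik, hc k j hjk.symm,
      hskew i j hij, hskew j k hjk, hskew k i hik.symm] at this
    have h' : (A i j * A j k * A k i - A i k * A k j * A j i) * (c i j + c j k + c k i) = 0 := by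
      linear_combination this
    rcases mul_eq_zero.1 h' with h'' | h''
    · exact absurd (sub_eq_zero.1 h'') (hA.2 i j k hij hjk hik)
    · exact h''
  rcases Nat.eq_zero_or_pos n with hn | hn
  · subst hn
    exact ⟨0, Subsingleton.elim _ _⟩
  let o : Fin n := ⟨0, hn⟩
  refine ⟨fun i => if i = o then 0 else c i o, ?_⟩
  ext i j
  rw [Matrix.sub_apply, Matrix.diagonal_mul, Matrix.mul_diagonal]
  by_cases hij : i = j
  · subst hij; rw [h0 i]; ring
  rw [hc i j hij]
  by_cases hi : i = o
  · subst hi
    rw [if_pos rfl, if_neg (Ne.symm hij), hskew o j hij]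
    ring
  · by_cases hj : j = o
    · subst hj
      rw [if_neg hi, if_pos rfl]
      ring
    · rw [if_neg hi, if_neg hj]
      have := hcyc i j o hij hj hi
      rw [hskew i o hi] at this
      linear_combination A i j * this

/-- The functional killing all twist vectors comes from a commutator functional. -/
theorem annihilator_eq {A P Q : Mat n} {b : Fin n → ℂ} (hA : Triple A) (hdet : A.det ≠ 0)
    (hb : Function.Injective b) (hb0 : ∀ i, b i ≠ 0) (hP : ∀ i, P i i = 0)
    (h : ∀ d : Fin n → ℂ, (∀ i, d i ≠ 0) → ∀ k : ℕ, k ≤ 2 →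
      ((A * diagonal d) ^ (k + 1) * (Q - (Matrix.of fun j i => P j i * b i / (b j - b i)) +
        diagonal (fun i => (d i)⁻¹) * (Matrix.of fun j i => P j i * b i / (b j - b i)) *
          diagonal d)).trace = 0) :
    ∃ H : Mat n, Q = H - A * H * A⁻¹ ∧
      P = diagonal b * H * diagonal (fun i => (b i)⁻¹) - H := by
  generalize hK : (Matrix.of fun j i => P j i * b i / (b j - b i) : Mat n) = K at h
  have hΔ : ∀ d : Fin n → ℂ, (∀ i, d i ≠ 0) → ∀ k : ℕ, k ≤ 2 →
      ((A * diagonal d) ^ k * (((Q - K) * A + A * K) * diagonal d)).trace = 0 := by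
    intro d hd k hk
    rw [← h d hd k hk]
    have hdd : diagonal d * diagonal (fun i => (d i)⁻¹) = 1 := by
      rw [diagonal_mul_diagonal, ← diagonal_one]
      congr 1
      funext i
      exact mul_inv_cancel₀ (hd i)
    rw [Matrix.add_mul, Matrix.mul_add, Matrix.trace_add, Matrix.mul_add, Matrix.trace_add]
    congr 1
    · rw [Matrix.mul_assoc (Q - K) A (diagonal d),
        Matrix.trace_mul_comm ((A * diagonal d) ^ k), Matrix.mul_assoc, ← pow_succ',
        Matrix.trace_mul_comm]
    · rw [pow_succ]
      simp only [Matrix.mul_assoc]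
      rw [← Matrix.mul_assoc (diagonal d) (diagonal fun i => (d i)⁻¹), hdd, Matrix.one_mul]
  obtain ⟨x, hx⟩ := span_key hA hΔ
  refine ⟨K + diagonal x, ?_, ?_⟩
  · have hQA : Q * A = (K + diagonal x) * A - A * (K + diagonal x) := by
      rw [Matrix.sub_mul, sub_add_eq_add_sub] at hx
      rw [Matrix.add_mul, Matrix.mul_add, ← sub_eq_zero]
      calc Q * A - (K * A + diagonal x * A - (A * K + A * diagonal x))
          = (Q * A + A * K - K * A) - (diagonal x * A - A * diagonal x) := by abel
        _ = 0 := by rw [hx, sub_self]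
    have hu : IsUnit A.det := isUnit_iff_ne_zero.2 hdet
    calc Q = Q * A * A⁻¹ := (Matrix.mul_nonsing_inv_cancel_right A Q hu).symm
      _ = _ := by rw [hQA, Matrix.sub_mul, Matrix.mul_nonsing_inv_cancel_right A _ hu]
  · subst hK
    ext j i
    rw [Matrix.sub_apply, Matrix.mul_diagonal, Matrix.diagonal_mul, Matrix.add_apply, Matrix.of_apply]
    by_cases hji : j = i
    · subst hji
      rw [hP, Matrix.diagonal_apply_eq]
      field_simp [hb0 j]
      ring
    · have : b j - b i ≠ 0 := sub_ne_zero.2 (hb.ne hji)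
      rw [Matrix.diagonal_apply_ne _ hji, add_zero]
      field_simp [hb0 i]

end P002Surf
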