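import Vale.Agent.P002Surf.Twist
import Vale.Agent.P002Surf.Span

/-!
Allowed local homeomorphisms of one handle, generated by twist tori.
-/

namespace P002Surf

open Matrix Filter Topology

open scoped Matrix.Norms.Operator

variable {g n : ℕ}

theorem continuous_ev : Continuous fun q : Fin g → Pair n => ev q := by
  refine continuous_pi fun v => ?_
  obtain ⟨i, b, r, c⟩ := v
  cases b <;> simp only [ev, Bool.cond_true, Bool.cond_false] <;> fun_prop

theorem isClosed_zd : IsClosed {q : Fin g → Pair n | Zd q} := by
  have : {q : Fin g → Pair n | Zd q} =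
      ⋂ p : {p : MvPolynomial (Idx g n) ℂ // ∀ a : Fin g → Matrix (Fin n) (Fin n) ℤ ×
        Matrix (Fin n) (Fin n) ℤ, IsRep a → MvPolynomial.eval (ev (castInt a)) p = 0},
        (fun q => MvPolynomial.eval (ev q) p.1) ⁻¹' {0} := by
    ext q
    simp only [Set.mem_ofPred_eq, Set.mem_iInter, Set.mem_preimage, Set.mem_singleton_iff]
    exact ⟨fun h p => h p.1 p.2, fun h p hp => h ⟨p, hp⟩⟩
  rw [this]
  exact isClosed_iInter fun p =>
    isClosed_singleton.preimage ((MvPolynomial.continuous_eval p.1).comp continuous_ev)

/-- The entry that stays fixed when twisting on `side`. -/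
def key (side : Bool) (x : Pair n) : Mat n := cond side x.1 x.2

/-- Multiply the other entry by a function of the fixed one. -/
def stepFun (side : Bool) (z : Mat n → Mat n) (x : Pair n) : Pair n :=
  cond side (x.1, x.2 * z x.1) (x.1 * z x.2, x.2)

theorem key_stepFun (side : Bool) (z : Mat n → Mat n) (x : Pair n) :
    key side (stepFun side z x) = key side x := by cases side <;> rfl

theorem continuous_key (side : Bool) : Continuous (key (n := n) side) := by
  cases side
  · exact continuous_snd
  · exact continuous_fst

/-- The partial homeomorphism of a step. -/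
noncomputable def stepHomeo (side : Bool) (z : Mat n → Mat n) (U : Set (Mat n)) (hU : IsOpen U)
    (hc : ContinuousOn z U) (hd : ∀ K ∈ U, (z K).det = 1) :
    OpenPartialHomeomorph (Pair n) (Pair n) where
  toFun := stepFun side z
  invFun := stepFun side (fun K => (z K).adjugate)
  source := key side ⁻¹' U
  target := key side ⁻¹' U
  map_source' := fun x hx => by simpa [key_stepFun] using hx
  map_target' := fun x hx => by simpa [key_stepFun] using hx
  left_inv' := fun x hx => by
    cases side
    · simp [stepFun, Matrix.mul_assoc, mul_adj_one (hd x.2 hx)]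
    · simp [stepFun, Matrix.mul_assoc, mul_adj_one (hd x.1 hx)]
  right_inv' := fun x hx => by
    cases side
    · simp [stepFun, Matrix.mul_assoc, adj_mul_one (hd x.2 hx)]
    · simp [stepFun, Matrix.mul_assoc, adj_mul_one (hd x.1 hx)]
  open_source := hU.preimage (continuous_key side)
  open_target := hU.preimage (continuous_key side)
  continuousOn_toFun := by
    cases side
    · exact ((continuous_fst.continuousOn).mul (hc.comp continuous_snd.continuousOn
        (fun x hx => hx))).prodMk continuous_snd.continuousOn
    · exact continuous_fst.continuousOn.prodMk ((continuous_snd.continuousOn).mul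
        (hc.comp continuous_fst.continuousOn (fun x hx => hx)))
  continuousOn_invFun := by
    have hc' : ContinuousOn (fun K => (z K).adjugate) U :=
      (continuous_id.matrix_adjugate).comp_continuousOn hc
    cases side
    · exact ((continuous_fst.continuousOn).mul (hc'.comp continuous_snd.continuousOn
        (fun x hx => hx))).prodMk continuous_snd.continuousOn
    · exact continuous_fst.continuousOn.prodMk ((continuous_snd.continuousOn).mul
        (hc'.comp continuous_fst.continuousOn (fun x hx => hx)))

variable (i : Fin g) (S : Set (Pair n)) (rest : Pair n → Fin g → Pair n)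

/-- A local homeomorphism moving handle `i` inside the closure. -/
structure Allowed (h : OpenPartialHomeomorph (Pair n) (Pair n)) : Prop where
  subset : h.source ⊆ S
  fwd : ∀ x ∈ h.source, SL1 x →
    SL1 (h x) ∧ cm (h x) = cm x ∧ Zd (Function.update (rest x) i (h x))
  bwd : ∀ y ∈ h.target, SL1 y → SL1 (h.symm y)

variable {i} {S} {rest}

theorem allowed_id (hS : IsOpen S) (hz : ∀ x ∈ S, SL1 x → Zd (Function.update (rest x) i x)) :
    Allowed i S rest (OpenPartialHomeomorph.ofSet S hS) :=
  ⟨fun x hx => hx, fun x hx h1 => ⟨h1, rfl, hz x hx h1⟩, fun y _ h1 => h1⟩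

theorem sl1_step {side : Bool} {z : Mat n → Mat n} {y : Pair n} (hy : SL1 y)
    (hd : (z (key side y)).det = 1) : SL1 (stepFun side z y) := by
  cases side <;> simp only [key, Bool.cond_true, Bool.cond_false] at hd <;>
    simp [SL1, stepFun, Matrix.det_mul, hy.1, hy.2, hd]

theorem allowed_step (hS : IsOpen S) (hrest : ContinuousOn rest S)
    {h : OpenPartialHomeomorph (Pair n) (Pair n)} (hh : Allowed i S rest h) (side : Bool)
    {z : Mat n → Mat n} {U : Set (Mat n)} (hU : IsOpen U) (hc : ContinuousOn z U)
    (hd : ∀ K ∈ U, (z K).det = 1) (hcom : ∀ K ∈ U, K * z K = z K * K) :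
    Allowed i S rest (h.trans (stepHomeo side z U hU hc hd)) := by
  refine ⟨fun x hx => hh.subset hx.1, ?_, ?_⟩
  · rintro x ⟨hx, hxU⟩ h1
    obtain ⟨hy1, hy2, -⟩ := hh.fwd x hx h1
    have hxU' : key side (h x) ∈ U := hxU
    refine ⟨sl1_step hy1 (hd _ hxU'), ?_, ?_⟩
    · show cm (stepFun side z (h x)) = cm x
      rw [← hy2]
      cases side
      · exact cm_twistA (hd _ hxU') (hcom _ hxU')
      · exact cm_twistB (hd _ hxU') (hcom _ hxU')
    · show Zd (Function.update (rest x) i (stepFun side z (h x)))
      by_contra hne
      have hy : h x ∈ h.target := h.map_source hx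
      let Ξ : Pair n → Fin g → Pair n :=
        fun y => Function.update (rest (h.symm y)) i (stepFun side z y)
      have hsymm : ContinuousAt h.symm (h x) := h.continuousAt_symm hy
      have hrc : ContinuousAt (fun y => rest (h.symm y)) (h x) := by
        refine ContinuousAt.comp ?_ hsymm
        rw [h.left_inv hx]
        exact hrest.continuousAt (hS.mem_nhds (hh.subset hx))
      have hstep : ContinuousAt (stepFun side z) (h x) :=
        (stepHomeo side z U hU hc hd).continuousAt hxU'
      have hΞ : ContinuousAt Ξ (h x) := by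
        rw [continuousAt_pi]
        intro k
        by_cases hk : k = i
        · subst hk
          simpa [Ξ] using hstep
        · simp only [Ξ, Function.update_of_ne hk]
          exact (continuous_apply k).continuousAt.comp hrc
      have hev : ∀ᶠ y in 𝓝 (h x), ¬ Zd (Ξ y) ∧ y ∈ h.target ∧ key side y ∈ U :=
        Filter.Eventually.and (p := fun y => ¬ Zd (Ξ y))
          (hΞ.preimage_mem_nhds (isClosed_zd.isOpen_compl.mem_nhds
            (show ¬ Zd (Ξ (h x)) by simp only [Ξ, h.left_inv hx]; exact hne)))
          (Filter.Eventually.and (p := fun y => y ∈ h.target) (h.open_target.mem_nhds hy)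
            ((stepHomeo side z U hU hc hd).open_source.mem_nhds hxU'))
      let ι : Mat n → Pair n := fun K => cond side (K, (h x).2) ((h x).1, K)
      have hι : Continuous ι := by
        cases side
        · exact continuous_const.prodMk continuous_id
        · exact continuous_id.prodMk continuous_const
      have hι0 : ι (key side (h x)) = h x := by cases side <;> rfl
      have hdet : (key side (h x)).det = 1 := by
        cases side
        · exact hy1.2
        · exact hy1.1
      have hev' : ∀ᶠ y in 𝓝 (ι (key side (h x))), ¬ Zd (Ξ y) ∧ y ∈ h.target ∧ key side y ∈ U := by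
        rw [hι0]; exact hev
      obtain ⟨K, ⟨hK1, hK2, hK3⟩, hKd, hKi⟩ := dense_indep hdet (hι.tendsto _ hev')
      have hk : key side (ι K) = K := by cases side <;> rfl
      have hsl : SL1 (ι K) := by
        cases side
        · exact ⟨hy1.1, hKd⟩
        · exact ⟨hKd, hy1.2⟩
      have hx' := h.map_target hK2
      obtain ⟨-, -, hz'⟩ := hh.fwd _ hx' (hh.bwd _ hK2 hsl)
      rw [h.right_inv hK2] at hz'
      rw [hk] at hK3
      have hi : cond side (Function.update (rest (h.symm (ι K))) i (ι K) i).1
          (Function.update (rest (h.symm (ι K))) i (ι K) i).2 = K := by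
        rw [Function.update_self]; exact hk
      have htor := zd_torus hz' i side (Z := z K) (by rw [hi]; exact hKi) (hd K hK3)
        (by rw [hi]; exact hcom K hK3)
      refine hK1 ?_
      show Zd (Function.update (rest (h.symm (ι K))) i (stepFun side z (ι K)))
      have e : stepFun side z (ι K) =
          cond side ((ι K).1, (ι K).2 * z K) ((ι K).1 * z K, (ι K).2) := by
        clear htor hz' hev hev' hΞ hstep hrc
        cases side <;> simp [stepFun, ι]
      rw [e]
      rw [Function.update_self, Function.update_idem] at htor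
      exact htor
  · rintro y ⟨hy, hy'⟩ h1
    have hyU : key side y ∈ U := hy
    have hs : SL1 (stepFun side (fun K => (z K).adjugate) y) :=
      sl1_step (z := fun K => (z K).adjugate) h1 (det_adj_one (hd (key side y) hyU))
    exact hh.bwd _ hy' hs

/-! ### the standard families -/

/-- Scale an invertible matrix into SL polynomially. -/
noncomputable def zN (Q : Mat n) : Mat n := (Q.det)⁻¹ • Q ^ n

theorem det_zN {Q : Mat n} (h : Q.det ≠ 0) : (zN Q).det = 1 := by
  rw [zN, Matrix.det_smul, Fintype.card_fin, Matrix.det_pow, ← mul_pow, inv_mul_cancel₀ h, one_pow]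

theorem commute_zN {Q K : Mat n} (h : Commute K Q) : Commute K (zN Q) :=
  (h.pow_right n).smul_right _

theorem zN_one : zN (1 : Mat n) = 1 := by simp [zN]

theorem zN_smul_diag (P : Mat n) (hP : P.det ≠ 0) (e : Fin n → ℂ) :
    zN (P * diagonal e * P⁻¹) = P * diagonal (fun i => (∏ k, e k)⁻¹ * e i ^ n) * P⁻¹ := by
  have hu := isUnit_det_of_ne hP
  have hpow : ∀ m : ℕ, (P * diagonal e * P⁻¹) ^ m = P * diagonal (fun i => e i ^ m) * P⁻¹ := by
    intro m
    induction m with
    | zero => simp [Matrix.mul_nonsing_inv P hu]
    | succ m ih =>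
      rw [pow_succ, ih]
      simp only [Matrix.mul_assoc]
      rw [← Matrix.mul_assoc P⁻¹ P, Matrix.nonsing_inv_mul P hu, Matrix.one_mul,
        ← Matrix.mul_assoc (diagonal _) (diagonal e), diagonal_mul_diagonal]
      simp [pow_succ]
  rw [zN, hpow]
  have hd : (P * diagonal e * P⁻¹).det = ∏ k, e k := by
    rw [Matrix.det_mul, Matrix.det_mul, mul_comm P.det, mul_assoc, ← Matrix.det_mul,
      Matrix.mul_nonsing_inv P hu, Matrix.det_one, mul_one, det_diagonal]
  rw [hd, show (fun i => (∏ k, e k)⁻¹ * e i ^ n) = (∏ k, e k)⁻¹ • fun i => e i ^ n from rfl,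
    Matrix.diagonal_smul, Matrix.mul_smul, Matrix.smul_mul]

theorem aeval_conj {P : Mat n} (hP : P.det ≠ 0) (μ : Fin n → ℂ) (q : Polynomial ℂ) :
    Polynomial.aeval (P * diagonal μ * P⁻¹) q = P * diagonal (fun i => q.eval (μ i)) * P⁻¹ := by
  have hu := isUnit_det_of_ne hP
  induction q using Polynomial.induction_on with
  | C a =>
    simp only [Polynomial.aeval_C, Polynomial.eval_C, Algebra.algebraMap_eq_smul_one]
    rw [← Matrix.smul_one_eq_diagonal, Matrix.mul_smul, Matrix.mul_one, Matrix.smul_mul,
      Matrix.mul_nonsing_inv P hu]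
  | add p q hp hq =>
    simp only [map_add, Polynomial.eval_add, hp, hq]
    rw [← Matrix.diagonal_add, Matrix.mul_add, Matrix.add_mul]
  | monomial m a ih =>
    rw [pow_succ, ← mul_assoc, map_mul, ih, Polynomial.aeval_X]
    simp only [Matrix.mul_assoc]
    rw [← Matrix.mul_assoc P⁻¹ P, Matrix.nonsing_inv_mul P hu, Matrix.one_mul,
      ← Matrix.mul_assoc (diagonal _) (diagonal μ), diagonal_mul_diagonal]
    simp [mul_assoc]

theorem contDiff_det : ContDiff ℂ 1 (fun Q : Mat n => Q.det) := by
  simp only [Matrix.det_apply']
  refine ContDiff.sum fun σ _ => contDiff_const.mul (contDiff_prod fun k _ => ?_)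
  exact (ContinuousLinearMap.mk (Matrix.entryLinearMap ℂ ℂ (σ k) k)
    (by exact continuous_id.matrix_elem _ _)).contDiff

theorem contDiff_adjugate : ContDiff ℂ 1 (fun Q : Mat n => Q.adjugate) := by
  have h : ∀ r c, ContDiff ℂ 1 (fun Q : Mat n => Q.adjugate r c) := by
    intro r c
    simp only [Matrix.adjugate_apply]
    refine contDiff_det.comp ?_
    let L : Mat n →ₗ[ℂ] Mat n :=
      { toFun := fun Q => Q.updateRow c 0
        map_add' := fun Q R => by
          ext a b; by_cases ha : a = c <;> simp [Matrix.updateRow_apply, ha]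
        map_smul' := fun t Q => by
          ext a b; by_cases ha : a = c <;> simp [Matrix.updateRow_apply, ha] }
    have : (fun Q : Mat n => Q.updateRow c (Pi.single r 1)) =
        fun Q => L.toContinuousLinearMap Q + (0 : Mat n).updateRow c (Pi.single r 1) := by
      funext Q
      ext a b
      by_cases ha : a = c <;> simp [L, Matrix.updateRow_apply, ha]
    rw [this]
    exact L.toContinuousLinearMap.contDiff.add contDiff_const
  have : (fun Q : Mat n => Q.adjugate) =
      fun Q => ∑ r, ∑ c, Q.adjugate r c • Matrix.single r c (1 : ℂ) := by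
    funext Q
    conv_lhs => rw [Matrix.matrix_eq_sum_single Q.adjugate]
    exact Finset.sum_congr rfl fun r _ => Finset.sum_congr rfl fun c _ => by
      rw [Matrix.smul_single, smul_eq_mul, mul_one]
  rw [this]
  exact ContDiff.sum fun r _ => ContDiff.sum fun c _ => (h r c).smul contDiff_const

theorem contDiff_aeval (q : Polynomial ℂ) :
    ContDiff ℂ 1 (fun K : Mat n => Polynomial.aeval K q) := by
  induction q using Polynomial.induction_on with
  | C a => simpa [Algebra.algebraMap_eq_smul_one] using contDiff_const
  | add p q hp hq => simpa using hp.add hq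
  | monomial m a ih =>
    have : (fun K : Mat n => Polynomial.aeval K (Polynomial.C a * Polynomial.X ^ (m + 1))) =
        fun K => Polynomial.aeval K (Polynomial.C a * Polynomial.X ^ m) * K := by
      funext K
      rw [pow_succ, ← mul_assoc, map_mul, Polynomial.aeval_X]
    rw [this]
    exact ih.mul contDiff_id

theorem contDiffAt_zN {Q : Mat n} (h : Q.det ≠ 0) : ContDiffAt ℂ 1 zN Q :=
  (contDiff_det.contDiffAt.inv h).smul ((contDiff_id.pow n).contDiffAt)

end P002Surf
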