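import Vale.Agent.P002Surf.Defs
import Vale.Agent.P002.Surface.Count

/-!
# P002: from good representations to all representations

A generic point of a component of the representation variety has a handle with scalar commutant,
because the other representations depend on fewer parameters than every component has.
-/

namespace P002Surf

open Matrix MvPolynomial Vale.Agent.P002.Surface

/-- A rational test suffices for a complex polynomial vanishing on rational points. -/
theorem eval_eq_zero_of_rat {σ : Type} [Fintype σ] (p : MvPolynomial σ ℂ) (Z : Set (σ → ℚ))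
    (x : σ → ℂ) (hp : ∀ z ∈ Z, eval (fun v => (z v : ℂ)) p = 0)
    (hx : ∀ f : MvPolynomial σ ℚ, (∀ z ∈ Z, eval z f = 0) → aeval x f = 0) : eval x p = 0 := by
  classical
  let b := Module.Basis.ofVectorSpace ℚ ℂ
  let f : Module.Basis.ofVectorSpaceIndex ℚ ℂ → MvPolynomial σ ℚ := fun k =>
    ∑ m ∈ p.support, monomial m (b.repr (p.coeff m) k)
  have hf : ∀ k, aeval x (f k) = 0 := by
    intro k
    refine hx _ fun z hz => ?_
    have h0 := congrArg (fun w => b.repr w k) (hp z hz)
    simp only [map_zero, Finsupp.zero_apply, eval_eq, map_sum, Finsupp.finsetSum_apply] at h0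
    rw [← h0]
    simp only [f, map_sum, eval_monomial]
    refine Finset.sum_congr rfl fun m _ => ?_
    have e : p.coeff m * ∏ i ∈ m.support, (z i : ℂ) ^ m i =
        (∏ i ∈ m.support, z i ^ m i : ℚ) • p.coeff m := by
      rw [Rat.smul_def]
      push_cast
      ring
    rw [e, map_smul, Finsupp.smul_apply, smul_eq_mul, mul_comm]
    rfl
  let K := p.support.biUnion fun m => (b.repr (p.coeff m)).support
  have hsum : ∀ m ∈ p.support, p.coeff m = ∑ k ∈ K, (b.repr (p.coeff m) k : ℂ) * b k := by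
    intro m hm
    conv_lhs => rw [← b.linearCombination_repr (p.coeff m), Finsupp.linearCombination_apply,
      Finsupp.sum_of_support_subset _ (s := K) (Finset.subset_biUnion_of_mem
        (fun m => (b.repr (p.coeff m)).support) hm) (fun i a => a • b i) (fun _ _ => zero_smul ℚ _)]
    exact Finset.sum_congr rfl fun k _ => Rat.smul_def _ _
  calc eval x p = ∑ m ∈ p.support, p.coeff m * ∏ i ∈ m.support, x i ^ m i := eval_eq _ _
    _ = ∑ m ∈ p.support, ∑ k ∈ K,
          b k * ((b.repr (p.coeff m) k : ℂ) * ∏ i ∈ m.support, x i ^ m i) := by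
        refine Finset.sum_congr rfl fun m hm => ?_
        conv_lhs => rw [hsum m hm, Finset.sum_mul]
        exact Finset.sum_congr rfl fun k _ => by ring
    _ = ∑ k ∈ K, b k * aeval x (f k) := by
        rw [Finset.sum_comm]
        refine Finset.sum_congr rfl fun k _ => ?_
        simp only [f, map_sum, aeval_monomial, Finset.mul_sum]
        exact Finset.sum_congr rfl fun m _ => by rw [eq_ratCast]; rfl
    _ = 0 := Finset.sum_eq_zero fun k _ => by rw [hf, mul_zero]

theorem cm_map {n : ℕ} {R S : Type} [CommRing R] [CommRing S] (f : R →+* S)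
    (p : Matrix (Fin n) (Fin n) R × Matrix (Fin n) (Fin n) R) :
    f.mapMatrix (cm p) = cm (f.mapMatrix p.1, f.mapMatrix p.2) := by
  simp only [cm, map_mul, RingHom.map_adjugate]

theorem det_cm_closure {n : ℕ} {R : Type} [CommRing R]
    {p : Matrix (Fin n) (Fin n) R × Matrix (Fin n) (Fin n) R} (h₁ : p.1.det = 1)
    (h₂ : p.2.det = 1) : (cm p).det = 1 := by
  simp [cm, det_adjugate, h₁, h₂]

/-- The tuple of pairs with given entries. -/
def tup {g n : ℕ} {R : Type} (x : Idx g n → R) :
    Fin g → Matrix (Fin n) (Fin n) R × Matrix (Fin n) (Fin n) R :=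
  fun i => (Matrix.of fun a b => x (i, false, a, b), Matrix.of fun a b => x (i, true, a, b))

theorem ev_tup {g n : ℕ} {R : Type} (x : Idx g n → R) : ev (tup x) = x := by
  funext ⟨i, s, a, b⟩
  cases s <;> rfl

theorem tup_ev {g n : ℕ} {R : Type} (q : Fin g → Matrix (Fin n) (Fin n) R × Matrix (Fin n) (Fin n) R) :
    tup (ev q) = q := by
  funext i
  rfl

theorem map_tup {g n : ℕ} {R S : Type} [CommRing R] [CommRing S] (f : R →+* S) (x : Idx g n → R)
    (i : Fin g) :
    (f.mapMatrix (tup x i).1, f.mapMatrix (tup x i).2) = tup (fun v => f (x v)) i := rfl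

theorem map_prod_cm {g n : ℕ} {R S : Type} [CommRing R] [CommRing S] (f : R →+* S)
    (x : Idx g n → R) :
    f.mapMatrix (List.ofFn fun i => cm (tup x i)).prod =
      (List.ofFn fun i => cm (tup (fun v => f (x v)) i)).prod := by
  rw [map_list_prod, List.map_ofFn]
  congr 2
  funext i
  rw [Function.comp_apply, cm_map, map_tup]

/-- All entries of the identity except one, and determinant one, give the identity. -/
theorem eq_one_of_off {n : ℕ} (i₀ : Fin n) (A : Matrix (Fin n) (Fin n) ℂ) (hd : A.det = 1)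
    (hent : ∀ a b, (a, b) ≠ (i₀, i₀) → A a b = (1 : Matrix (Fin n) (Fin n) ℂ) a b) : A = 1 := by
  have hdiag : A = diagonal fun j => A j j := by
    ext a b
    by_cases hab : a = b
    · subst hab; simp
    · rw [hent a b (fun h' => hab ((Prod.ext_iff.1 h').1.trans (Prod.ext_iff.1 h').2.symm)),
        one_apply_ne hab, diagonal_apply_ne _ hab]
  rw [hdiag, det_diagonal, Finset.prod_eq_single i₀ (fun j _ hj => by
    rw [hent j j (fun h' => hj (Prod.ext_iff.1 h').1), one_apply_eq])
    (fun h' => absurd (Finset.mem_univ _) h')] at hd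
  ext a b
  by_cases hab : (a, b) = (i₀, i₀)
  · obtain ⟨rfl, rfl⟩ : a = i₀ ∧ b = i₀ := Prod.mk.inj hab
    rw [hd, one_apply_eq]
  · exact hent a b hab

/-- A representation without a handle of scalar commutant depends on few parameters. -/
theorem param_count {k n : ℕ} (hn : 0 < n)
    (q : Fin (k + 1) → Matrix (Fin n) (Fin n) ℂ × Matrix (Fin n) (Fin n) ℂ) (hq : IsRep q)
    (hbad : ∀ i, ¬ ScalarCommutant (q i)) :
    ∃ T : Finset ℂ, T.card + k * (2 * n) + 2 ≤ k * (2 * (n * n)) + n * n + n ∧
      ∀ v, ev q v ∈ acl (T : Set ℂ) := by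
  classical
  have hb : ∀ i, ∃ T, NonScalar T ∧ T * (q i).1 = (q i).1 * T ∧
      T * (q i).2 = (q i).2 * T := by
    intro i
    have := hbad i
    simp only [ScalarCommutant, not_forall, not_exists, exists_prop] at this
    obtain ⟨T, hT1, hT2, hT⟩ := this
    exact ⟨T, hT, hT1, hT2⟩
  choose t ht htA htB using fun i => bad_pair_count (hq.1 i).1 (hq.1 i).2 (hb i)
  let S : Finset ℂ := Finset.univ.biUnion fun i : Fin k => t i.castSucc
  have hS : S.card + k * (2 * n) ≤ k * (2 * (n * n)) := by
    have h1 : ∑ i : Fin k, ((t i.castSucc).card + 2 * n) ≤ ∑ _i : Fin k, 2 * (n * n) :=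
      Finset.sum_le_sum fun i _ => ht _
    simp only [Finset.sum_add_distrib, Finset.sum_const, Finset.card_univ, Fintype.card_fin,
      smul_eq_mul] at h1
    exact (Nat.add_le_add_right Finset.card_biUnion_le _).trans h1
  have htS : ∀ i : Fin k, (t i.castSucc : Set ℂ) ⊆ acl (S : Set ℂ) := fun i z hz =>
    subset_acl _ (Finset.mem_coe.2 (Finset.mem_biUnion.2 ⟨i, Finset.mem_univ _, hz⟩))
  obtain ⟨hA1, hB1⟩ := hq.1 (Fin.last k)
  have hprod := hq.2
  rw [List.ofFn_succ', List.prod_concat] at hprod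
  have hc : InA (S : Set ℂ) (cm (q (Fin.last k))) := by
    rw [← Matrix.inv_eq_right_inv hprod]
    refine InA.inv (InA.list_prod fun A hA => ?_)
    obtain ⟨i, rfl⟩ := List.mem_ofFn.1 hA
    have a1 := (htA i.castSucc).mono (htS i)
    have a2 := (htB i.castSucc).mono (htS i)
    exact ((a1.mul a2).mul a1.adjugate).mul a2.adjugate
  have hcBA : cm (q (Fin.last k)) * (q (Fin.last k)).2 * (q (Fin.last k)).1 =
      (q (Fin.last k)).1 * (q (Fin.last k)).2 := by
    rw [cm, mul_assoc _ (adjugate _) _, adjugate_mul, hB1, one_smul, mul_one,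
      mul_assoc _ (adjugate _) _, adjugate_mul, hA1, one_smul, mul_one]
  obtain ⟨u, hu, huA, huB⟩ := fibre_count hn hA1 hB1 hc hcBA
  refine ⟨S ∪ u, ?_, ?_⟩
  · have := Finset.card_union_le S u
    omega
  rintro ⟨i, s, a, b⟩
  have hsub : (S : Set ℂ) ⊆ acl ((S ∪ u : Finset ℂ) : Set ℂ) := fun z hz =>
    subset_acl _ (by simp [Finset.mem_coe.1 hz])
  rcases Fin.eq_castSucc_or_eq_last i with ⟨j, rfl⟩ | rfl
  · cases s
    · exact acl_subset_acl hsub ((htA j.castSucc).mono (htS j) a b)
    · exact acl_subset_acl hsub ((htB j.castSucc).mono (htS j) a b)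
  · rw [Finset.coe_union]
    cases s
    · exact huA a b
    · exact huB a b

/-- The product of the commutators of the tuple of variables, minus one. -/
noncomputable def relMat (g n : ℕ) : Matrix (Fin n) (Fin n) (MvPolynomial (Idx g n) ℚ) :=
  (List.ofFn fun i => cm (tup (fun v : Idx g n => X v) i)).prod - 1

open scoped Classical in
/-- Equations for the representation variety, one fewer than the obvious ones. -/
noncomputable def eqs (g n : ℕ) (i₀ : Fin n) : Finset (MvPolynomial (Idx g n) ℚ) :=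
  (Finset.univ.image fun i => (tup (fun v : Idx g n => X v) i).1.det - 1) ∪
    (Finset.univ.image fun i => (tup (fun v : Idx g n => X v) i).2.det - 1) ∪
      ((Finset.univ.erase (i₀, i₀)).image fun v => relMat g n v.1 v.2)

theorem eqs_card {g n : ℕ} (i₀ : Fin n) : (eqs g n i₀).card + 1 ≤ 2 * g + n * n := by
  classical
  have h1 : (eqs g n i₀).card ≤ g + g + (n * n - 1) := by
    refine (Finset.card_union_le _ _).trans (add_le_add ((Finset.card_union_le _ _).trans
      (add_le_add (Finset.card_image_le.trans (by simp)) (Finset.card_image_le.trans (by simp))))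
      (Finset.card_image_le.trans ?_))
    simp [Finset.card_erase_of_mem]
  have h2 : 1 ≤ n * n := Nat.mul_le_mul (i₀.pos) (i₀.pos)
  omega

theorem algHom_tup {g n : ℕ} {R S : Type} [CommRing R] [CommRing S] [Algebra ℚ R] [Algebra ℚ S]
    (f : R →ₐ[ℚ] S) (v : Idx g n → R) :
    (∀ i, f (tup v i).1.det = (tup (fun w => f (v w)) i).1.det ∧
      f (tup v i).2.det = (tup (fun w => f (v w)) i).2.det) ∧
    ∀ a b, f (((List.ofFn fun i => cm (tup v i)).prod - 1) a b) =
      ((List.ofFn fun i => cm (tup (fun w => f (v w)) i)).prod - 1) a b := by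
  refine ⟨fun i => ⟨?_, ?_⟩, fun a b => ?_⟩
  · exact f.toRingHom.map_det _
  · exact f.toRingHom.map_det _
  · rw [Matrix.sub_apply, Matrix.sub_apply, map_sub]
    congr 1
    · exact congrFun (congrFun (map_prod_cm f.toRingHom v) a) b
    · rcases eq_or_ne a b with rfl | h <;> simp [*]

theorem aeval_gen_det {g n : ℕ} (x : Idx g n → ℂ) (i : Fin g) :
    aeval x ((tup (fun v : Idx g n => X v) i).1.det - 1 : MvPolynomial (Idx g n) ℚ) =
        (tup x i).1.det - 1 ∧
      aeval x ((tup (fun v : Idx g n => X v) i).2.det - 1 : MvPolynomial (Idx g n) ℚ) =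
        (tup x i).2.det - 1 := by
  obtain ⟨h1, h2⟩ := (algHom_tup (aeval x : MvPolynomial (Idx g n) ℚ →ₐ[ℚ] ℂ) fun v => X v).1 i
  simp only [aeval_X] at h1 h2
  rw [map_sub, map_sub, map_one, h1, h2]
  exact ⟨rfl, rfl⟩

theorem aeval_relMat {g n : ℕ} (x : Idx g n → ℂ) (a b : Fin n) :
    aeval x (relMat g n a b) = ((List.ofFn fun i => cm (tup x i)).prod - 1) a b := by
  have h := (algHom_tup (aeval x : MvPolynomial (Idx g n) ℚ →ₐ[ℚ] ℂ) fun v => X v).2 a b
  simp only [aeval_X] at h
  exact h

theorem isRep_iff {g n : ℕ} (i₀ : Fin n) (x : Idx g n → ℂ) :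
    IsRep (tup x) ↔ ∀ f ∈ eqs g n i₀, aeval x f = 0 := by
  classical
  constructor
  · intro hq f hf
    simp only [eqs, Finset.mem_union, Finset.mem_image] at hf
    rcases hf with (⟨i, -, rfl⟩ | ⟨i, -, rfl⟩) | ⟨v, -, rfl⟩
    · rw [(aeval_gen_det x i).1, (hq.1 i).1, sub_self]
    · rw [(aeval_gen_det x i).2, (hq.1 i).2, sub_self]
    · rw [aeval_relMat, hq.2, sub_self, Matrix.zero_apply]
  · intro hF
    simp only [eqs, Finset.mem_union, Finset.mem_image] at hF
    have hdet : ∀ i, (tup x i).1.det = 1 ∧ (tup x i).2.det = 1 := fun i => by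
      have a1 := hF _ (Or.inl (Or.inl ⟨i, Finset.mem_univ _, rfl⟩))
      have a2 := hF _ (Or.inl (Or.inr ⟨i, Finset.mem_univ _, rfl⟩))
      rw [(aeval_gen_det x i).1, sub_eq_zero] at a1
      rw [(aeval_gen_det x i).2, sub_eq_zero] at a2
      exact ⟨a1, a2⟩
    refine ⟨hdet, eq_one_of_off i₀ _ ?_ fun a b hab => ?_⟩
    · refine List.prod_induction (fun A : Matrix (Fin n) (Fin n) ℂ => A.det = 1)
        (fun A B ha hb => by rw [det_mul, ha, hb, mul_one]) det_one fun A hA => ?_
      obtain ⟨i, rfl⟩ := List.mem_ofFn.1 hA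
      exact det_cm_closure (hdet i).1 (hdet i).2
    · have a1 := hF _ (Or.inr ⟨(a, b), Finset.mem_erase.2 ⟨hab, Finset.mem_univ _⟩, rfl⟩)
      rw [aeval_relMat, Matrix.sub_apply, sub_eq_zero] at a1
      exact a1

/-- Every representation is a specialisation of one with many free coordinates. -/
theorem exists_generic_rep {g n : ℕ} (i₀ : Fin n)
    (q : Fin g → Matrix (Fin n) (Fin n) ℂ × Matrix (Fin n) (Fin n) ℂ) (hq : IsRep q) :
    ∃ y : Idx g n → ℂ, IsRep (tup y) ∧
      (∀ f : MvPolynomial (Idx g n) ℚ, aeval y f = 0 → aeval (ev q) f = 0) ∧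
      ∀ T : Finset ℂ, (∀ v, y v ∈ acl (T : Set ℂ)) →
        2 * g * (n * n) + 1 ≤ T.card + 2 * g + n * n := by
  classical
  obtain ⟨N, hN⟩ : ∃ N, N = Fintype.card (Idx g n) := ⟨_, rfl⟩
  let e : Idx g n ≃ Fin N := (Fintype.equivFin _).trans (finCongr hN.symm)
  let x : Fin N → ℂ := ev q ∘ e.symm
  have hxe : x ∘ e = ev q := funext fun v => by simp [x]
  let F := (eqs g n i₀).image (rename e : MvPolynomial (Idx g n) ℚ →ₐ[ℚ] _)
  have hval : ∀ (z : Fin N → ℂ) (f : MvPolynomial (Idx g n) ℚ),
      aeval z (rename e f) = aeval (z ∘ e) f := fun z f => aeval_rename _ _ _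
  have hJ : Ideal.span (F : Set (MvPolynomial (Fin N) ℚ)) ≤ RingHom.ker (aeval x : _ →ₐ[ℚ] ℂ) := by
    rw [Ideal.span_le]
    intro f hf
    obtain ⟨f', hf', rfl⟩ := Finset.mem_image.1 (Finset.mem_coe.1 hf)
    rw [SetLike.mem_coe, RingHom.mem_ker, hval, hxe]
    exact (isRep_iff i₀ (ev q)).1 (by rwa [tup_ev]) f' hf'
  have : (RingHom.ker (aeval x : _ →ₐ[ℚ] ℂ)).IsPrime := RingHom.ker_isPrime _
  obtain ⟨P, hP, hPx⟩ := Ideal.exists_minimalPrimes_le hJ
  have : P.IsPrime := hP.1.1
  have hht : P.height ≤ F.card := Ideal.height_le_card_of_mem_minimalPrimes_span_finset hP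
  obtain ⟨y, hy⟩ := exists_generic P
  refine ⟨y ∘ e, (isRep_iff i₀ _).2 fun f hf => ?_, fun f hf => ?_, fun T hT => ?_⟩
  · have hfP : rename e f ∈ P := hP.1.2 (Ideal.subset_span (Finset.mem_image_of_mem _ hf))
    rw [← hy, RingHom.mem_ker, hval] at hfP
    exact hfP
  · have hfP : rename e f ∈ P := by
      rw [← hy, RingHom.mem_ker, hval]
      exact hf
    have h3 := hPx hfP
    rwa [RingHom.mem_ker, hval, hxe] at h3
  · have h1 := le_card_add_height P hht y hy T fun v => by
      have h2 := hT (e.symm v)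
      rwa [Function.comp_apply, Equiv.apply_symm_apply] at h2
    have h2 : F.card ≤ (eqs g n i₀).card := Finset.card_image_le
    have h3 := eqs_card (g := g) i₀
    have hN' : N = 2 * g * (n * n) := by
      rw [hN]
      simp [Idx]
      ring
    omega

/-- If all representations with a handle of scalar commutant are in the closure of the integral
ones, then all representations are. -/
theorem zd_of_good {g n : ℕ} (hg : 2 ≤ g)
    (h : ∀ q : Fin g → Matrix (Fin n) (Fin n) ℂ × Matrix (Fin n) (Fin n) ℂ,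
      IsRep q → (∃ i, ScalarCommutant (q i)) → Zd q) :
    ∀ q : Fin g → Matrix (Fin n) (Fin n) ℂ × Matrix (Fin n) (Fin n) ℂ, IsRep q → Zd q := by
  classical
  intro q hq
  rcases Nat.lt_or_ge n 2 with hn | hn
  · refine h q hq ⟨⟨0, by omega⟩, fun T _ _ => ?_⟩
    interval_cases n
    · exact ⟨0, Subsingleton.elim _ _⟩
    · exact ⟨T 0 0, by ext i j; fin_cases i; fin_cases j; simp⟩
  obtain ⟨k, rfl⟩ : ∃ k, g = k + 1 := ⟨g - 1, by omega⟩
  obtain ⟨y, hy, hspec, hdim⟩ := exists_generic_rep ⟨0, by omega⟩ q hq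
  have hZ : Zd (tup y) := by
    refine h _ hy ?_
    by_contra hbad
    push Not at hbad
    obtain ⟨T, hT, hall⟩ := param_count (by omega) (tup y) hy hbad
    rw [ev_tup] at hall
    have h1 := hdim T hall
    nlinarith [Nat.mul_le_mul (show 1 ≤ k by omega) hn]
  intro p hp
  refine eval_eq_zero_of_rat p
    {z | ∃ a, IsRep a ∧ z = fun v => ((ev a v : ℤ) : ℚ)} (ev q) ?_ ?_
  · rintro z ⟨a, ha, rfl⟩
    have e1 : (fun v => (((ev a v : ℤ) : ℚ) : ℂ)) = ev (castInt a) := by
      funext ⟨i, s, c, d⟩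
      cases s <;> simp [ev, castInt]
    rw [e1]
    exact hp a ha
  · intro f hf
    refine hspec f ?_
    have h0 := hZ (f.map (algebraMap ℚ ℂ)) fun a ha => by
      rw [eval_map, ← aeval_def]
      have e1 : (ev (castInt a) : Idx (k + 1) n → ℂ) =
          algebraMap ℚ ℂ ∘ fun v => ((ev a v : ℤ) : ℚ) := by
        funext ⟨i, s, c, d⟩
        cases s <;> simp [ev, castInt]
      rw [e1, aeval_algebraMap_apply, aeval_eq_eval, hf _ ⟨a, ha, rfl⟩, map_zero]
    rwa [eval_map, ← aeval_def, ev_tup] at h0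

end P002Surf
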