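import Vale.Agent.P002Surf.Section

/-!
The rank of the double commutator map used in the genus step.
-/

namespace P002Surf

open Matrix Filter Topology

open scoped Matrix.Norms.Operator

variable {n : ℕ}

theorem root_small (hn : 0 < n) : ∀ᶠ s in 𝓝 (0 : ℂ), (1 + s) ^ n = 1 → s = 0 := by
  let p : Polynomial ℂ := (Polynomial.C 1 + Polynomial.X) ^ n - 1
  have hp : p ≠ 0 := by
    intro h
    have hh := congrArg (Polynomial.eval (-1)) h
    simp [p, zero_pow hn.ne'] at hh
  have : ∀ᶠ s in 𝓝 (0 : ℂ), s ∉ {s | p.IsRoot s} \ {0} :=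
    (((Polynomial.finite_setOfPred_isRoot hp).subset Set.sdiff_subset).isClosed.isOpen_compl).mem_nhds
      (by simp)
  filter_upwards [this] with s hs h
  by_contra h0
  exact hs ⟨by simp [Polynomial.IsRoot, p, h], h0⟩

theorem zN_surj (hn : 0 < n) {U : Set (Mat n)} (hU : U ∈ 𝓝 0) :
    ∀ᶠ γ in 𝓝 (1 : Mat n), γ.det = 1 → ∃ a ∈ U, zN (1 + a) = γ := by
  have hn' : (n : ℂ) ≠ 0 := by exact_mod_cast hn.ne'
  let Ψ : Mat n × ℂ → Mat n := fun p => (1 + p.2) • zN (1 + p.1)
  have hΨ : ContDiffAt ℂ 1 Ψ 0 :=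
    (contDiff_const.add contDiff_snd).contDiffAt.smul
      (ContDiffAt.comp (g := zN) _ (contDiffAt_zN (by simp)) (contDiff_const.add contDiff_fst).contDiffAt)
  have hs : HasStrictFDerivAt Ψ (fderiv ℂ Ψ 0) 0 := hΨ.hasStrictFDerivAt one_ne_zero
  have hline : ∀ p : Mat n × ℂ, HasDerivAt (fun t : ℂ => Ψ (t • p)) (fderiv ℂ Ψ 0 p) 0 := fun p =>
    HasFDerivAt.comp_hasDerivAt_of_eq (0 : ℂ) hs.hasFDerivAt
      (by simpa using (hasDerivAt_id (0 : ℂ)).smul_const p) (zero_smul ℂ p).symm
  have hmap := hs.map_nhds_eq_of_surj (by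
    rw [eq_top_iff]
    intro H _
    let s : ℂ := H.trace / n
    let a : Mat n := (n : ℂ)⁻¹ • (H - s • 1)
    refine ⟨(a, s), ?_⟩
    have h1 : HasDerivAt (fun t : ℂ => (1 + t * s) • zN (1 + t • a))
        (((n : ℂ) • a - a.trace • (1 : Mat n)) + s • (1 : Mat n)) 0 := by
      refine ((((hasDerivAt_id (0 : ℂ)).mul_const s).const_add (1 : ℂ)).fun_smul
        (hasDerivAt_zN_line a)).congr_deriv ?_
      simp only [id_eq, zero_mul, add_zero, one_smul, one_mul, zero_smul, zN_one]
    have h2 := (hline (a, s)).unique (h1.congr_of_eventuallyEq (Eventually.of_forall fun t => by simp [Ψ]))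
    show fderiv ℂ Ψ 0 (a, s) = H
    have ht : a.trace = 0 := by
      simp only [a, Matrix.trace_smul, Matrix.trace_sub, Matrix.trace_one, Fintype.card_fin,
        smul_eq_mul, s]
      field_simp
      ring
    rw [h2, ht, zero_smul, sub_zero]
    simp [a, hn'])
  have h0 : Ψ 0 = 1 := by simp [Ψ, zN_one]
  rw [h0] at hmap
  have hW : {p : Mat n × ℂ | p.1 ∈ U ∧ (1 + p.1).det ≠ 0 ∧ ((1 + p.2) ^ n = 1 → p.2 = 0)} ∈ 𝓝 0 := by
    refine ((continuous_fst.tendsto (0 : Mat n × ℂ)).eventually hU).and (Eventually.and ?_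
      ((continuous_snd.tendsto (0 : Mat n × ℂ)).eventually (root_small hn)))
    exact (continuous_const.add continuous_fst).matrix_det.continuousAt.eventually_ne (by simp)
  have him := image_mem_map (m := Ψ) hW
  refine (Filter.Eventually.filter_mono hmap.ge him : ∀ᶠ γ in 𝓝 (1 : Mat n), _).mono ?_
  rintro γ ⟨⟨a, s⟩, ⟨ha, hd, hs⟩, rfl⟩ hγ
  have hs0 : s = 0 := by
    refine hs ?_
    have h : ((1 + s) • zN (1 + a)).det = 1 := hγ
    rwa [Matrix.det_smul, det_zN hd, Fintype.card_fin, mul_one] at h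
  exact ⟨a, ha, by simp [Ψ, hs0]⟩

/-- Chart of triples. -/
noncomputable def chart3 (t : Mat n × Mat n × Mat n) (a : Mat n × Mat n × Mat n) :
    Mat n × Mat n × Mat n :=
  (t.1 * zN (1 + a.1), t.2.1 * zN (1 + a.2.1), t.2.2 * zN (1 + a.2.2))

theorem contDiffAt_chart3 (t : Mat n × Mat n × Mat n) {a : Mat n × Mat n × Mat n}
    (h1 : (1 + a.1).det ≠ 0) (h2 : (1 + a.2.1).det ≠ 0) (h3 : (1 + a.2.2).det ≠ 0) :
    ContDiffAt ℂ 1 (chart3 t) a := by
  have e1 : ContDiffAt ℂ 1 (fun a : Mat n × Mat n × Mat n => zN (1 + a.1)) a :=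
    ContDiffAt.comp (g := zN) _ (contDiffAt_zN h1) (contDiff_const.add contDiff_fst).contDiffAt
  have e2 : ContDiffAt ℂ 1 (fun a : Mat n × Mat n × Mat n => zN (1 + a.2.1)) a :=
    ContDiffAt.comp (g := zN) _ (contDiffAt_zN h2)
      (contDiff_const.add (contDiff_fst.comp contDiff_snd)).contDiffAt
  have e3 : ContDiffAt ℂ 1 (fun a : Mat n × Mat n × Mat n => zN (1 + a.2.2)) a :=
    ContDiffAt.comp (g := zN) _ (contDiffAt_zN h3)
      (contDiff_const.add (contDiff_snd.comp contDiff_snd)).contDiffAt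
  exact (contDiffAt_const.mul e1).prodMk ((contDiffAt_const.mul e2).prodMk (contDiffAt_const.mul e3))

theorem exists_cyclic (hn : 0 < n) (P : Mat n) (hP : P.det ≠ 0) : ∃ B : Mat n, B.det = 1 ∧
    (∀ t : Fin n → ℂ, B * (P * diagonal t * P⁻¹) = P * diagonal t * P⁻¹ * B → ∀ r c, t r = t c) ∧
    ∀ t : Fin n → ℂ, ∃ d, B * (P * diagonal t * P⁻¹) = P * diagonal d * P⁻¹ * B := by
  obtain ⟨m, rfl⟩ : ∃ m, n = m + 1 := ⟨n - 1, by omega⟩
  let S : Mat (m + 1) := (finRotate (m + 1)).permMatrix ℂ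
  have hS : S.det ≠ 0 := by
    simp [S, Matrix.det_permutation]
  obtain ⟨c, hc⟩ := IsAlgClosed.exists_pow_nat_eq (S.det)⁻¹ (n := m + 1) (by omega)
  have hc0 : c ≠ 0 := by
    rintro rfl
    rw [zero_pow (by omega)] at hc
    exact inv_ne_zero hS hc.symm
  have hPu := isUnit_det_of_ne hP
  have cc' : ∀ Z : Mat (m + 1), P⁻¹ * (P * Z) = Z := fun Z => by
    rw [← Matrix.mul_assoc, Matrix.nonsing_inv_mul P hPu, Matrix.one_mul]
  have hSd : ∀ t : Fin (m + 1) → ℂ,
      S * diagonal t = diagonal (fun r => t (finRotate (m + 1) r)) * S := by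
    intro t
    ext r k
    simp only [Matrix.mul_diagonal, Matrix.diagonal_mul, S, Equiv.Perm.permMatrix,
      PEquiv.toMatrix_apply, Equiv.toPEquiv_apply, Option.mem_def, Option.some.injEq]
    split_ifs with hk
    · subst hk; ring
    · ring
  have hmove : ∀ t : Fin (m + 1) → ℂ, P * (c • S) * P⁻¹ * (P * diagonal t * P⁻¹) =
      P * diagonal (fun r => t (finRotate (m + 1) r)) * P⁻¹ * (P * (c • S) * P⁻¹) := by
    intro t
    simp only [Matrix.mul_assoc, cc', Matrix.smul_mul, Matrix.mul_smul]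
    rw [← Matrix.mul_assoc S, hSd, Matrix.mul_assoc]
  refine ⟨P * (c • S) * P⁻¹, ?_, ?_, fun t => ⟨_, hmove t⟩⟩
  · rw [Matrix.det_mul, Matrix.det_mul, mul_comm P.det, mul_assoc, ← Matrix.det_mul,
      Matrix.mul_nonsing_inv P hPu, Matrix.det_one, mul_one, Matrix.det_smul, Fintype.card_fin, hc,
      inv_mul_cancel₀ hS]
  · intro t ht
    rw [hmove t] at ht
    have h := congrArg (fun T => P⁻¹ * T * P) ht
    simp only [Matrix.mul_assoc, cc', Matrix.nonsing_inv_mul P hPu, Matrix.mul_one,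
      Matrix.mul_smul] at h
    have h' := smul_right_injective (Mat (m + 1)) hc0 h
    have step : ∀ r : Fin (m + 1), t (finRotate (m + 1) r) = t r := by
      intro r
      have := congrFun (congrFun h' r) (finRotate (m + 1) r)
      simpa [S, Matrix.diagonal_mul, Equiv.Perm.permMatrix, Equiv.toPEquiv_apply,
        PEquiv.toMatrix_apply] using this
    have all : ∀ r : Fin (m + 1), t r = t 0 := by
      intro r
      induction r using Fin.induction with
      | zero => rfl
      | succ r ih =>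
        have := step r.castSucc
        rw [finRotate_apply, Fin.coeSucc_eq_succ] at this
        rw [this, ih]
    intro r c'
    rw [all r, all c']

/-- The genus-step map is open near a suitable base triple. -/
theorem split_open (hn : 0 < n) {A X : Mat n} (hA : A.det = 1) (hX : X.det = 1) {P : Mat n}
    {μ : Fin n → ℂ} (hd : DiagBy A P μ) (hT : Triple (P⁻¹ * X * P)) :
    ∃ B : Mat n, B.det = 1 ∧ ∀ᶠ t in 𝓝 (A, B, X), t.1.det = 1 → t.2.1.det = 1 → t.2.2.det = 1 →
      ∀ U ∈ 𝓝 t, ∀ᶠ c in 𝓝 (cm (t.1, t.2.1), cm (t.1, t.2.2)), c.1.det = 1 → c.2.det = 1 →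
        ∃ t' ∈ U, t'.1.det = 1 ∧ t'.2.1.det = 1 ∧ t'.2.2.det = 1 ∧
          cm (t'.1, t'.2.1) = c.1 ∧ cm (t'.1, t'.2.2) = c.2 := by
  have hn' : (n : ℂ) ≠ 0 := by exact_mod_cast hn.ne'
  obtain ⟨B, hB, hcyc, hmov⟩ := exists_cyclic hn P hd.1
  refine ⟨B, hB, ?_⟩
  let E := (Mat n × Mat n × Mat n) × (ℂ × ℂ)
  let t0 : Mat n × Mat n × Mat n := (A, B, X)
  let Θ : E → Mat n × Mat n := fun p =>
    ((1 + p.2.1) • cm ((chart3 t0 p.1).1, (chart3 t0 p.1).2.1),
     (1 + p.2.2) • cm ((chart3 t0 p.1).1, (chart3 t0 p.1).2.2))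
  have hc3 : ContDiffAt ℂ 1 (fun p : E => chart3 t0 p.1) 0 :=
    ContDiffAt.comp (g := chart3 t0) (0 : E) (contDiffAt_chart3 t0 (by simp) (by simp) (by simp))
      contDiff_fst.contDiffAt
  have hΘ : ContDiffAt ℂ 1 Θ 0 := by
    refine ContDiffAt.prodMk ?_ ?_
    · exact (contDiff_const.add (contDiff_fst.comp contDiff_snd)).contDiffAt.smul
        (ContDiffAt.comp (g := fun y => cm y) (0 : E) contDiff_cm.contDiffAt
          (hc3.fst.prodMk hc3.snd.fst))
    · exact (contDiff_const.add (contDiff_snd.comp contDiff_snd)).contDiffAt.smul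
        (ContDiffAt.comp (g := fun y => cm y) (0 : E) contDiff_cm.contDiffAt
          (hc3.fst.prodMk hc3.snd.snd))
  have hL : HasStrictFDerivAt Θ (fderiv ℂ Θ 0) 0 := hΘ.hasStrictFDerivAt one_ne_zero
  set L := fderiv ℂ Θ 0
  have hline : ∀ a : E, HasDerivAt (fun t : ℂ => Θ (t • a)) (L a) 0 := fun a =>
    HasFDerivAt.comp_hasDerivAt_of_eq (0 : ℂ) hL.hasFDerivAt
      (by simpa using (hasDerivAt_id (0 : ℂ)).smul_const a) (zero_smul ℂ a).symm
  have hsurj : L.range = ⊤ := by
    by_contra hne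
    obtain ⟨f, hf0, hf⟩ := Submodule.exists_dual_map_eq_bot_of_lt_top (lt_top_iff_ne_top.2 hne)
      inferInstance
    obtain ⟨W1, hW1⟩ : ∃ W : Mat n, ∀ H, f (H, 0) = (W * H).trace :=
      ⟨_, functional_trace (f.comp (LinearMap.inl ℂ (Mat n) (Mat n)))⟩
    obtain ⟨W2, hW2⟩ : ∃ W : Mat n, ∀ H, f (0, H) = (W * H).trace :=
      ⟨_, functional_trace (f.comp (LinearMap.inr ℂ (Mat n) (Mat n)))⟩
    have hsum : ∀ H : Mat n × Mat n, f H = (W1 * H.1).trace + (W2 * H.2).trace := fun H => by
      rw [← hW1, ← hW2, ← map_add]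
      simp
    have hkill : ∀ a : E, (W1 * (L a).1).trace + (W2 * (L a).2).trace = 0 := fun a => by
      rw [← hsum]
      have := Submodule.mem_map_of_mem (f := f) (LinearMap.mem_range_self L.toLinearMap a)
      rw [hf, Submodule.mem_bot] at this
      exact this
    have e1 : ∀ W P Q Z : Mat n, (W * (P * Z * Q)).trace = ((Q * W * P) * Z).trace := by
      intro W P Q Z
      rw [← Matrix.mul_assoc, Matrix.trace_mul_comm]
      simp only [Matrix.mul_assoc]
    -- varying the second entry alone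
    have side : ∀ (B' W : Mat n), B'.det = 1 →
        (∀ Y : Mat n, (W * (A * B' * ((n : ℂ) • Y - Y.trace • (1 : Mat n)) * A.adjugate * B'.adjugate -
          A * B' * A.adjugate * ((n : ℂ) • Y - Y.trace • (1 : Mat n)) * B'.adjugate)).trace = 0) →
        ∃ t : Fin n → ℂ, A.adjugate * B'.adjugate * W * A * B' = P * diagonal t * P⁻¹ := by
      intro B' W hB' hY
      set T := A.adjugate * B'.adjugate * W * A * B' with hTdef
      have h : T - B'.adjugate * W * A * B' * A.adjugate = 0 := by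
        refine eq_zero_of_trace_traceless hn' ?_ fun Y => ?_
        · rw [hTdef, Matrix.trace_sub, Matrix.trace_mul_comm (B'.adjugate * W * A * B') A.adjugate]
          simp only [Matrix.mul_assoc, sub_self]
        · set Y0 := (n : ℂ) • Y - Y.trace • (1 : Mat n)
          have := hY Y
          rw [Matrix.mul_sub, Matrix.trace_sub,
            show A * B' * Y0 * A.adjugate * B'.adjugate = A * B' * Y0 * (A.adjugate * B'.adjugate) by
              simp only [Matrix.mul_assoc],
            e1, e1, ← Matrix.trace_sub, ← Matrix.sub_mul] at this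
          simpa only [hTdef, Matrix.mul_assoc] using this
      have h' : T = B'.adjugate * W * A * B' * A.adjugate := sub_eq_zero.1 h
      have hTA : A * T = T * A := by
        calc A * T = (A * A.adjugate) * (B'.adjugate * W * A * B') := by
              simp only [hTdef, Matrix.mul_assoc]
          _ = B'.adjugate * W * A * B' * (A.adjugate * A) := by
              rw [mul_adj_one hA, adj_mul_one hA, Matrix.one_mul, Matrix.mul_one]
          _ = T * A := by rw [h', Matrix.mul_assoc (B'.adjugate * W * A * B')]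
      exact commute_diag hd hTA
    obtain ⟨t1, ht1⟩ : ∃ t : Fin n → ℂ, A.adjugate * B.adjugate * W1 * A * B = P * diagonal t * P⁻¹ := by
      refine side B W1 hB fun Y => ?_
      have h := hline ((0, Y, 0), (0, 0))
      have e : (fun t : ℂ => Θ (t • (((0, Y, 0), (0, 0)) : E))) =
          fun t => (cm (A, B * zN (1 + t • Y)), cm (A, X)) := by
        funext t
        simp [Θ, chart3, zN_one, t0]
      rw [e] at h
      have := hkill ((0, Y, 0), (0, 0))
      rw [h.unique ((hasDerivAt_cm_right A B Y).prodMk (hasDerivAt_const (0 : ℂ) (cm (A, X))))] at this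
      simpa using this
    obtain ⟨t2, ht2⟩ : ∃ t : Fin n → ℂ, A.adjugate * X.adjugate * W2 * A * X = P * diagonal t * P⁻¹ := by
      refine side X W2 hX fun Y => ?_
      have h := hline ((0, 0, Y), (0, 0))
      have e : (fun t : ℂ => Θ (t • (((0, 0, Y), (0, 0)) : E))) =
          fun t => (cm (A, B), cm (A, X * zN (1 + t • Y))) := by
        funext t
        simp [Θ, chart3, zN_one, t0]
      rw [e] at h
      have := hkill ((0, 0, Y), (0, 0))
      rw [h.unique ((hasDerivAt_const (0 : ℂ) (cm (A, B))).prodMk (hasDerivAt_cm_right A X Y))] at this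
      simpa using this
    -- varying the shared entry
    set U1 := A.adjugate * B.adjugate * W1 * A with hU1
    set U2 := A.adjugate * X.adjugate * W2 * A with hU2
    have hmix : (B * U1 - U1 * B) + (X * U2 - U2 * X) = 0 := by
      refine eq_zero_of_trace_traceless hn' ?_ fun Y => ?_
      · rw [Matrix.trace_add, Matrix.trace_sub, Matrix.trace_sub, Matrix.trace_mul_comm B,
          Matrix.trace_mul_comm X, sub_self, sub_self, add_zero]
      · have h := hline ((Y, 0, 0), (0, 0))
        have e : (fun t : ℂ => Θ (t • (((Y, 0, 0), (0, 0)) : E))) =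
            fun t => (cm (A * zN (1 + t • Y), B), cm (A * zN (1 + t • Y), X)) := by
          funext t
          simp [Θ, chart3, zN_one, t0]
        rw [e] at h
        have hk := hkill ((Y, 0, 0), (0, 0))
        rw [h.unique ((hasDerivAt_cm_left A B Y).prodMk (hasDerivAt_cm_left A X Y))] at hk
        set X0 := (n : ℂ) • Y - Y.trace • (1 : Mat n)
        have e2 : ∀ B' W : Mat n, (W * (A * X0 * B' * A.adjugate * B'.adjugate -
            A * B' * X0 * A.adjugate * B'.adjugate)).trace =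
            ((B' * (A.adjugate * B'.adjugate * W * A) - A.adjugate * B'.adjugate * W * A * B') * X0).trace := by
          intro B' W
          rw [Matrix.mul_sub, Matrix.trace_sub,
            show A * X0 * B' * A.adjugate * B'.adjugate = A * X0 * (B' * A.adjugate * B'.adjugate) by
              simp only [Matrix.mul_assoc],
            show A * B' * X0 * A.adjugate * B'.adjugate = A * B' * X0 * (A.adjugate * B'.adjugate) by
              simp only [Matrix.mul_assoc], e1, e1, ← Matrix.trace_sub, ← Matrix.sub_mul]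
          simp only [Matrix.mul_assoc]
        simp only at hk
        rw [e2, e2, ← Matrix.trace_add, ← Matrix.add_mul] at hk
        exact hk
    have hPu := isUnit_det_of_ne hd.1
    have PP : P * P⁻¹ = 1 := Matrix.mul_nonsing_inv P hPu
    have PP' : P⁻¹ * P = 1 := Matrix.nonsing_inv_mul P hPu
    have cc : ∀ Z : Mat n, P * (P⁻¹ * Z) = Z := fun Z => by rw [← Matrix.mul_assoc, PP, Matrix.one_mul]
    have cc' : ∀ Z : Mat n, P⁻¹ * (P * Z) = Z := fun Z => by rw [← Matrix.mul_assoc, PP', Matrix.one_mul]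
    have hU1e : U1 = P * diagonal t1 * P⁻¹ * B.adjugate := by
      rw [← ht1]
      simp only [hU1, Matrix.mul_assoc, mul_adj_one hB, Matrix.mul_one]
    have hU2e : U2 = P * diagonal t2 * P⁻¹ * X.adjugate := by
      rw [← ht2]
      simp only [hU2, Matrix.mul_assoc, mul_adj_one hX, Matrix.mul_one]
    rw [hU1e, hU2e, Matrix.mul_assoc (P * diagonal t1 * P⁻¹), adj_mul_one hB,
      Matrix.mul_assoc (P * diagonal t2 * P⁻¹), adj_mul_one hX, Matrix.mul_one, Matrix.mul_one] at hmix
    have hBdiag : ∀ t : Fin n → ℂ, B * (P * diagonal t * P⁻¹ * B.adjugate) - P * diagonal t * P⁻¹ = 0 →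
        ∀ r c, t r = t c := by
      intro t h
      refine hcyc t ?_
      have := congrArg (· * B) (sub_eq_zero.1 h)
      simpa only [Matrix.mul_assoc, adj_mul_one hB, Matrix.mul_one] using this
    -- the `B` part is diagonal in the eigenbasis
    have hBperm : ∃ d, P⁻¹ * (B * (P * diagonal t1 * P⁻¹ * B.adjugate)) * P = diagonal d := by
      obtain ⟨d, hd'⟩ := hmov t1
      refine ⟨d, ?_⟩
      rw [← Matrix.mul_assoc B, hd']
      simp only [Matrix.mul_assoc, mul_adj_one hB, Matrix.mul_one, cc', PP']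
    obtain ⟨d1, hd1⟩ := hBperm
    have hX' : ∀ r c, t2 r = t2 c := by
      set X' := P⁻¹ * X * P with hX'def
      let D : Fin n → ℂ := fun r => t2 r + t1 r - d1 r
      have hconj : X' * diagonal t2 = diagonal D * X' := by
        have h := congrArg (fun T => P⁻¹ * T * P) hmix
        simp only [Matrix.mul_add, Matrix.add_mul, Matrix.mul_sub, Matrix.sub_mul, hd1,
          Matrix.mul_zero, Matrix.zero_mul] at h
        simp only [Matrix.mul_assoc, cc', PP', Matrix.mul_one] at h
        have h' : P⁻¹ * (X * (P * (diagonal t2 * (P⁻¹ * (X.adjugate * P))))) = diagonal D := by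
          rw [show diagonal D = diagonal t2 + diagonal t1 - diagonal d1 by
            rw [Matrix.diagonal_add, Matrix.diagonal_sub], ← sub_eq_zero, ← h]
          abel
        rw [← h', hX'def]
        simp only [Matrix.mul_assoc, cc]
        rw [← Matrix.mul_assoc X.adjugate X, adj_mul_one hX, Matrix.one_mul, PP', Matrix.mul_one]
      intro r c
      have e1 := congrFun (congrFun hconj r) r
      have e2 := congrFun (congrFun hconj r) c
      rw [Matrix.mul_diagonal, Matrix.diagonal_mul] at e1 e2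
      have f1 : t2 r = D r := mul_left_cancel₀ (hT.1 r r) (e1.trans (mul_comm _ _))
      have f2 : t2 c = D r := mul_left_cancel₀ (hT.1 r c) (e2.trans (mul_comm _ _))
      rw [f1, f2]
    let o : Fin n := ⟨0, hn⟩
    have hs2 : P * diagonal t2 * P⁻¹ = t2 o • (1 : Mat n) := by
      rw [show t2 = fun _ => t2 o from funext fun r => hX' r o, ← Matrix.smul_one_eq_diagonal,
        Matrix.mul_smul, Matrix.mul_one, Matrix.smul_mul, PP]
    rw [hs2, Matrix.smul_mul, Matrix.one_mul, Matrix.mul_smul, mul_adj_one hX, sub_self, add_zero] at hmix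
    have hX1 := hBdiag t1 hmix
    have hs1 : P * diagonal t1 * P⁻¹ = t1 o • (1 : Mat n) := by
      rw [show t1 = fun _ => t1 o from funext fun r => hX1 r o, ← Matrix.smul_one_eq_diagonal,
        Matrix.mul_smul, Matrix.mul_one, Matrix.smul_mul, PP]
    have back : ∀ B' W : Mat n, B'.det = 1 → ∀ c : ℂ,
        A.adjugate * B'.adjugate * W * A * B' = c • (1 : Mat n) →
        W = c • (B' * A * B'.adjugate * A.adjugate) := by
      intro B' W hB' c hc
      have : B' * A * (A.adjugate * B'.adjugate * W * A * B') * B'.adjugate * A.adjugate = W := by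
        simp only [Matrix.mul_assoc]
        rw [← Matrix.mul_assoc A A.adjugate, mul_adj_one hA, Matrix.one_mul,
          ← Matrix.mul_assoc B' B'.adjugate (W * _), mul_adj_one hB', Matrix.one_mul,
          ← Matrix.mul_assoc B' B'.adjugate, mul_adj_one hB', Matrix.one_mul, mul_adj_one hA,
          Matrix.mul_one]
      rw [← this, hc]
      simp
    have hW1e := back B W1 hB _ (ht1.trans hs1)
    have hW2e := back X W2 hX _ (ht2.trans hs2)
    have hone : ∀ B' : Mat n, B'.det = 1 → B' * A * B'.adjugate * A.adjugate * cm (A, B') = 1 :=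
      fun B' hB' => cm_mul_swap hB' hA
    have hsc : ∀ (C : Mat n), HasDerivAt (fun t : ℂ => (1 + t) • C) C 0 := fun C =>
      (((hasDerivAt_id (0 : ℂ)).const_add (1 : ℂ)).smul_const C).congr_deriv (one_smul ℂ _)
    have hc1 : t1 o = 0 := by
      have h := hline ((0, 0, 0), (1, 0))
      have e : (fun t : ℂ => Θ (t • (((0, 0, 0), (1, 0)) : E))) =
          fun t => ((1 + t) • cm (A, B), cm (A, X)) := by
        funext t
        simp [Θ, chart3, zN_one, t0]
      rw [e] at h
      have := hkill ((0, 0, 0), (1, 0))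
      rw [h.unique ((hsc (cm (A, B))).prodMk (hasDerivAt_const (0 : ℂ) (cm (A, X))))] at this
      simp only [Matrix.mul_zero, Matrix.trace_zero, add_zero, hW1e, Matrix.smul_mul,
        Matrix.trace_smul, hone B hB, Matrix.trace_one, Fintype.card_fin, smul_eq_mul,
        mul_eq_zero] at this
      exact this.resolve_right hn'
    have hc2 : t2 o = 0 := by
      have h := hline ((0, 0, 0), (0, 1))
      have e : (fun t : ℂ => Θ (t • (((0, 0, 0), (0, 1)) : E))) =
          fun t => (cm (A, B), (1 + t) • cm (A, X)) := by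
        funext t
        simp [Θ, chart3, zN_one, t0]
      rw [e] at h
      have := hkill ((0, 0, 0), (0, 1))
      rw [h.unique ((hasDerivAt_const (0 : ℂ) (cm (A, B))).prodMk (hsc (cm (A, X))))] at this
      simp only [Matrix.mul_zero, Matrix.trace_zero, zero_add, hW2e, Matrix.smul_mul,
        Matrix.trace_smul, hone X hX, Matrix.trace_one, Fintype.card_fin, smul_eq_mul,
        mul_eq_zero] at this
      exact this.resolve_right hn'
    exact hf0 (LinearMap.ext fun H => by simp [hsum, hW1e, hW2e, hc1, hc2])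
  have hgood : ∀ᶠ p in 𝓝 (0 : E), Filter.map Θ (𝓝 p) = 𝓝 (Θ p) ∧ (1 + p.1.1).det ≠ 0 ∧
      (1 + p.1.2.1).det ≠ 0 ∧ (1 + p.1.2.2).det ≠ 0 := by
    refine (eventually_map_nhds_eq hL hsurj).and (Eventually.and ?_ (Eventually.and ?_ ?_)) <;>
      exact ContinuousAt.eventually_ne (by fun_prop) (by simp)
  obtain ⟨O, hO, O', hO', hOsub⟩ := mem_nhds_prod_iff.1 hgood
  obtain ⟨O1, hO1, O23, hO23, hs1⟩ := mem_nhds_prod_iff.1 hO
  obtain ⟨O2, hO2, O3, hO3, hs2⟩ := mem_nhds_prod_iff.1 hO23
  have hinv : ∀ (M : Mat n) (O : Set (Mat n)), M.det = 1 → O ∈ 𝓝 0 →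
      ∀ᶠ Z in 𝓝 M, Z.det = 1 → ∃ a ∈ O, M * zN (1 + a) = Z := by
    intro M O hM hO
    have ht : Tendsto (fun Z : Mat n => M.adjugate * Z) (𝓝 M) (𝓝 1) := by
      have hc : Continuous fun Z : Mat n => M.adjugate * Z := continuous_const.mul continuous_id
      have := hc.tendsto M
      rwa [adj_mul_one hM] at this
    filter_upwards [ht.eventually (zN_surj hn hO)] with Z hZ hZd
    obtain ⟨a, ha, he⟩ := hZ (by simp [Matrix.det_mul, det_adj_one hM, hZd])
    exact ⟨a, ha, by rw [he, ← Matrix.mul_assoc, mul_adj_one hM, Matrix.one_mul]⟩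
  have k1 : ∀ᶠ t : Mat n × Mat n × Mat n in 𝓝 (A, B, X), t.1.det = 1 → ∃ a ∈ O1, A * zN (1 + a) = t.1 :=
    (continuous_fst.tendsto (A, B, X)).eventually (hinv A O1 hA hO1)
  have k2 : ∀ᶠ t : Mat n × Mat n × Mat n in 𝓝 (A, B, X), t.2.1.det = 1 → ∃ a ∈ O2, B * zN (1 + a) = t.2.1 :=
    ((continuous_fst.comp continuous_snd).tendsto (A, B, X)).eventually (hinv B O2 hB hO2)
  have k3 : ∀ᶠ t : Mat n × Mat n × Mat n in 𝓝 (A, B, X), t.2.2.det = 1 → ∃ a ∈ O3, X * zN (1 + a) = t.2.2 :=
    ((continuous_snd.comp continuous_snd).tendsto (A, B, X)).eventually (hinv X O3 hX hO3)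
  filter_upwards [k1, k2, k3] with t h1 h2 h3 d1 d2 d3 U hU
  obtain ⟨a1, ha1, e1⟩ := h1 d1
  obtain ⟨a2, ha2, e2⟩ := h2 d2
  obtain ⟨a3, ha3, e3⟩ := h3 d3
  let p : E := ((a1, a2, a3), (0, 0))
  obtain ⟨hmap, g1, g2, g3⟩ := hOsub (Set.mk_mem_prod (hs1 (Set.mk_mem_prod ha1
    (hs2 (Set.mk_mem_prod ha2 ha3)))) (mem_of_mem_nhds hO'))
  have hch : chart3 t0 (a1, a2, a3) = t := by simp only [chart3, t0, e1, e2, e3]
  have hθ : Θ p = (cm (t.1, t.2.1), cm (t.1, t.2.2)) := by
    simp only [Θ, p, hch, add_zero, one_smul]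
  have hW : ∀ᶠ q : E in 𝓝 p, chart3 t0 q.1 ∈ U ∧ (1 + q.1.1).det ≠ 0 ∧ (1 + q.1.2.1).det ≠ 0 ∧
      (1 + q.1.2.2).det ≠ 0 ∧ ((1 + q.2.1) ^ n = 1 → q.2.1 = 0) ∧ ((1 + q.2.2) ^ n = 1 → q.2.2 = 0) := by
    refine Eventually.and ?_ (Eventually.and ?_ (Eventually.and ?_ (Eventually.and ?_
      (Eventually.and ?_ ?_))))
    · have hcont : ContinuousAt (fun q : E => chart3 t0 q.1) p :=
        ContinuousAt.comp' (g := chart3 t0) (contDiffAt_chart3 t0 g1 g2 g3).continuousAt
          continuous_fst.continuousAt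
      exact hcont.preimage_mem_nhds (by rw [show chart3 t0 p.1 = t from hch]; exact hU)
    · exact ContinuousAt.eventually_ne (by fun_prop) g1
    · exact ContinuousAt.eventually_ne (by fun_prop) g2
    · exact ContinuousAt.eventually_ne (by fun_prop) g3
    · exact ((continuous_fst.comp continuous_snd).tendsto p).eventually (root_small hn)
    · exact ((continuous_snd.comp continuous_snd).tendsto p).eventually (root_small hn)
  have him := image_mem_map (m := Θ) hW
  rw [← hθ]
  refine (Filter.Eventually.filter_mono hmap.ge him : ∀ᶠ c in 𝓝 (Θ p), _).mono ?_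
  rintro c ⟨q, ⟨hqU, q1, q2, q3, r1, r2⟩, rfl⟩ hc1 hc2
  have s1 : (chart3 t0 q.1).1.det = 1 := by simp [chart3, t0, Matrix.det_mul, hA, det_zN q1]
  have s2 : (chart3 t0 q.1).2.1.det = 1 := by simp [chart3, t0, Matrix.det_mul, hB, det_zN q2]
  have s3 : (chart3 t0 q.1).2.2.det = 1 := by simp [chart3, t0, Matrix.det_mul, hX, det_zN q3]
  have hz1 : q.2.1 = 0 := by
    refine r1 ?_
    have h : ((1 + q.2.1) • cm ((chart3 t0 q.1).1, (chart3 t0 q.1).2.1)).det = 1 := hc1
    rwa [Matrix.det_smul, det_cm (x := ((chart3 t0 q.1).1, (chart3 t0 q.1).2.1)) s1 s2, Fintype.card_fin, mul_one] at h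
  have hz2 : q.2.2 = 0 := by
    refine r2 ?_
    have h : ((1 + q.2.2) • cm ((chart3 t0 q.1).1, (chart3 t0 q.1).2.2)).det = 1 := hc2
    rwa [Matrix.det_smul, det_cm (x := ((chart3 t0 q.1).1, (chart3 t0 q.1).2.2)) s1 s3, Fintype.card_fin, mul_one] at h
  exact ⟨_, hqU, s1, s2, s3, by simp [Θ, hz1], by simp [Θ, hz2]⟩

end P002Surf
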