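import Vale.Agent.P002Surf.Local
import Vale.Agent.P002Surf.Split
import Vale.Agent.P002Surf.Param
import Vale.Agent.P002Surf.Closure

/-!
Integral representations of closed surface groups are Zariski dense.
-/

namespace P002Surf

open Matrix Filter Topology

open scoped Matrix.Norms.Operator

variable {g n : ℕ}

/-- Generic in both orientations. -/
def Hy (x : Pair n) : Prop := G0 x ∧ Good x ∧ G0 x.swap ∧ Good x.swap

theorem isOpen_hy : IsOpen {x : Pair n | Hy x} :=
  isOpen_G0.inter (isOpen_good.inter ((isOpen_G0.preimage continuous_swap).inter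
    (isOpen_good.preimage continuous_swap)))

theorem dense_hy {x : Pair n} (h : SL1 x) {U : Set (Pair n)} (hU : U ∈ 𝓝 x) :
    ∃ x' ∈ U, SL1 x' ∧ Hy x' := by
  obtain ⟨V, hV, hVo, hx⟩ := eventually_nhds_iff.1 (Filter.eventually_of_mem hU fun y hy => hy)
  obtain ⟨x1, hx1, s1, g1⟩ := dense_G0 h (hVo.mem_nhds hx)
  obtain ⟨x2, hx2, s2, g2⟩ := dense_good x1 s1 ((hVo.inter isOpen_G0).mem_nhds ⟨hx1, g1⟩)
  have o2 : IsOpen (V ∩ ({y : Pair n | G0 y} ∩ {y : Pair n | Good y})) :=
    hVo.inter (isOpen_G0.inter isOpen_good)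
  obtain ⟨x3, hx3, s3, g3⟩ := dense_G0 (x := x2.swap) ⟨s2.2, s2.1⟩
    ((o2.preimage continuous_swap).mem_nhds
      (show x2.swap.swap ∈ V ∩ ({y : Pair n | G0 y} ∩ {y : Pair n | Good y}) by
        rw [Prod.swap_swap]; exact ⟨hx2.1, hx2.2, g2⟩))
  obtain ⟨x4, hx4, s4, g4⟩ := dense_good x3 s3
    (((o2.preimage continuous_swap).inter isOpen_G0).mem_nhds ⟨hx3, g3⟩)
  obtain ⟨⟨hV4, hG4, hGood4⟩, hG4'⟩ := hx4
  refine ⟨x4.swap, hV _ hV4, ⟨s4.2, s4.1⟩, hG4, hGood4, ?_, ?_⟩
  · rw [Prod.swap_swap]; exact hG4'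
  · rw [Prod.swap_swap]; exact g4

theorem dense_pi {P : Pair n → Prop}
    (hP : ∀ x : Pair n, SL1 x → ∀ U ∈ 𝓝 x, ∃ x' ∈ U, SL1 x' ∧ P x')
    {q : Fin g → Pair n} (S : Finset (Fin g)) (hq : ∀ k ∈ S, SL1 (q k)) {U : Set (Fin g → Pair n)}
    (hU : U ∈ 𝓝 q) : ∃ q' ∈ U, (∀ k ∈ S, SL1 (q' k) ∧ P (q' k)) ∧ ∀ k, k ∉ S → q' k = q k := by
  classical
  rw [nhds_pi, Filter.mem_pi] at hU
  obtain ⟨I, -, t, ht, hsub⟩ := hU
  choose w hw1 hw2 hw3 using fun k (hk : k ∈ S) => hP (q k) (hq k hk) (t k) (ht k)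
  refine ⟨fun k => if hk : k ∈ S then w k hk else q k, hsub fun k _ => ?_, fun k hk => ?_, fun k hk => ?_⟩
  · show (if hk : k ∈ S then w k hk else q k) ∈ t k
    split_ifs with hk
    · exact hw1 k hk
    · exact mem_of_mem_nhds (ht k)
  · simp only [dif_pos hk]; exact ⟨hw2 k hk, hw3 k hk⟩
  · simp only [dif_neg hk]

theorem cm_swap_of_eq {a : Pair n} {b : Pair n} (ha : SL1 a) (hb : SL1 b) (h : cm a * cm b = 1) :
    cm b.swap = cm a :=
  (left_inv_eq_right_inv h (cm_mul_swap hb.1 hb.2)).symm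

theorem isOpen_hy_apply (k : Fin g) : IsOpen {q : Fin g → Pair n | Hy (q k)} :=
  IsOpen.preimage (f := fun q : Fin g → Pair n => q k) (continuous_apply k) (isOpen_hy (n := n))

/-- The whole good part of a commutator fibre lies in the closure. -/
theorem spread {i : Fin g} {S : Set (Pair n)} {rest : Pair n → Fin g → Pair n} (hS : IsOpen S)
    (hrest : ContinuousOn rest S) (hz : ∀ x ∈ S, SL1 x → Zd (Function.update (rest x) i x))
    {x0 : Pair n} (hx0 : x0 ∈ S) (h1 : SL1 x0) (hG : G0 x0) (hg : Good x0) {y : Pair n}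
    (hy : SL1 y) (hgy : Good y) (h : cm y = cm x0) : Zd (Function.update (rest x0) i y) := by
  obtain ⟨γ, e0, e1, hrA, hrB, hc, hev⟩ := fibre_curve x0 y h1 hy hg hgy h.symm
  intro p hp
  have hloc := local_move hS hrest hz hx0 h1 hG
  have ht : Tendsto γ (𝓝 0) (𝓝 x0) := e0 ▸ hc.tendsto
  rw [← e1]
  refine ratOn_eval_eq_zero (fun s => Function.update (rest x0) i (γ s)) ?_ p ?_
  · rintro ⟨k, b, r, c⟩
    by_cases hk : k = i
    · subst hk
      cases b
      · simpa [ev] using hrA r c
      · simpa [ev] using hrB r c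
    · simpa [ev, hk] using ratOn_const _
  · filter_upwards [ht.eventually hloc, hev] with s hs hs'
    exact hs hs'.1 hs'.2 p hp

/-- Every representation is in the closure as soon as an open set of generic ones is. -/
theorem all_zd_of_open (hn : 0 < n) (hg : 2 ≤ g) {q0 : Fin g → Pair n} (h0 : IsRep q0)
    (hg0 : ∀ k, Hy (q0 k)) (hev : ∀ᶠ q in 𝓝 q0, IsRep q → Zd q) :
    ∀ q : Fin g → Pair n, IsRep q → Zd q := by
  have hgood : ∀ q : Fin g → Pair n, IsRep q → (∀ k, Hy (q k)) → Zd q := by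
    intro q hq hq'
    obtain ⟨γ, e0, e1, hr, hc, hrep⟩ :=
      rat_curve q0 q h0 hq (fun k => (hg0 k).2.1) (fun k => (hq' k).2.1)
    intro p hp
    have ht : Tendsto γ (𝓝 0) (𝓝 q0) := e0 ▸ hc.tendsto
    rw [← e1]
    refine ratOn_eval_eq_zero γ hr p ?_
    filter_upwards [ht.eventually hev, hrep] with s hs hs'
    exact hs hs' p hp
  refine zd_of_good hg fun q hq ⟨j, hj⟩ => ?_
  by_contra hne
  classical
  have hnb : ∀ᶠ q' in 𝓝 q, ¬ Zd q' := isClosed_zd.isOpen_compl.mem_nhds hne
  obtain ⟨Sg, V, hVo, hVm, hVc, hS0, hSg⟩ := absorb hn hq j hj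
  obtain ⟨N, hN, hNo, hqN⟩ := eventually_nhds_iff.1 hnb
  have hcts : ContinuousAt Sg q := hVc.continuousAt (hVo.mem_nhds hVm)
  have hU : ∀ᶠ q' in 𝓝 q, q' ∈ V ∧ Sg q' ∈ N :=
    (hVo.eventually_mem hVm).and (hcts.preimage_mem_nhds (hNo.mem_nhds (by rw [hS0]; exact hqN)))
  obtain ⟨q1, ⟨hq1V, hq1N⟩, hq1, -⟩ := dense_pi (P := Hy) (fun x hx U hU => dense_hy hx hU)
    ((Finset.univ : Finset (Fin g)).erase j) (fun k _ => hq.1 k) hU
  have hsl : ∀ k, k ≠ j → SL1 (q1 k) := fun k hk => (hq1 k (by simp [hk])).1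
  obtain ⟨hrep, hsame⟩ := hSg q1 hq1V hsl
  set r := Sg q1 with hr
  have hrH : ∀ k, k ≠ j → Hy (r k) := fun k hk => by
    rw [hsame k hk]; exact (hq1 k (by simp [hk])).2
  have : Nontrivial (Fin g) := Fin.nontrivial_iff_two_le.2 hg
  obtain ⟨l, hl⟩ := exists_ne j
  obtain ⟨Sg', V', hVo', hVm', hVc', hS0', hSg'⟩ := absorb hn hrep l (hrH l hl).1.scalar
  have hcts' : ContinuousAt Sg' r := hVc'.continuousAt (hVo'.mem_nhds hVm')
  have hlo : IsOpen {q' : Fin g → Pair n | Hy (q' l)} := isOpen_hy_apply l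
  have hU' : ∀ᶠ q' in 𝓝 r, q' ∈ V' ∧ (Sg' q' ∈ N ∧ Sg' q' ∈ {q' : Fin g → Pair n | Hy (q' l)}) :=
    (hVo'.eventually_mem hVm').and (Filter.Eventually.and
      (p := fun q' => Sg' q' ∈ N) (q := fun q' => Sg' q' ∈ {q' : Fin g → Pair n | Hy (q' l)})
      (hcts'.preimage_mem_nhds (hNo.mem_nhds (by rw [hS0']; exact hq1N)))
      (hcts'.preimage_mem_nhds (hlo.mem_nhds (by rw [hS0']; exact hrH l hl))))
  obtain ⟨q2, ⟨hq2V, hq2N, hq2l⟩, hq2, hq2'⟩ := dense_pi (P := Hy) (fun x hx U hU => dense_hy hx hU)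
    ({j} : Finset (Fin g)) (fun k _ => hrep.1 k) hU'
  obtain ⟨hrep2, hsame2⟩ := hSg' q2 hq2V fun k hk => by
    by_cases hkj : k = j
    · subst hkj; exact (hq2 k (by simp)).1
    · rw [hq2' k (by simp [hkj])]; exact hrep.1 k
  refine hN _ hq2N (hgood _ hrep2 fun k => ?_)
  by_cases hk : k = l
  · subst hk; exact hq2l
  · rw [hsame2 k hk]
    by_cases hkj : k = j
    · subst hkj; exact (hq2 k (by simp)).2
    · rw [hq2' k (by simp [hkj])]; exact hrH k hkj

/-- The statement that is propagated through the genus. -/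
def Dense' (g n : ℕ) : Prop :=
  (∀ q : Fin g → Pair n, IsRep q → Zd q) ∧ ∃ q : Fin g → Pair n, IsRep q ∧ ∀ k, Hy (q k)

theorem dense_base (hn : 0 < n) : Dense' 2 n := by
  obtain ⟨x, -, hx1, hxH⟩ := dense_hy (x := ((1, 1) : Pair n)) ⟨Matrix.det_one, Matrix.det_one⟩
    (Filter.univ_mem)
  have hrep : IsRep ![x, x.swap] := by
    constructor
    · intro k
      fin_cases k
      · exact hx1
      · exact ⟨hx1.2, hx1.1⟩
    · simp [List.ofFn_succ, Prod.swap, cm_mul_swap hx1.1 hx1.2]
  have hH : ∀ k, Hy (![x, x.swap] k) := by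
    intro k
    fin_cases k
    · exact hxH
    · exact ⟨hxH.2.2.1, hxH.2.2.2, by simpa using hxH.1, by simpa using hxH.2.1⟩
  refine ⟨all_zd_of_open hn le_rfl hrep hH ?_, _, hrep, hH⟩
  have hz : ∀ a ∈ (Set.univ : Set (Pair n)), SL1 a →
      Zd (Function.update (![a, a.swap] : Fin 2 → Pair n) 0 a) := by
    intro a _ ha
    have e : Function.update (![a, a.swap] : Fin 2 → Pair n) 0 a = ![(a.1, a.2), (a.2, a.1)] := by
      funext k; fin_cases k <;> rfl
    rw [e]
    exact zd_seed ha.1 ha.2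
  have hcont : Continuous fun a : Pair n => (![a, a.swap] : Fin 2 → Pair n) := by
    refine continuous_pi fun k => ?_
    fin_cases k
    · exact continuous_id
    · exact continuous_swap
  have e1 : ∀ᶠ q : Fin 2 → Pair n in 𝓝 ![x, x.swap], Hy (q 0) :=
    (isOpen_hy_apply (0 : Fin 2)).mem_nhds (hH 0)
  have e2 : ∀ᶠ q : Fin 2 → Pair n in 𝓝 ![x, x.swap], Hy (q 1) :=
    (isOpen_hy_apply (1 : Fin 2)).mem_nhds (hH 1)
  filter_upwards [e1, e2] with q h0 h1 hq
  have hprod : cm (q 0) * cm (q 1) = 1 := by simpa [List.ofFn_succ] using hq.2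
  have hsp := spread (i := (0 : Fin 2)) isOpen_univ hcont.continuousOn hz (x0 := (q 1).swap)
    (Set.mem_univ _) ⟨(hq.1 1).2, (hq.1 1).1⟩ h1.2.2.1 h1.2.2.2 (hq.1 0) h0.2.1
    (cm_swap_of_eq (hq.1 0) (hq.1 1) hprod).symm
  have e : Function.update (![(q 1).swap, (q 1).swap.swap] : Fin 2 → Pair n) 0 (q 0) = q := by
    funext k; fin_cases k <;> simp
  rwa [e] at hsp

/-- Split representations are in the closure. -/
theorem zd_of_conj_rel (hall : ∀ q : Fin (g + 1) → Pair n, IsRep q → Zd q)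
    {p : Fin (g + 2) → Pair n} (hp : IsRep p)
    (hrel : (p (Fin.last (g + 1))).1 = (p (Fin.last g).castSucc).2 * (p (Fin.last g).castSucc).1 *
      (p (Fin.last g).castSucc).2.adjugate) : Zd p := by
  set A := (p (Fin.last g).castSucc).1 with hA
  set B := (p (Fin.last g).castSucc).2 with hB
  set R := (p (Fin.last (g + 1))).2 with hR
  have hA1 : A.det = 1 := (hp.1 _).1
  have hB1 : B.det = 1 := (hp.1 _).2
  have hR1 : R.det = 1 := (hp.1 _).2
  have hW : (B.adjugate * R * B).det = 1 := by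
    simp [Matrix.det_mul, det_adj_one hB1, hR1, hB1]
  let q : Fin (g + 1) → Pair n := Fin.snoc (fun k => p k.castSucc.castSucc) (A, R * B)
  have hqB : R * B * (B.adjugate * R * B).adjugate = B := by
    calc R * B * (B.adjugate * R * B).adjugate
        = B * (B.adjugate * R * B) * (B.adjugate * R * B).adjugate := by
          simp only [← Matrix.mul_assoc, mul_adj_one hB1, Matrix.one_mul]
      _ = B := by rw [Matrix.mul_assoc B, mul_adj_one hW, Matrix.mul_one]
  have hqR : B * (B.adjugate * R * B) * B.adjugate = R := by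
    simp only [← Matrix.mul_assoc, mul_adj_one hB1, Matrix.one_mul]
    rw [Matrix.mul_assoc, mul_adj_one hB1, Matrix.mul_one]
  have hsplit : split (B.adjugate * R * B) q = p := by
    funext k
    refine Fin.lastCases ?_ (fun k => ?_) k
    · simp only [split, q, Fin.snoc_last, hqB, hqR]
      exact Prod.ext hrel.symm rfl
    · refine Fin.lastCases ?_ (fun k => ?_) k
      · simp only [split, q, Fin.snoc_last, Fin.snoc_castSucc, hqB]
        rfl
      · simp [split, q]
  have hq : IsRep q := by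
    constructor
    · intro k
      refine Fin.lastCases ?_ (fun k => ?_) k
      · simp [q, Matrix.det_mul, hA1, hR1, hB1, A, B, R]
      · simpa [q] using hp.1 k.castSucc.castSucc
    · have := hp.2
      rw [List.ofFn_succ', List.concat_eq_append, List.prod_append, List.prod_singleton,
        List.ofFn_succ', List.concat_eq_append, List.prod_append, List.prod_singleton,
        Matrix.mul_assoc] at this
      rw [List.ofFn_succ', List.concat_eq_append, List.prod_append, List.prod_singleton]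
      simp only [q, Fin.snoc_castSucc, Fin.snoc_last]
      rw [show p (Fin.last (g + 1)) = (B * A * B.adjugate, B * (B.adjugate * R * B) * B.adjugate) from
        Prod.ext hrel (hqR.symm ▸ rfl), show p (Fin.last g).castSucc = (A, B) from rfl,
        cm_split hA1 hB1 hW, ← Matrix.mul_assoc B, ← Matrix.mul_assoc B, mul_adj_one hB1,
        Matrix.one_mul] at this
      exact this
  rw [← hsplit]
  exact zd_split (hall q hq) hW

theorem dense_step (hn : 0 < n) {g : ℕ} (h : Dense' (g + 2) n) : Dense' (g + 3) n := by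
  classical
  obtain ⟨hall, r0, hr0, hr0H⟩ := h
  let a : Fin (g + 3) := (Fin.last (g + 1)).castSucc
  let b : Fin (g + 3) := Fin.last (g + 2)
  let o : Fin (g + 3) := 0
  have hab : a ≠ b := by simp [a, b, Fin.ext_iff]
  have hoa : o ≠ a := by simp [o, a, Fin.ext_iff]
  have hob : o ≠ b := by simp [o, b, Fin.ext_iff]
  -- spreading the last handle
  have spreadB : ∀ p : Fin (g + 3) → Pair n, IsRep p →
      (p b).1 = (p a).2 * (p a).1 * (p a).2.adjugate → G0 (p o) → G0 (p b) → Good (p b) →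
      ∀ y, SL1 y → Good y → cm y = cm (p b) → Zd (Function.update p b y) := by
    intro p hp hrel ho hbG hbg y hy hgy hcy
    obtain ⟨hA1, hB1⟩ := hp.1 a
    obtain ⟨Sg, V, hVo, hVm, hVc, hS0, hSg⟩ := absorb hn hp o ho.scalar
    let base : Pair n → Fin (g + 3) → Pair n := fun x' =>
      Function.update (Function.update p a ((p a).2.adjugate * x'.1 * (p a).2, (p a).2)) b x'
    have hbase : Continuous base :=
      ((continuous_const).update a (((continuous_const.mul continuous_fst).mul continuous_const).prodMk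
        continuous_const)).update b continuous_id
    have hp0 : base (p b) = p := by
      have : (p a).2.adjugate * (p b).1 * (p a).2 = (p a).1 := by
        rw [hrel]
        simp only [← Matrix.mul_assoc, adj_mul_one hB1, Matrix.one_mul]
        rw [Matrix.mul_assoc, adj_mul_one hB1, Matrix.mul_one]
      simp only [base, this, Prod.mk.eta, Function.update_eq_self]
    have hmem : p b ∈ base ⁻¹' V := by rw [Set.mem_preimage, hp0]; exact hVm
    have hz : ∀ x' ∈ base ⁻¹' V, SL1 x' → Zd (Function.update (Sg (base x')) b x') := by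
      intro x' hx' h'
      obtain ⟨hr, hsame⟩ := hSg (base x') hx' fun k _ => by
        by_cases hkb : k = b
        · subst hkb; simpa [base] using h'
        · by_cases hka : k = a
          · subst hka
            simp [base, hkb, SL1, Matrix.det_mul, det_adj_one hB1, hB1, h'.1]
          · simpa [base, hkb, hka, SL1] using hp.1 k
      have eb : Sg (base x') b = x' := by rw [hsame b hob.symm]; simp [base]
      rw [Function.update_eq_self_iff.2 eb.symm]
      refine zd_of_conj_rel (g := g + 1) hall hr ?_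
      show (Sg (base x') b).1 = (Sg (base x') a).2 * (Sg (base x') a).1 * (Sg (base x') a).2.adjugate
      rw [eb, hsame a hoa.symm]
      simp only [base, Function.update_of_ne hab, Function.update_self]
      rw [← Matrix.mul_assoc, ← Matrix.mul_assoc, mul_adj_one hB1, Matrix.one_mul, Matrix.mul_assoc,
        mul_adj_one hB1, Matrix.mul_one]
    have hsp := spread (i := b) (S := base ⁻¹' V) (rest := fun x' => Sg (base x')) (hVo.preimage hbase)
      (hVc.comp hbase.continuousOn fun x hx => hx) hz hmem (hp.1 b) hbG hbg hy hgy hcy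
    simpa [hp0, hS0] using hsp
  -- a base triple
  obtain ⟨hA, hX⟩ := hr0.1 (Fin.last (g + 1))
  obtain ⟨P, μ, hd, hT⟩ := (hr0H (Fin.last (g + 1))).2.2.1
  obtain ⟨B0, hB0, hopen⟩ := split_open hn hA hX hd hT
  obtain ⟨Sg0, V0, hV0o, hV0m, hV0c, hS00, hSg0⟩ := absorb hn hr0 0 (hr0H 0).1.scalar
  set last := (Fin.last (g + 1) : Fin (g + 2)) with hlast
  have h0last : (0 : Fin (g + 2)) ≠ last := by simp [hlast, Fin.ext_iff]
  let upd : Mat n × Mat n × Mat n → Fin (g + 2) → Pair n := fun t =>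
    Function.update r0 last (t.1, t.2.2)
  have hupd : Continuous upd :=
    continuous_const.update last (continuous_fst.prodMk (continuous_snd.comp continuous_snd))
  have hupd0 : upd ((r0 last).1, B0, (r0 last).2) = r0 := by simp [upd]
  have hev : ∀ᶠ t in 𝓝 ((r0 last).1, B0, (r0 last).2), upd t ∈ V0 ∧ (∀ k, Hy (Sg0 (upd t) k)) := by
    have hc : ContinuousAt (fun t => Sg0 (upd t)) ((r0 last).1, B0, (r0 last).2) :=
      ContinuousAt.comp_of_eq (g := Sg0) (hV0c.continuousAt (hV0o.mem_nhds hV0m)) hupd.continuousAt hupd0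
    refine ((hupd.tendsto _).eventually (hV0o.eventually_mem (by rw [hupd0]; exact hV0m))).and ?_
    rw [eventually_all]
    intro k
    exact ((continuous_apply k).continuousAt.comp hc).preimage_mem_nhds
      (isOpen_hy.mem_nhds (show Hy (Sg0 (upd _) k) by rw [hupd0, hS00]; exact hr0H k))
  obtain ⟨T, hT', hTo, hTm⟩ := eventually_nhds_iff.1 (hev.and hopen)
  -- first perturbation
  have hι : Continuous fun z : Pair n => ((z.1, z.2, (r0 last).2) : Mat n × Mat n × Mat n) :=
    continuous_fst.prodMk (continuous_snd.prodMk continuous_const)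
  obtain ⟨z1, hz1T, hz1s, hz1H⟩ := dense_hy (x := ((r0 last).1, B0)) ⟨hA, hB0⟩
    ((hTo.preimage hι).mem_nhds hTm)
  -- second perturbation
  let conv : Pair n → Mat n × Mat n × Mat n := fun w =>
    (z1.2.adjugate * w.1 * z1.2, z1.2, w.2 * z1.2)
  have hconv : Continuous conv :=
    ((continuous_const.mul continuous_fst).mul continuous_const).prodMk
      (continuous_const.prodMk (continuous_snd.mul continuous_const))
  let w0 : Pair n := (z1.2 * z1.1 * z1.2.adjugate, (r0 last).2 * z1.2.adjugate)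
  have hw0 : conv w0 = (z1.1, z1.2, (r0 last).2) := by
    simp only [conv, w0, ← Matrix.mul_assoc, adj_mul_one hz1s.2, Matrix.one_mul]
    rw [Matrix.mul_assoc z1.1, adj_mul_one hz1s.2, Matrix.mul_one, Matrix.mul_assoc _ _ z1.2,
      adj_mul_one hz1s.2, Matrix.mul_one]
  have hTH : IsOpen (conv ⁻¹' (T ∩ {t | Hy (t.1, t.2.1)})) :=
    (hTo.inter (isOpen_hy.preimage (continuous_fst.prodMk (continuous_fst.comp continuous_snd)))).preimage
      hconv
  obtain ⟨w, ⟨hwT, hwH⟩, hws, hwHy⟩ := dense_hy (x := w0)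
    (show SL1 w0 from ⟨by simp [w0, Matrix.det_mul, det_adj_one hz1s.2, hz1s.1, hz1s.2],
      by simp [w0, Matrix.det_mul, det_adj_one hz1s.2, hX]⟩)
    (hTH.mem_nhds (by rw [Set.mem_preimage, hw0]; exact ⟨hz1T, hz1H⟩))
  obtain ⟨⟨hV1, hH1⟩, hop⟩ := hT' _ hwT
  set t1 := conv w with ht1
  have d1 : t1.1.det = 1 := by
    simp [ht1, conv, Matrix.det_mul, det_adj_one hz1s.2, hz1s.2, hws.1]
  have d2 : t1.2.1.det = 1 := hz1s.2
  have d3 : t1.2.2.det = 1 := by simp [ht1, conv, Matrix.det_mul, hz1s.2, hws.2]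
  -- the new generic representation
  obtain ⟨hr1, hsame1⟩ := hSg0 (upd t1) hV1 fun k _ => by
    by_cases hk : k = last
    · subst hk; simp [upd, SL1, d1, d3]
    · simpa [upd, hk, SL1] using hr0.1 k
  have hr1last : Sg0 (upd t1) last = (t1.1, t1.2.2) := by
    rw [hsame1 last h0last.symm]; simp [upd]
  set r1 := Sg0 (upd t1) with hr1def
  let W := t1.2.1.adjugate * t1.2.2
  have hW : W.det = 1 := by simp [W, Matrix.det_mul, det_adj_one d2, d3]
  set q0 := split W r1 with hq0
  have hq0rep : IsRep q0 := isRep_split hW hr1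
  have hadjW : t1.2.2 * W.adjugate = t1.2.1 := by
    have : W.adjugate = t1.2.2.adjugate * t1.2.1 := by
      refine adj_eq_of_mul hW ?_
      simp only [W, Matrix.mul_assoc]
      rw [← Matrix.mul_assoc t1.2.2, mul_adj_one d3, Matrix.one_mul, adj_mul_one d2]
    rw [this, ← Matrix.mul_assoc, mul_adj_one d3, Matrix.one_mul]
  have hq0a : q0 a = (t1.1, t1.2.1) := by
    simp only [hq0, a, split, Fin.snoc_castSucc, ← hlast, hr1last, hadjW]
    rw [hlast, Fin.snoc_last]
  have hq0b : q0 b = w := by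
    simp only [hq0, b, split, Fin.snoc_last, ← hlast, hr1last, hadjW]
    simp only [W, ht1, conv, ← Matrix.mul_assoc, mul_adj_one hz1s.2, Matrix.one_mul]
    rw [Matrix.mul_assoc w.1, mul_adj_one hz1s.2, Matrix.mul_one, Matrix.mul_assoc w.2,
      mul_adj_one hz1s.2, Matrix.mul_one]
  have hq0H : ∀ k, Hy (q0 k) := by
    intro k
    refine Fin.lastCases ?_ (fun k => ?_) k
    · show Hy (q0 b); rw [hq0b]; exact hwHy
    · refine Fin.lastCases ?_ (fun k => ?_) k
      · show Hy (q0 a); rw [hq0a]; exact hwH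
      · simp only [hq0, split, Fin.snoc_castSucc]
        exact hH1 k.castSucc
  refine ⟨all_zd_of_open hn (by omega) hq0rep hq0H ?_, q0, hq0rep, hq0H⟩
  -- an open set of representations
  have hU : {t : Mat n × Mat n × Mat n | Hy (t.1, t.2.1) ∧
      Hy (t.2.1 * t.1 * t.2.1.adjugate, t.2.2 * t.2.1.adjugate)} ∈ 𝓝 t1 := by
    have c1 : Continuous fun t : Mat n × Mat n × Mat n => ((t.1, t.2.1) : Pair n) :=
      continuous_fst.prodMk (continuous_fst.comp continuous_snd)
    have c2 : Continuous fun t : Mat n × Mat n × Mat n =>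
        ((t.2.1 * t.1 * t.2.1.adjugate, t.2.2 * t.2.1.adjugate) : Pair n) :=
      (((continuous_fst.comp continuous_snd).mul continuous_fst).mul
        (continuous_fst.comp continuous_snd).matrix_adjugate).prodMk
        ((continuous_snd.comp continuous_snd).mul (continuous_fst.comp continuous_snd).matrix_adjugate)
    refine ((isOpen_hy.preimage c1).inter (isOpen_hy.preimage c2)).mem_nhds ⟨?_, ?_⟩
    · exact hwH
    · show Hy (t1.2.1 * t1.1 * t1.2.1.adjugate, t1.2.2 * t1.2.1.adjugate)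
      have e : ((t1.2.1 * t1.1 * t1.2.1.adjugate, t1.2.2 * t1.2.1.adjugate) : Pair n) = w := by
        simp only [ht1, conv, ← Matrix.mul_assoc, mul_adj_one hz1s.2, Matrix.one_mul]
        rw [Matrix.mul_assoc w.1, mul_adj_one hz1s.2, Matrix.mul_one, Matrix.mul_assoc w.2,
          mul_adj_one hz1s.2, Matrix.mul_one]
      rw [e]; exact hwHy
  have hcm0 : (cm (q0 a), cm (q0 a) * cm (q0 b)) = (cm (t1.1, t1.2.1), cm (t1.1, t1.2.2)) := by
    have hsw : q0 b = (t1.2.1 * t1.1 * t1.2.1.adjugate, t1.2.1 * W * t1.2.1.adjugate) := by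
      simp only [hq0, b, split, Fin.snoc_last, ← hlast, hr1last, hadjW]
    rw [hq0a, hsw, cm_split d1 d2 hW]
    simp only [W, ← Matrix.mul_assoc, mul_adj_one d2, Matrix.one_mul]
  have hctarget : Continuous fun q : Fin (g + 3) → Pair n => (cm (q a), cm (q a) * cm (q b)) :=
    (continuous_cm.comp (continuous_apply a)).prodMk
      ((continuous_cm.comp (continuous_apply a)).mul (continuous_cm.comp (continuous_apply b)))
  have e1 : ∀ᶠ q in 𝓝 q0, ∀ k, Hy (q k) := by
    rw [eventually_all]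
    intro k
    exact (isOpen_hy_apply k).mem_nhds (hq0H k)
  have e2 := (hctarget.tendsto q0).eventually (by rw [hcm0]; exact hop d1 d2 d3 _ hU)
  filter_upwards [e1, e2] with q hqH hqc hq
  obtain ⟨t, ⟨htH1, htH2⟩, s1, s2, s3, hc1, hc12⟩ := hqc (det_cm (hq.1 a).1 (hq.1 a).2)
    (by rw [Matrix.det_mul, det_cm (hq.1 a).1 (hq.1 a).2, det_cm (hq.1 b).1 (hq.1 b).2, mul_one])
  set R2 := t.2.2 * t.2.1.adjugate with hR2
  set y0 : Pair n := (t.1, t.2.1) with hy0
  set w' : Pair n := (t.2.1 * t.1 * t.2.1.adjugate, R2) with hw'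
  have hw's : SL1 w' := ⟨by simp [hw', Matrix.det_mul, det_adj_one s2, s1, s2],
    by simp [hw', hR2, Matrix.det_mul, det_adj_one s2, s3]⟩
  have hcw : cm w' = cm (q b) := by
    have hA1 := det_cm (hq.1 a).1 (hq.1 a).2
    have e := cm_split (W := t.2.1.adjugate * t.2.2) s1 s2 (by simp [Matrix.det_mul, det_adj_one s2, s3])
    simp only [← Matrix.mul_assoc, mul_adj_one s2, Matrix.one_mul] at e
    rw [hc1, hc12] at e
    calc cm w' = (cm (q a)).adjugate * (cm (q a) * cm w') := by
          rw [← Matrix.mul_assoc, adj_mul_one hA1, Matrix.one_mul]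
      _ = cm (q b) := by
          rw [show cm (q a) * cm w' = cm (q a) * cm (q b) from e, ← Matrix.mul_assoc,
            adj_mul_one hA1, Matrix.one_mul]
  set p := Function.update (Function.update q a y0) b w' with hp
  have hprep : IsRep p := by
    refine isRep_update (isRep_update hq a s1 s2 hc1) b hw's.1 hw's.2 ?_
    rw [Function.update_of_ne hab.symm]
    exact hcw
  have hpa : p a = y0 := by simp [hp, hab]
  have hpb : p b = w' := by simp [hp]
  have hpo : p o = q o := by simp [hp, hoa, hob]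
  obtain ⟨Sg, V, hVo, hVm, hVc, hS0, hSg⟩ := absorb hn hprep o (by rw [hpo]; exact (hqH o).1.scalar)
  obtain ⟨σ, Vσ, hσo, hσm, hσc, hσ0, hσ⟩ := cm_section hn (hq.1 b) (hqH b).1.scalar
  let sb : Pair n → Pair n := fun x => (x.2 * x.1 * x.2.adjugate, R2)
  have hsb : Continuous sb :=
    ((continuous_snd.mul continuous_fst).mul continuous_snd.matrix_adjugate).prodMk continuous_const
  let base : Pair n → Fin (g + 3) → Pair n := fun x =>
    Function.update (Function.update p a x) b (sb x)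
  have hbase : Continuous base :=
    ((continuous_const (y := p)).update a (g := fun x : Pair n => x) continuous_id).update b hsb
  have hb0 : base y0 = p := by
    have hsb0 : sb y0 = w' := rfl
    simp only [base]
    rw [hsb0]
    nth_rw 1 [← hpa]
    rw [Function.update_eq_self, ← hpb, Function.update_eq_self]
  let S1 : Set (Pair n) := base ⁻¹' V ∩ (fun x => cm (sb x)) ⁻¹' Vσ
  have hS1 : IsOpen S1 := (hVo.preimage hbase).inter (hσo.preimage (continuous_cm.comp hsb))
  have hpx : ContinuousOn (fun x => Sg (base x)) S1 :=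
    hVc.comp hbase.continuousOn fun x hx => hx.1
  have hσx : ContinuousOn (fun x => σ (cm (sb x))) S1 :=
    hσc.comp (continuous_cm.comp hsb).continuousOn fun x hx => hx.2
  let S : Set (Pair n) := (S1 ∩ (fun x => Sg (base x)) ⁻¹' {r | G0 (r o)}) ∩
    ((S1 ∩ (fun x => σ (cm (sb x))) ⁻¹' {y | Good y}) ∩ sb ⁻¹' ({y | G0 y} ∩ {y | Good y}))
  have hoG : IsOpen {r : Fin (g + 3) → Pair n | G0 (r o)} :=
    IsOpen.preimage (f := fun r : Fin (g + 3) → Pair n => r o) (continuous_apply o) (isOpen_G0 (n := n))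
  have hS : IsOpen S :=
    (hpx.isOpen_inter_preimage hS1 hoG).inter
      ((hσx.isOpen_inter_preimage hS1 isOpen_good).inter ((isOpen_G0.inter isOpen_good).preimage hsb))
  have hy0S : y0 ∈ S := by
    have hsb0 : sb y0 = w' := rfl
    have h1 : y0 ∈ S1 := ⟨by rw [Set.mem_preimage, hb0]; exact hVm,
      by rw [Set.mem_preimage, hsb0, hcw]; exact hσm⟩
    refine ⟨⟨h1, ?_⟩, ⟨h1, ?_⟩, ?_⟩
    · show G0 (Sg (base y0) o)
      rw [hb0, hS0, hpo]; exact (hqH o).1
    · show Good (σ (cm (sb y0)))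
      rw [hsb0, hcw, hσ0]; exact (hqH b).2.1
    · rw [Set.mem_preimage, hsb0]; exact ⟨htH2.1, htH2.2.1⟩
  let rest : Pair n → Fin (g + 3) → Pair n := fun x =>
    Function.update (Sg (base x)) b (σ (cm (sb x)))
  have hrest : ContinuousOn rest S := by
    refine continuousOn_pi.2 fun k => ?_
    by_cases hk : k = b
    · subst hk
      simp only [rest, Function.update_self]
      exact hσx.mono fun x hx => hx.1.1
    · simp only [rest, Function.update_of_ne hk]
      exact ((continuous_apply k).comp_continuousOn hpx).mono fun x hx => hx.1.1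
  have hz : ∀ x ∈ S, SL1 x → Zd (Function.update (rest x) a x) := by
    rintro x ⟨⟨hx1, hxo⟩, ⟨-, hxg⟩, hxb⟩ hx
    have hsbs : SL1 (sb x) := ⟨by simp [sb, Matrix.det_mul, det_adj_one hx.2, hx.1, hx.2], hw's.2⟩
    obtain ⟨hr, hsame⟩ := hSg (base x) hx1.1 fun k _ => by
      by_cases hkb : k = b
      · subst hkb; simpa [base] using hsbs
      · by_cases hka : k = a
        · subst hka; simpa [base, hkb] using hx
        · simpa [base, hkb, hka, SL1] using hprep.1 k
    have eb : Sg (base x) b = sb x := by rw [hsame b hob.symm]; simp [base]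
    have ea : Sg (base x) a = x := by rw [hsame a hoa.symm]; simp [base, hab]
    obtain ⟨hσs, hσcm⟩ := hσ _ hx1.2 (det_cm hsbs.1 hsbs.2)
    rw [show Function.update (rest x) a x = rest x by
      funext k
      by_cases hk : k = a
      · subst hk; simp [rest, hab, ea]
      · simp [hk]]
    refine spreadB (Sg (base x)) hr (by rw [eb, ea]) hxo (by rw [eb]; exact hxb.1)
      (by rw [eb]; exact hxb.2) _ hσs hxg (by rw [eb]; exact hσcm)
  have hsp := spread (i := a) hS hrest hz hy0S ⟨s1, s2⟩ htH1.1 htH1.2.1 (hq.1 a) (hqH a).2.1 hc1.symm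
  have hrest0 : rest y0 = Function.update p b (q b) := by
    have hsb0 : sb y0 = w' := rfl
    simp only [rest, hb0, hS0, hsb0, hcw, hσ0]
  rw [hrest0] at hsp
  convert hsp using 1
  funext k
  by_cases hka : k = a
  · subst hka; simp
  · by_cases hkb : k = b
    · subst hkb; simp [hka]
    · simp [hp, hka, hkb]

/-- Integral representations are Zariski dense, in every genus at least two and every rank. -/
theorem zd_all (hg : 2 ≤ g) (q : Fin g → Pair n) (hq : IsRep q) : Zd q := by
  rcases Nat.eq_zero_or_pos n with hn | hn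
  · subst hn
    intro p hp
    have hint : IsRep (fun _ => (1, 1) : Fin g → Matrix (Fin 0) (Fin 0) ℤ × Matrix (Fin 0) (Fin 0) ℤ) :=
      ⟨fun _ => ⟨Matrix.det_one, Matrix.det_one⟩, Subsingleton.elim _ _⟩
    rw [show ev q = ev (castInt (fun _ => (1, 1) : Fin g → Matrix (Fin 0) (Fin 0) ℤ × Matrix (Fin 0) (Fin 0) ℤ))
      from funext fun v => v.2.2.1.elim0]
    exact hp _ hint
  · obtain ⟨k, rfl⟩ : ∃ k, g = k + 2 := ⟨g - 2, by omega⟩
    clear hg
    suffices H : ∀ k, Dense' (k + 2) n from (H k).1 q hq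
    intro k
    induction k with
    | zero => exact dense_base hn
    | succ k ih => exact dense_step hn ih

end P002Surf
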