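import Vale.Agent.P002Surf.Dense

/-!
Leading minors, triangular factorisations given by rational formulas, and a gauge that makes all
leading minors of a conjugate equal to one.
-/

namespace P002Surf

open Matrix Polynomial

variable {n : ℕ}

/-- Upper triangular. -/
abbrev Up (M : Mat n) : Prop := M.BlockTriangular (id : Fin n → Fin n)

/-- Lower triangular. -/
abbrev Lo (M : Mat n) : Prop := M.BlockTriangular (OrderDual.toDual : Fin n → (Fin n)ᵒᵈ)

theorem lo_zero {M : Mat n} (h : Lo M) {i j : Fin n} (hij : i < j) : M i j = 0 :=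
  h (OrderDual.toDual_lt_toDual.2 hij)

theorem up_zero {M : Mat n} (h : Up M) {i j : Fin n} (hij : j < i) : M i j = 0 := h hij

/-! ### triangular matrices -/

theorem tri_mul_diag {α : Type} [LinearOrder α] {b : Fin n → α} (hb : Function.Injective b)
    {M N : Mat n} (hM : M.BlockTriangular b) (hN : N.BlockTriangular b) (i : Fin n) :
    (M * N) i i = M i i * N i i := by
  rw [Matrix.mul_apply, Finset.sum_eq_single i (fun k _ hk => ?_) (by simp)]
  rcases lt_or_gt_of_ne (hb.ne hk) with h | h
  · rw [hM h, zero_mul]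
  · rw [hN h, mul_zero]

theorem tri_inv {α : Type} [LinearOrder α] {b : Fin n → α} (hb : Function.Injective b)
    {M : Mat n} (hM : M.BlockTriangular b) (hd : M.det ≠ 0) :
    M⁻¹.BlockTriangular b ∧ ∀ i, M⁻¹ i i = (M i i)⁻¹ := by
  have hu : IsUnit M.det := isUnit_iff_ne_zero.2 hd
  let : Invertible M := M.invertibleOfIsUnitDet hu
  have h := blockTriangular_inv_of_blockTriangular hM
  refine ⟨h, fun i => eq_inv_of_mul_eq_one_left ?_⟩
  rw [← tri_mul_diag hb h hM, Matrix.nonsing_inv_mul _ hu, one_apply_eq]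

theorem tri_aeval {α : Type} [LinearOrder α] {b : Fin n → α} (hb : Function.Injective b)
    {M : Mat n} (hM : M.BlockTriangular b) (p : ℂ[X]) :
    (aeval M p).BlockTriangular b ∧ ∀ i, aeval M p i i = p.eval (M i i) := by
  induction p using Polynomial.induction_on' with
  | add p q hp hq =>
    rw [map_add]
    exact ⟨hp.1.add hq.1, fun i => by rw [Matrix.add_apply, hp.2, hq.2, eval_add]⟩
  | monomial k c =>
    have hpow : (M ^ k).BlockTriangular b ∧ ∀ i, (M ^ k) i i = M i i ^ k := by
      induction k with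
      | zero => exact ⟨by rw [pow_zero]; exact blockTriangular_one, fun i => by simp⟩
      | succ k ih =>
        rw [pow_succ]
        exact ⟨ih.1.mul hM, fun i => by rw [tri_mul_diag hb ih.1 hM, ih.2, pow_succ]⟩
    rw [aeval_monomial, ← Algebra.smul_def]
    exact ⟨fun i j h => by rw [Matrix.smul_apply, hpow.1 h, smul_zero],
      fun i => by rw [Matrix.smul_apply, hpow.2, eval_monomial, smul_eq_mul]⟩

theorem lo_charpoly {M : Mat n} (h : Lo M) : M.charpoly = ∏ i, (X - C (M i i)) := by
  rw [← charpoly_transpose,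
    charpoly_of_isUpperTriangular Mᵀ fun i j hij => lo_zero h hij]
  rfl

/-! ### eigenvectors of a triangular matrix with given simple diagonal -/

/-- The interpolation polynomial which is one at `d j` and zero at the other `d k`. -/
noncomputable def lag (d : Fin n → ℂ) (j : Fin n) : ℂ[X] :=
  ∏ k ∈ Finset.univ.erase j, C (d j - d k)⁻¹ * (X - C (d k))

/-- The eigenvector matrix, column by column. -/
noncomputable def eig (M : Mat n) (d : Fin n → ℂ) : Mat n :=
  Matrix.of fun i j => aeval M (lag d j) i j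

theorem eig_spec {α : Type} [LinearOrder α] {b : Fin n → α} (hb : Function.Injective b)
    {M : Mat n} {d : Fin n → ℂ} (hM : M.BlockTriangular b) (hdiag : ∀ i, M i i = d i)
    (hd : Function.Injective d) (hchar : M.charpoly = ∏ i, (X - C (d i))) :
    (eig M d).BlockTriangular b ∧ (∀ i, eig M d i i = 1) ∧
      M * eig M d = eig M d * diagonal d := by
  refine ⟨fun i j h => (tri_aeval hb hM (lag d j)).1 h, fun j => ?_, ?_⟩
  · rw [eig, Matrix.of_apply, (tri_aeval hb hM _).2, hdiag, lag, eval_prod]
    refine Finset.prod_eq_one fun k hk => ?_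
    rw [eval_mul, eval_C, eval_sub, eval_X, eval_C,
      inv_mul_cancel₀ (sub_ne_zero.2 (hd.ne (Finset.ne_of_mem_erase hk).symm))]
  · ext i j
    have h0 : aeval M ((X - C (d j)) * lag d j) = 0 := by
      have e : (X - C (d j)) * lag d j =
          C (∏ k ∈ Finset.univ.erase j, (d j - d k)⁻¹) * M.charpoly := by
        rw [lag, Finset.prod_mul_distrib, ← map_prod, mul_left_comm, hchar,
          Finset.mul_prod_erase Finset.univ (fun k => X - C (d k)) (Finset.mem_univ j)]
      rw [e, map_mul, Matrix.aeval_self_charpoly, mul_zero]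
    rw [map_mul, map_sub, aeval_X, aeval_C, Algebra.algebraMap_eq_smul_one, sub_mul,
      smul_mul_assoc, one_mul, sub_eq_zero] at h0
    have := congrFun (congrFun h0 i) j
    rw [Matrix.mul_apply, Matrix.smul_apply, smul_eq_mul] at this
    rw [Matrix.mul_diagonal, Matrix.mul_apply]
    simp only [eig, Matrix.of_apply]
    rw [this, mul_comm]

/-- Eigenvector matrices with diagonal one are unique. -/
theorem eig_unique {M W W' : Mat n} {d : Fin n → ℂ} (hd : Function.Injective d) (hW' : W'.det ≠ 0)
    (h : M * W = W * diagonal d) (h' : M * W' = W' * diagonal d) (h1 : ∀ i, W i i = 1)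
    (h1' : ∀ i, W' i i = 1) : W = W' := by
  have hu : IsUnit W'.det := isUnit_iff_ne_zero.2 hW'
  set Y := W'⁻¹ * W with hY
  have hWY : W = W' * Y := by rw [hY, Matrix.mul_nonsing_inv_cancel_left _ _ hu]
  have hc : diagonal d * Y = Y * diagonal d := by
    have e : W' * (diagonal d * Y) = W' * (Y * diagonal d) := by
      rw [← Matrix.mul_assoc, ← h', Matrix.mul_assoc, ← hWY, h, ← Matrix.mul_assoc, ← hWY]
    simpa [Matrix.nonsing_inv_mul_cancel_left _ _ hu] using congrArg (W'⁻¹ * ·) e
  have hoff : ∀ i j, i ≠ j → Y i j = 0 := fun i j hij => by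
    have e := congrFun (congrFun hc i) j
    rw [Matrix.diagonal_mul, Matrix.mul_diagonal] at e
    by_contra hne
    exact hd.ne hij (mul_right_cancel₀ hne (e.trans (mul_comm _ _)))
  have hdiag : Y = 1 := by
    ext i j
    rcases eq_or_ne i j with rfl | hij
    · have e := congrFun (congrFun hWY i) i
      rw [Matrix.mul_apply, Finset.sum_eq_single i (fun k _ hk => by rw [hoff k i hk, mul_zero])
        (by simp), h1, h1', one_mul] at e
      rw [← e, one_apply_eq]
    · rw [hoff i j hij, one_apply_ne hij]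
  rw [hWY, hdiag, Matrix.mul_one]

/-! ### leading minors -/

/-- The first `j + 1` indices. -/
def emb (j : Fin n) : Fin ((j : ℕ) + 1) → Fin n := Fin.castLE j.isLt

theorem emb_inj (j : Fin n) : Function.Injective (emb j) := Fin.castLE_injective _

theorem emb_le (j : Fin n) (a : Fin ((j : ℕ) + 1)) : emb j a ≤ j := Nat.lt_succ_iff.1 a.isLt

theorem emb_last (j : Fin n) : emb j (Fin.last _) = j := Fin.ext rfl

theorem mem_range_emb {j k : Fin n} (h : k ≤ j) : k ∈ Set.range (emb j) :=
  ⟨⟨k, Nat.lt_succ_of_le h⟩, Fin.ext rfl⟩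

/-- The next index. -/
def nx (j : Fin n) (h : (j : ℕ) + 1 < n) : Fin n := ⟨(j : ℕ) + 1, h⟩

theorem lt_nx (j : Fin n) (h : (j : ℕ) + 1 < n) : j < nx j h := Nat.lt_succ_self _

/-- The leading minor of size `j + 1`. -/
noncomputable def minor (M : Mat n) (j : Fin n) : ℂ := (M.submatrix (emb j) (emb j)).det

/-- The rows of `sub`. -/
def subRows (j : Fin n) (h : (j : ℕ) + 1 < n) : Fin ((j : ℕ) + 1) → Fin n :=
  Function.update (emb j) (Fin.last _) (nx j h)

/-- The leading minor with its last row replaced by the next one. -/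
noncomputable def sub (M : Mat n) (j : Fin n) (h : (j : ℕ) + 1 < n) : ℂ :=
  (M.submatrix (subRows j h) (emb j)).det

/-- All minors used by the factorisation are nonzero. -/
def Nondeg (M : Mat n) : Prop := (∀ j, minor M j ≠ 0) ∧ ∀ j h, sub M j h ≠ 0

theorem submatrix_mul_up {M U : Mat n} (hU : Up U) (j : Fin n) {m : Type} (r : m → Fin n) :
    (M * U).submatrix r (emb j) =
      M.submatrix r (emb j) * U.submatrix (emb j) (emb j) := by
  ext a b
  simp only [submatrix_apply, Matrix.mul_apply]
  refine (Fintype.sum_of_injective (emb j) (emb_inj j) _ _ (fun k hk => ?_) fun _ => rfl).symm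
  have : j < k := lt_of_not_ge fun h => hk (mem_range_emb h)
  rw [up_zero hU ((emb_le j b).trans_lt this), mul_zero]

theorem det_sub_up {U : Mat n} (hU : Up U) (j : Fin n) :
    (U.submatrix (emb j) (emb j)).det = ∏ a, U (emb j a) (emb j a) :=
  det_of_isUpperTriangular fun _ _ h => up_zero hU h

theorem det_sub_lo {L : Mat n} (hL : Lo L) (j : Fin n) :
    (L.submatrix (emb j) (emb j)).det = ∏ a, L (emb j a) (emb j a) :=
  det_of_isLowerTriangular _ fun _ _ h => lo_zero hL (OrderDual.toDual_lt_toDual.1 h)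

theorem minor_lu {L U : Mat n} (hL : Lo L) (hL1 : ∀ i, L i i = 1) (hU : Up U) (j : Fin n) :
    minor (L * U) j = ∏ a, U (emb j a) (emb j a) := by
  rw [minor, submatrix_mul_up hU, Matrix.det_mul, det_sub_up hU, det_sub_lo hL]
  simp [hL1]

theorem sub_lu {L U : Mat n} (hL : Lo L) (hL1 : ∀ i, L i i = 1) (hU : Up U) (j : Fin n)
    (h : (j : ℕ) + 1 < n) :
    sub (L * U) j h = L (nx j h) j * ∏ a, U (emb j a) (emb j a) := by
  rw [sub, submatrix_mul_up hU, Matrix.det_mul, det_sub_up hU,
    det_of_isLowerTriangular _ fun a b hab => ?_]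
  · congr 1
    rw [Fin.prod_univ_castSucc, Finset.prod_eq_one fun a _ => ?_, one_mul]
    · simp [subRows, emb_last]
    · simp [subRows, hL1]
  · have hab' : a < b := OrderDual.toDual_lt_toDual.1 hab
    have ha : a ≠ Fin.last _ := fun e => absurd (e ▸ hab') (not_lt.2 (Fin.le_last b))
    rw [submatrix_apply, subRows, Function.update_of_ne ha]
    exact lo_zero hL hab'

/-- Unit diagonal from leading minors equal to one. -/
theorem diag_one_of_minor {U : Mat n} (h : ∀ j, (∏ a, U (emb j a) (emb j a)) = 1) :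
    ∀ i, U i i = 1 := by
  intro i
  induction i using WellFoundedLT.induction with
  | _ i ih =>
    have e := h i
    rwa [Fin.prod_univ_castSucc, Finset.prod_eq_one fun a _ => ?_, one_mul, emb_last] at e
    exact ih _ (Fin.lt_def.2 a.isLt)

/-! ### the factorisation -/

/-- The upper triangular matrix that makes `M * rMat M` lower triangular with diagonal one. -/
noncomputable def rMat (M : Mat n) : Mat n :=
  Matrix.of fun c j => if h : c ≤ j then
    (M.submatrix (emb j) (emb j)).adjugate ⟨c, Nat.lt_succ_of_le h⟩ (Fin.last _) / minor M j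
    else 0

theorem rMat_up (M : Mat n) : Up (rMat M) := fun c j h => by
  exact dif_neg (not_le.2 h)

theorem mul_rMat_apply {M : Mat n} {i j : Fin n} (hj : minor M j ≠ 0) (hij : i ≤ j) :
    (M * rMat M) i j = if i = j then 1 else 0 := by
  obtain ⟨a, rfl⟩ := mem_range_emb hij
  have e := congrFun (congrFun (Matrix.mul_adjugate (M.submatrix (emb j) (emb j))) a) (Fin.last _)
  rw [Matrix.smul_apply, Matrix.mul_apply, smul_eq_mul] at e
  have e2 : (M * rMat M) (emb j a) j = (∑ b, (M.submatrix (emb j) (emb j)) a b *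
      (M.submatrix (emb j) (emb j)).adjugate b (Fin.last _)) / minor M j := by
    rw [Finset.sum_div, Matrix.mul_apply]
    refine (Fintype.sum_of_injective (emb j) (emb_inj j) _ _ (fun k hk => ?_) fun b => ?_).symm
    · rw [up_zero (rMat_up M) (lt_of_not_ge fun h => hk (mem_range_emb h)), mul_zero]
    · rw [rMat, Matrix.of_apply, dif_pos (emb_le j b), submatrix_apply, mul_div_assoc]
      rfl
  rw [e2, e, Matrix.one_apply]
  change minor M j * _ / _ = _
  rw [mul_div_cancel_left₀ _ hj]
  exact if_congr (by rw [← (emb_inj j).eq_iff, emb_last]) rfl rfl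

theorem lo_mul_rMat {M : Mat n} (h : ∀ j, minor M j ≠ 0) :
    Lo (M * rMat M) ∧ ∀ i, (M * rMat M) i i = 1 := by
  refine ⟨fun i j hij => ?_, fun i => by rw [mul_rMat_apply (h i) le_rfl, if_pos rfl]⟩
  have hij' : i < j := OrderDual.toDual_lt_toDual.1 hij
  rw [mul_rMat_apply (h j) hij'.le, if_neg hij'.ne]

theorem det_one_of_lo {L : Mat n} (hL : Lo L) (h1 : ∀ i, L i i = 1) : L.det = 1 := by
  rw [det_of_isLowerTriangular L hL]
  simp [h1]

theorem det_one_of_up {U : Mat n} (hU : Up U) (h1 : ∀ i, U i i = 1) : U.det = 1 := by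
  rw [det_of_isUpperTriangular hU]
  simp [h1]

theorem det_rMat_ne {M : Mat n} (h : ∀ j, minor M j ≠ 0) : (rMat M).det ≠ 0 := by
  intro h0
  have e := det_one_of_lo (lo_mul_rMat h).1 (lo_mul_rMat h).2
  rw [Matrix.det_mul, h0, mul_zero] at e
  exact zero_ne_one e

/-- The factorisation `M = (M * rMat M) * (rMat M)⁻¹`. -/
theorem lu_eq {M : Mat n} (h : ∀ j, minor M j ≠ 0) :
    M * rMat M * (rMat M)⁻¹ = M ∧ Up (rMat M)⁻¹ := by
  refine ⟨Matrix.mul_nonsing_inv_cancel_right _ _ (isUnit_iff_ne_zero.2 (det_rMat_ne h)), ?_⟩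
  exact (tri_inv Function.injective_id (rMat_up M) (det_rMat_ne h)).1

/-- With all leading minors one, both factors have diagonal one. -/
theorem lu_unit {M : Mat n} (h : ∀ j, minor M j = 1) :
    Lo (M * rMat M) ∧ (∀ i, (M * rMat M) i i = 1) ∧ Up (rMat M)⁻¹ ∧
      (∀ i, (rMat M)⁻¹ i i = 1) ∧ M * rMat M * (rMat M)⁻¹ = M := by
  have h0 : ∀ j, minor M j ≠ 0 := fun j => by rw [h]; exact one_ne_zero
  obtain ⟨hL, hL1⟩ := lo_mul_rMat h0
  obtain ⟨e, hU⟩ := lu_eq h0
  refine ⟨hL, hL1, hU, diag_one_of_minor fun j => ?_, e⟩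
  rw [← minor_lu hL hL1 hU j, e, h]

/-- Uniqueness of the factorisation. -/
theorem lu_unique {L U : Mat n} (hL : Lo L) (hL1 : ∀ i, L i i = 1) (hU : Up U)
    (hU1 : ∀ i, U i i = 1) : L * U * rMat (L * U) = L := by
  have hm : ∀ j, minor (L * U) j ≠ 0 := fun j => by
    rw [minor_lu hL hL1 hU]
    simp [hU1]
  set Y := U * rMat (L * U) with hY
  obtain ⟨hP, hP1⟩ := lo_mul_rMat hm
  rw [Matrix.mul_assoc, ← hY] at hP hP1 ⊢
  have hYup : Up Y := hU.mul (rMat_up _)
  have key : ∀ i j, i ≤ j → Y i j = if i = j then 1 else 0 := by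
    intro i
    induction i using WellFoundedLT.induction with
    | _ i ih =>
      intro j hij
      have e : (L * Y) i j = Y i j := by
        rw [Matrix.mul_apply, Finset.sum_eq_single i (fun k _ hk => ?_) (by simp), hL1, one_mul]
        rcases lt_or_gt_of_ne hk with h | h
        · rw [ih k h j (h.le.trans hij), if_neg (h.trans_le hij).ne, mul_zero]
        · rw [lo_zero hL h, zero_mul]
      rw [← e]
      rcases hij.eq_or_lt with rfl | h
      · rw [hP1, if_pos rfl]
      · rw [lo_zero hP h, if_neg h.ne]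
  have : Y = 1 := by
    ext i j
    rcases le_or_gt i j with h | h
    · rw [key i j h, Matrix.one_apply]
    · rw [up_zero hYup h, one_apply_ne h.ne']
  rw [this, Matrix.mul_one]

/-! ### the gauge -/

/-- The elementary matrix of one gauge step. -/
noncomputable def tv (j : Fin n) (h : (j : ℕ) + 1 < n) (t : ℂ) : Mat n :=
  transvection j (nx j h) t

theorem det_tv (j : Fin n) (h : (j : ℕ) + 1 < n) (t : ℂ) : (tv j h t).det = 1 :=
  det_transvection_of_ne _ _ (lt_nx j h).ne _

theorem inv_tv (j : Fin n) (h : (j : ℕ) + 1 < n) (t : ℂ) : (tv j h t)⁻¹ = tv j h (-t) := by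
  refine Matrix.inv_eq_right_inv ?_
  rw [tv, tv, transvection_mul_transvection_same _ _ (lt_nx j h).ne, add_neg_cancel,
    transvection_zero]

theorem minor_last (M : Mat n) {j : Fin n} (h : (j : ℕ) + 1 = n) : minor M j = M.det :=
  Matrix.det_submatrix_equiv_self (finCongr h) M

theorem minor_step (M : Mat n) (j : Fin n) (h : (j : ℕ) + 1 < n) (t : ℂ) :
    minor (tv j h t * M * tv j h (-t)) j = minor M j + t * sub M j h := by
  have e : (tv j h t * M * tv j h (-t)).submatrix (emb j) (emb j) =
      (M.submatrix (emb j) (emb j)).updateRow (Fin.last _)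
        ((M.submatrix (emb j) (emb j)) (Fin.last _) +
          t • (M.submatrix (subRows j h) (emb j)) (Fin.last _)) := by
    ext a b
    simp only [submatrix_apply, tv]
    rw [mul_transvection_apply_of_ne _ _ _ _ ((emb_le j b).trans_lt (lt_nx j h)).ne]
    rcases eq_or_ne a (Fin.last _) with rfl | ha
    · simp [emb_last, subRows]
    · rw [transvection_mul_apply_of_ne _ _ _ _ (fun e => ha (emb_inj j (e.trans (emb_last j).symm))),
        updateRow_ne ha, submatrix_apply]
  have e2 : (M.submatrix (emb j) (emb j)).updateRow (Fin.last _)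
      ((M.submatrix (subRows j h) (emb j)) (Fin.last _)) = M.submatrix (subRows j h) (emb j) := by
    ext a b
    rcases eq_or_ne a (Fin.last _) with rfl | ha
    · simp [subRows]
    · simp [subRows, updateRow_ne ha, Function.update_of_ne ha]
  rw [minor, e, det_updateRow_add, det_updateRow_smul, updateRow_eq_self, e2]
  rfl

theorem minor_step_ne (M : Mat n) {j j' : Fin n} (hne : j' ≠ j) (h : (j : ℕ) + 1 < n) (t : ℂ) :
    minor (tv j h t * M * tv j h (-t)) j' = minor M j' := by
  rcases lt_or_gt_of_ne hne with hlt | hgt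
  · rw [minor, minor]
    congr 1
    ext a b
    simp only [submatrix_apply, tv]
    rw [mul_transvection_apply_of_ne _ _ _ _ (((emb_le j' b).trans_lt hlt).trans (lt_nx j h)).ne,
      transvection_mul_apply_of_ne _ _ _ _ ((emb_le j' a).trans_lt hlt).ne]
  · obtain ⟨a₀, ha₀⟩ := mem_range_emb hgt.le
    obtain ⟨a₁, ha₁⟩ := mem_range_emb (show nx j h ≤ j' from Nat.succ_le_of_lt hgt)
    have hne' : a₀ ≠ a₁ := fun e =>
      (lt_nx j h).ne (ha₀.symm.trans ((congrArg (emb j') e).trans ha₁))
    set N := tv j h t * M with hN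
    have e1 : (N * tv j h (-t)).submatrix (emb j') (emb j') =
        (N.submatrix (emb j') (emb j')).updateCol a₁
          (fun k => (N.submatrix (emb j') (emb j')) k a₁ +
            (-t) • (N.submatrix (emb j') (emb j')) k a₀) := by
      ext a b
      rcases eq_or_ne b a₁ with rfl | hb
      · simp [tv, ha₀, ha₁]
      · simp only [submatrix_apply, tv]
        rw [mul_transvection_apply_of_ne _ _ _ _
          (by rw [← ha₁]; exact (emb_inj j').ne hb), updateCol_ne hb, submatrix_apply]
    have e2 : N.submatrix (emb j') (emb j') = (M.submatrix (emb j') (emb j')).updateRow a₀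
        ((M.submatrix (emb j') (emb j')) a₀ + t • (M.submatrix (emb j') (emb j')) a₁) := by
      ext a b
      rcases eq_or_ne a a₀ with rfl | ha
      · simp [hN, tv, ha₀, ha₁]
      · simp only [submatrix_apply, hN, tv]
        rw [transvection_mul_apply_of_ne _ _ _ _
          (by rw [← ha₀]; exact (emb_inj j').ne ha), updateRow_ne ha, submatrix_apply]
    rw [minor, minor, e1, det_updateCol_add_smul_self _ hne'.symm, e2,
      det_updateRow_add_smul_self _ hne']

/-- The parameter of a gauge step. -/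
noncomputable def tpar (M : Mat n) (j : Fin n) (h : (j : ℕ) + 1 < n) : ℂ :=
  (1 - minor M j) / sub M j h

/-- The gauge after `k` steps. -/
noncomputable def gauge (C G : Mat n) : ℕ → Mat n
  | 0 => G
  | k + 1 => if h : k + 1 < n then
      tv ⟨k, (Nat.lt_succ_self k).trans h⟩ h
        (tpar (gauge C G k * C * (gauge C G k)⁻¹) ⟨k, (Nat.lt_succ_self k).trans h⟩ h) *
          gauge C G k
    else gauge C G k

/-- The conjugate after `k` steps. -/
noncomputable def mid (C G : Mat n) (k : ℕ) : Mat n := gauge C G k * C * (gauge C G k)⁻¹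

/-- The gauge is defined. -/
def Ok (C G : Mat n) : Prop := G.det ≠ 0 ∧ ∀ (j : Fin n) h, sub (mid C G j) j h ≠ 0

theorem det_gauge (C G : Mat n) : ∀ k, (gauge C G k).det = G.det
  | 0 => rfl
  | k + 1 => by
    rw [gauge]
    split_ifs with h
    · rw [Matrix.det_mul, det_tv, one_mul, det_gauge C G k]
    · exact det_gauge C G k

theorem det_mid {C G : Mat n} (hC : C.det = 1) (hG : G.det ≠ 0) (k : ℕ) :
    (mid C G k).det = 1 := by
  rw [mid, Matrix.det_mul, Matrix.det_mul, hC, mul_one, ← Matrix.det_mul, Matrix.mul_nonsing_inv,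
    Matrix.det_one]
  exact isUnit_iff_ne_zero.2 (by rwa [det_gauge])

theorem mid_succ (C G : Mat n) {k : ℕ} (h : k + 1 < n) :
    mid C G (k + 1) = tv ⟨k, (Nat.lt_succ_self k).trans h⟩ h
      (tpar (mid C G k) ⟨k, (Nat.lt_succ_self k).trans h⟩ h) * mid C G k *
      tv ⟨k, (Nat.lt_succ_self k).trans h⟩ h
        (-tpar (mid C G k) ⟨k, (Nat.lt_succ_self k).trans h⟩ h) := by
  unfold mid
  rw [gauge, dif_pos h, Matrix.mul_inv_rev, inv_tv]
  simp only [Matrix.mul_assoc]

theorem mid_succ_ge (C G : Mat n) {k : ℕ} (h : ¬ k + 1 < n) :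
    mid C G (k + 1) = mid C G k := by
  unfold mid
  rw [gauge, dif_neg h]

theorem minor_mid {C G : Mat n} (hC : C.det = 1) (hok : Ok C G) :
    ∀ k : ℕ, ∀ j : Fin n, (j : ℕ) < k → minor (mid C G k) j = 1 := by
  intro k
  induction k with
  | zero => intro j hj; omega
  | succ k ih =>
    intro j hj
    by_cases h : k + 1 < n
    · rw [mid_succ C G h]
      rcases Nat.lt_succ_iff_lt_or_eq.1 hj with hlt | heq
      · rw [minor_step_ne _ (Fin.ne_of_val_ne (by simpa using hlt.ne)), ih j hlt]
      · have e : (⟨k, (Nat.lt_succ_self k).trans h⟩ : Fin n) = j := Fin.ext heq.symm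
        subst e
        rw [minor_step, tpar, div_mul_cancel₀ _ (hok.2 ⟨k, (Nat.lt_succ_self k).trans h⟩ h),
          add_sub_cancel]
    · rw [mid_succ_ge C G h]
      rcases Nat.lt_succ_iff_lt_or_eq.1 hj with hlt | heq
      · exact ih j hlt
      · rw [minor_last _ (by have := j.isLt; omega), det_mid hC hok.1]

/-- A good start is left alone. -/
theorem gauge_eq_self {C G : Mat n} (h : ∀ j, minor (G * C * G⁻¹) j = 1) :
    ∀ k, gauge C G k = G
  | 0 => rfl
  | k + 1 => by
    rw [gauge]
    split_ifs with hk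
    · rw [gauge_eq_self h k, tpar, h, sub_self, zero_div, tv, transvection_zero, Matrix.one_mul]
    · exact gauge_eq_self h k

end P002Surf
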