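import Vale.Agent.P002Surf.Twist
import Vale.Agent.P002Surf.Tri

/-!
A rational parametrisation of the fibres of the commutator on `SL_n × SL_n`.
-/

namespace P002Surf

open Matrix Polynomial

variable {n : ℕ}

/-- Normalised powers: a tuple with product one. -/
noncomputable def dd (e : Fin n → ℂ) : Fin n → ℂ := fun i => e i ^ n / ∏ k, e k

theorem prod_dd {e : Fin n → ℂ} (he : ∀ i, e i ≠ 0) : ∏ i, dd e i = 1 := by
  simp only [dd, Finset.prod_div_distrib, Finset.prod_pow, Finset.prod_const, Finset.card_univ,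
    Fintype.card_fin]
  exact div_self (pow_ne_zero _ (Finset.prod_ne_zero_iff.2 fun i _ => he i))

theorem exists_dd {d : Fin n → ℂ} (hd : ∏ i, d i = 1) :
    ∃ e : Fin n → ℂ, (∀ i, e i ≠ 0) ∧ dd e = d := by
  rcases Nat.eq_zero_or_pos n with rfl | hn
  · exact ⟨1, fun i => i.elim0, funext fun i => i.elim0⟩
  have hd0 : ∀ i, d i ≠ 0 := fun i h => by
    rw [Finset.prod_eq_zero (Finset.mem_univ i) h] at hd
    exact zero_ne_one hd
  let i₀ : Fin n := ⟨0, hn⟩
  let S := ∑ i, Complex.log (d i)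
  have hS : Complex.exp S = 1 := by
    rw [Complex.exp_sum, ← hd]
    exact Finset.prod_congr rfl fun i _ => Complex.exp_log (hd0 i)
  have hn' : (n : ℂ) ≠ 0 := Nat.cast_ne_zero.2 hn.ne'
  let e : Fin n → ℂ := fun i =>
    Complex.exp ((Complex.log (d i) - if i = i₀ then S else 0) / n)
  refine ⟨e, fun i => Complex.exp_ne_zero _, funext fun i => ?_⟩
  have hp : ∏ k, e k = 1 := by
    rw [← Complex.exp_sum, ← Finset.sum_div, Finset.sum_sub_distrib, Finset.sum_ite_eq']
    simp [S]
  rw [dd, hp, div_one, ← Complex.exp_nat_mul, mul_div_cancel₀ _ hn', Complex.exp_sub,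
    Complex.exp_log (hd0 i)]
  split_ifs
  · rw [hS, div_one]
  · rw [Complex.exp_zero, div_one]

/-- The reciprocal diagonal. -/
noncomputable def dinv (d : Fin n → ℂ) : Fin n → ℂ := fun i => (d i)⁻¹

/-- The two factors of `mid C G n`. -/
noncomputable def lFac (C G : Mat n) : Mat n := mid C G n * rMat (mid C G n)

noncomputable def uFac (C G : Mat n) : Mat n := (rMat (mid C G n))⁻¹

/-- The first entry in gauge coordinates. -/
noncomputable def coA (C G : Mat n) (e : Fin n → ℂ) : Mat n := lFac C G * diagonal (dd e)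

/-- The second entry in gauge coordinates. -/
noncomputable def coB (C G : Mat n) (e t : Fin n → ℂ) : Mat n :=
  eig (diagonal (dinv (dd e)) * uFac C G) (dinv (dd e)) * diagonal (dd t) *
    (eig (coA C G e) (dd e))⁻¹

/-- The point of the fibre over `C` with the given parameters. -/
noncomputable def fib (C G : Mat n) (e t : Fin n → ℂ) : Pair n :=
  ((gauge C G n)⁻¹ * coA C G e * gauge C G n, (gauge C G n)⁻¹ * coB C G e t * gauge C G n)

/-- Parameters for which `fib` works. -/
def FibOk (C G : Mat n) (e t : Fin n → ℂ) : Prop :=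
  Ok C G ∧ (∀ i, e i ≠ 0) ∧ Function.Injective (dd e) ∧ ∀ i, t i ≠ 0

theorem dd_ne {e : Fin n → ℂ} (he : ∀ i, e i ≠ 0) (i : Fin n) : dd e i ≠ 0 :=
  div_ne_zero (pow_ne_zero _ (he i)) (Finset.prod_ne_zero_iff.2 fun k _ => he k)

theorem dinv_injective {d : Fin n → ℂ} (h : Function.Injective d) :
    Function.Injective (dinv d) := fun _ _ hij => h (inv_injective hij)

theorem cm_eq_of {A B C : Mat n} (hA : A.det = 1) (hB : B.det = 1) (h : C * B * A = A * B) :
    cm (A, B) = C := by
  rw [cm, show (A, B).1 = A from rfl, show (A, B).2 = B from rfl, ← h,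
    Matrix.mul_assoc (C * B) A, mul_adj_one hA, Matrix.mul_one, Matrix.mul_assoc C,
    mul_adj_one hB, Matrix.mul_one]

theorem cm_mul_eq {x : Pair n} (h : SL1 x) : cm x * x.2 * x.1 = x.1 * x.2 := by
  rw [cm, Matrix.mul_assoc _ (adjugate _) _, adj_mul_one h.2, Matrix.mul_one,
    Matrix.mul_assoc _ (adjugate _) _, adj_mul_one h.1, Matrix.mul_one]

theorem fib_spec {C G : Mat n} {e t : Fin n → ℂ} (hC : C.det = 1) (h : FibOk C G e t) :
    SL1 (fib C G e t) ∧ cm (fib C G e t) = C := by
  obtain ⟨hok, he, hinj, ht⟩ := h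
  obtain ⟨hL, hL1, hU, hU1, hLU⟩ := lu_unit fun j => minor_mid hC hok n j j.isLt
  change Lo (lFac C G) at hL
  change ∀ i, lFac C G i i = 1 at hL1
  change Up (uFac C G) at hU
  change ∀ i, uFac C G i i = 1 at hU1
  change lFac C G * uFac C G = mid C G n at hLU
  have hd0 := dd_ne he
  set d := dd e with hd
  set L := lFac C G with hLdef
  set U := uFac C G with hUdef
  have hA0lo : Lo (coA C G e) := hL.mul (blockTriangular_diagonal _)
  have hA0diag : ∀ i, coA C G e i i = d i := fun i => by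
    rw [coA, ← hLdef, Matrix.mul_diagonal, hL1, one_mul]
  obtain ⟨hWlo, hW1, hW⟩ := eig_spec OrderDual.toDual.injective hA0lo hA0diag hinj
    (by rw [lo_charpoly hA0lo]; simp only [hA0diag])
  have hNup : Up (diagonal (dinv d) * U) := (blockTriangular_diagonal _).mul hU
  have hNdiag : ∀ i, (diagonal (dinv d) * U) i i = dinv d i := fun i => by
    rw [Matrix.diagonal_mul, hU1, mul_one]
  obtain ⟨hZup, hZ1, hZ⟩ := eig_spec Function.injective_id hNup hNdiag (dinv_injective hinj)
    (by rw [charpoly_of_isUpperTriangular _ hNup]; simp only [hNdiag])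
  have hAd : (coA C G e).det = 1 := by
    rw [coA, Matrix.det_mul, det_one_of_lo hL hL1, det_diagonal, one_mul]
    exact prod_dd he
  set W := eig (coA C G e) d with hWdef
  set Z := eig (diagonal (dinv d) * U) (dinv d) with hZdef
  have hWd : W.det = 1 := det_one_of_lo hWlo hW1
  have hWu : IsUnit W.det := by rw [hWd]; exact isUnit_one
  have hBd : (coB C G e t).det = 1 := by
    rw [coB, Matrix.det_mul, Matrix.det_mul, det_one_of_up hZup hZ1, det_diagonal, prod_dd ht,
      one_mul, one_mul, Matrix.det_nonsing_inv, ← hd, ← hWdef, hWd, Ring.inverse_one]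
  have hDD : diagonal d * diagonal (dinv d) = (1 : Mat n) := by
    rw [diagonal_mul_diagonal, ← diagonal_one]
    exact congrArg _ (funext fun i => mul_inv_cancel₀ (hd0 i))
  have hDD' : diagonal (dinv d) * diagonal d = (1 : Mat n) := by
    rw [diagonal_mul_diagonal, ← diagonal_one]
    exact congrArg _ (funext fun i => inv_mul_cancel₀ (hd0 i))
  have h1 : W⁻¹ * coA C G e = diagonal d * W⁻¹ := by
    calc W⁻¹ * coA C G e = W⁻¹ * (coA C G e * W) * W⁻¹ := by
          rw [Matrix.mul_assoc, Matrix.mul_nonsing_inv_cancel_right _ _ hWu]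
      _ = diagonal d * W⁻¹ := by rw [hW, Matrix.nonsing_inv_mul_cancel_left _ _ hWu]
  have h2 : U * Z = diagonal d * Z * diagonal (dinv d) := by
    calc U * Z = diagonal d * diagonal (dinv d) * (U * Z) := by rw [hDD, Matrix.one_mul]
      _ = diagonal d * (diagonal (dinv d) * U * Z) := by simp only [Matrix.mul_assoc]
      _ = _ := by rw [hZ, Matrix.mul_assoc]
  have hcomm : diagonal (dd t) * diagonal d = diagonal d * diagonal (dd t) := by
    simp only [diagonal_mul_diagonal, mul_comm]
  have h3 : mid C G n * coB C G e t * coA C G e = coA C G e * coB C G e t := by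
    rw [← hLU]
    calc L * U * coB C G e t * coA C G e
        = L * (U * Z) * diagonal (dd t) * (W⁻¹ * coA C G e) := by
          simp only [coB, ← hd, ← hWdef, ← hUdef, ← hZdef, Matrix.mul_assoc]
      _ = L * diagonal d * Z * (diagonal (dinv d) * (diagonal (dd t) * diagonal d)) * W⁻¹ := by
          rw [h1, h2]; simp only [Matrix.mul_assoc]
      _ = L * diagonal d * Z * (diagonal (dinv d) * diagonal d) * diagonal (dd t) * W⁻¹ := by
          rw [hcomm]; simp only [Matrix.mul_assoc]
      _ = coA C G e * coB C G e t := by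
          rw [hDD', Matrix.mul_one, show coB C G e t = Z * diagonal (dd t) * W⁻¹ from rfl,
            show coA C G e = L * diagonal d from rfl]
          simp only [Matrix.mul_assoc]
  have hGu : IsUnit (gauge C G n).det := isUnit_iff_ne_zero.2 (by rw [det_gauge]; exact hok.1)
  set K := gauge C G n with hK
  have hconj : ∀ Y : Mat n, (K⁻¹ * Y * K).det = Y.det := fun Y => by
    rw [Matrix.det_mul, Matrix.det_mul, mul_right_comm, ← Matrix.det_mul,
      Matrix.nonsing_inv_mul _ hGu, Matrix.det_one, one_mul]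
  have hsl : SL1 (fib C G e t) :=
    ⟨by rw [fib, ← hK, hconj, hAd], by rw [fib, ← hK, hconj, hBd]⟩
  refine ⟨hsl, cm_eq_of hsl.1 hsl.2 ?_⟩
  have key : C * K⁻¹ = K⁻¹ * mid C G n := by
    rw [mid, ← hK, Matrix.mul_assoc, Matrix.nonsing_inv_mul_cancel_left _ _ hGu]
  simp only [← hK, Matrix.mul_assoc, Matrix.mul_nonsing_inv_cancel_left _ _ hGu]
  rw [← Matrix.mul_assoc C, key, Matrix.mul_assoc K⁻¹, ← Matrix.mul_assoc (mid C G n),
    ← Matrix.mul_assoc (mid C G n * _), h3, Matrix.mul_assoc]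

/-- A pair in general position: the second entry has nonzero minors in an eigenbasis of the first. -/
def Good (x : Pair n) : Prop :=
  ∃ V d, DiagBy x.1 V d ∧ Nondeg (V.adjugate * x.2 * V)

theorem Nondeg.smul {M : Mat n} (h : Nondeg M) {c : ℂ} (hc : c ≠ 0) : Nondeg (c • M) := by
  refine ⟨fun j => ?_, fun j hj => ?_⟩
  · rw [minor, submatrix_smul, Pi.smul_apply, Pi.smul_apply, Matrix.det_smul]
    exact mul_ne_zero (pow_ne_zero _ hc) (h.1 j)
  · rw [sub, submatrix_smul, Pi.smul_apply, Pi.smul_apply, Matrix.det_smul]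
    exact mul_ne_zero (pow_ne_zero _ hc) (h.2 j hj)

/-- Every pair in general position is a value of `fib`. -/
theorem fib_surj {x : Pair n} (hx : SL1 x) (hg : Good x) :
    ∃ G e t, FibOk (cm x) G e t ∧ fib (cm x) G e t = x := by
  obtain ⟨V, d, hV, hN⟩ := hg
  have hVu := isUnit_det_of_ne hV.1
  set B := V⁻¹ * x.2 * V with hB
  have hBN : Nondeg B := by
    have e : B = (V.det)⁻¹ • (V.adjugate * x.2 * V) := by
      rw [hB, Matrix.inv_def, Ring.inverse_eq_inv', smul_mul_assoc, smul_mul_assoc]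
    rw [e]
    exact hN.smul (inv_ne_zero hV.1)
  have hdp : ∏ i, d i = 1 := by rw [← hV.det, hx.1]
  have hd0 : ∀ i, d i ≠ 0 := fun i h => by
    rw [Finset.prod_eq_zero (Finset.mem_univ i) h] at hdp
    exact zero_ne_one hdp
  obtain ⟨hL, hL1⟩ := lo_mul_rMat hBN.1
  obtain ⟨hLU, hU⟩ := lu_eq hBN.1
  set L1 := B * rMat B with hL1def
  set U0 := (rMat B)⁻¹ with hU0def
  have hL1d := det_one_of_lo hL hL1
  have hL1u : IsUnit L1.det := by rw [hL1d]; exact isUnit_one
  have hU0d : U0.det = 1 := by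
    have e := congrArg Matrix.det hLU
    rw [Matrix.det_mul, hL1d, one_mul, hB, Matrix.det_mul, Matrix.det_mul, mul_right_comm,
      ← Matrix.det_mul, Matrix.nonsing_inv_mul _ hVu, Matrix.det_one, one_mul, hx.2] at e
    exact e
  have hU0u : IsUnit U0.det := by rw [hU0d]; exact isUnit_one
  have hup : ∏ i, U0 i i = 1 := by rw [← det_of_isUpperTriangular hU, hU0d]
  have hu0 : ∀ i, U0 i i ≠ 0 := fun i h =>
    one_ne_zero (hup.symm.trans (Finset.prod_eq_zero (Finset.mem_univ i) h))
  obtain ⟨e, he, hde⟩ := exists_dd hdp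
  obtain ⟨t, ht, hdt⟩ := exists_dd hup
  set D := diagonal d with hD
  set D' := diagonal (dinv d) with hD'
  have hDD : D * D' = (1 : Mat n) := by
    rw [hD, hD', diagonal_mul_diagonal, ← diagonal_one]
    exact congrArg _ (funext fun i => mul_inv_cancel₀ (hd0 i))
  have hDD' : D' * D = (1 : Mat n) := by
    rw [hD, hD', diagonal_mul_diagonal, ← diagonal_one]
    exact congrArg _ (funext fun i => inv_mul_cancel₀ (hd0 i))
  obtain ⟨hL1i, hL1i1⟩ := tri_inv OrderDual.toDual.injective hL (by rw [hL1d]; exact one_ne_zero)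
  set L := L1⁻¹ * D * L1 * D' with hLdef
  set U := D * U0 * D' * U0⁻¹ with hUdef
  obtain ⟨hU0i, hU0i1⟩ := tri_inv Function.injective_id hU (by rw [hU0d]; exact one_ne_zero)
  have hLlo : Lo L :=
    ((hL1i.mul (blockTriangular_diagonal _)).mul hL).mul (blockTriangular_diagonal _)
  have hUup : Up U :=
    (((blockTriangular_diagonal _).mul hU).mul (blockTriangular_diagonal _)).mul hU0i
  have hLd : ∀ i, L i i = 1 := fun i => by
    rw [hLdef, hD', Matrix.mul_diagonal,
      tri_mul_diag OrderDual.toDual.injective (hL1i.mul (blockTriangular_diagonal _)) hL,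
      Matrix.mul_diagonal, hL1i1, hL1, inv_one, one_mul, mul_one]
    exact mul_inv_cancel₀ (hd0 i)
  have hUd : ∀ i, U i i = 1 := fun i => by
    rw [hUdef, tri_mul_diag Function.injective_id
      (((blockTriangular_diagonal _).mul hU).mul (blockTriangular_diagonal _)) hU0i,
      Matrix.mul_diagonal, Matrix.diagonal_mul, hU0i1, dinv]
    field_simp [hd0 i, hu0 i]
  set G := L1⁻¹ * V⁻¹ with hG
  have hGi : G⁻¹ = V * L1 := by
    rw [hG, Matrix.mul_inv_rev, Matrix.nonsing_inv_nonsing_inv _ hVu,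
      Matrix.nonsing_inv_nonsing_inv _ hL1u]
  have hC : cm x * V * B * D = V * D * B := by
    have e := cm_mul_eq hx
    rw [hB]
    have e1 : x.1 * V = V * D := by
      rw [hV.2.2, ← hD, Matrix.nonsing_inv_mul_cancel_right _ _ hVu]
    have e2 : V * D * (V⁻¹ * x.2 * V) = x.1 * x.2 * V := by
      rw [← e1]
      simp only [Matrix.mul_assoc, Matrix.mul_nonsing_inv_cancel_left _ _ hVu]
    have e3 : cm x * V * (V⁻¹ * x.2 * V) * D = cm x * x.2 * (x.1 * V) := by
      rw [e1]
      simp only [Matrix.mul_assoc, Matrix.mul_nonsing_inv_cancel_left _ _ hVu]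
    rw [e2, e3, ← e]
    simp only [Matrix.mul_assoc]
  have hM : G * cm x * G⁻¹ = L * U := by
    have hBi : cm x * V * L1 = V * D * L1 * U0 * D' * U0⁻¹ := by
      have e := congrArg (· * D' * U0⁻¹) hC
      rw [← hLU] at e
      simp only [Matrix.mul_assoc] at e ⊢
      rw [← Matrix.mul_assoc D D', hDD, Matrix.one_mul,
        Matrix.mul_nonsing_inv _ hU0u, Matrix.mul_one] at e
      exact e
    have e0 : G * cm x * G⁻¹ = L1⁻¹ * V⁻¹ * (cm x * V * L1) := by
      rw [hGi, hG]; simp only [Matrix.mul_assoc]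
    rw [e0, hBi, hLdef, hUdef]
    simp only [Matrix.mul_assoc, Matrix.nonsing_inv_mul_cancel_left _ _ hVu]
    rw [← Matrix.mul_assoc D' D, hDD', Matrix.one_mul]
  have hmin : ∀ j, minor (G * cm x * G⁻¹) j = 1 := fun j => by
    rw [hM, minor_lu hLlo hLd hUup]
    simp [hUd]
  have hgauge := gauge_eq_self hmin
  have hmid : ∀ k, mid (cm x) G k = L * U := fun k => by rw [mid, hgauge, hM]
  have hsub : ∀ (j : Fin n) h, L (nx j h) j ≠ 0 := by
    intro j h h0
    have hB1 : L1 (nx j h) j ≠ 0 := fun h1 => hBN.2 j h (by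
      rw [← hLU, sub_lu hL hL1 hU, h1, zero_mul])
    have e1 : L1 * L = D * L1 * D' := by
      simp only [hLdef, Matrix.mul_assoc, Matrix.mul_nonsing_inv_cancel_left _ _ hL1u]
    have e2 := congrFun (congrFun e1 (nx j h)) j
    rw [hD', Matrix.mul_diagonal, hD, Matrix.diagonal_mul, Matrix.mul_apply,
      Finset.sum_eq_single j (fun k _ hk => ?_) (by simp), hLd, mul_one] at e2
    · refine hV.2.1.ne (lt_nx j h).ne' ?_
      rw [mul_comm (d _), mul_assoc] at e2
      have e3 : d (nx j h) * dinv d j = 1 := mul_left_cancel₀ hB1 (e2.symm.trans (mul_one _).symm)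
      rw [dinv, mul_inv_eq_one₀ (hd0 j)] at e3
      exact e3
    · rcases lt_or_gt_of_ne hk with hlt | hgt
      · rw [lo_zero hLlo hlt, mul_zero]
      · rcases eq_or_ne k (nx j h) with rfl | hne
        · rw [h0, mul_zero]
        · rw [lo_zero hL (lt_of_le_of_ne (Nat.succ_le_of_lt hgt) hne.symm), zero_mul]
  have hok : FibOk (cm x) G e t := by
    refine ⟨⟨?_, fun j h => ?_⟩, he, by rw [hde]; exact hV.2.1, ht⟩
    · rw [hG, Matrix.det_mul, Matrix.det_nonsing_inv, Matrix.det_nonsing_inv, hL1d,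
        Ring.inverse_one, one_mul, Ring.inverse_eq_inv']
      exact inv_ne_zero hV.1
    · rw [hmid, sub_lu hLlo hLd hUup]
      simp [hUd, hsub j h]
  refine ⟨G, e, t, hok, ?_⟩
  have hl : lFac (cm x) G = L := by rw [lFac, hmid, lu_unique hLlo hLd hUup hUd]
  have hu : uFac (cm x) G = U := by
    have e1 := (lu_unit (fun j => minor_mid (det_cm hx.1 hx.2) hok.1 n j j.isLt)).2.2.2.2
    change lFac (cm x) G * uFac (cm x) G = mid (cm x) G n at e1
    rw [hl, hmid] at e1
    have hLu : IsUnit L.det := by rw [det_one_of_lo hLlo hLd]; exact isUnit_one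
    simpa [Matrix.nonsing_inv_mul_cancel_left _ _ hLu] using congrArg (L⁻¹ * ·) e1
  have hA0 : coA (cm x) G e = L1⁻¹ * D * L1 := by
    rw [coA, hl, hde, ← hD, hLdef]
    simp only [Matrix.mul_assoc]
    rw [hDD', Matrix.mul_one]
  have hA0d : ∀ i, coA (cm x) G e i i = d i := fun i => by
    rw [coA, hl, hde, Matrix.mul_diagonal, hLd, one_mul]
  have hA0lo : Lo (coA (cm x) G e) := by
    rw [coA, hl]; exact hLlo.mul (blockTriangular_diagonal _)
  obtain ⟨-, hW1, hW⟩ := eig_spec OrderDual.toDual.injective hA0lo hA0d hV.2.1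
    (by rw [lo_charpoly hA0lo]; simp only [hA0d])
  have hWeq : eig (coA (cm x) G e) d = L1⁻¹ := by
    refine eig_unique hV.2.1 ?_ hW ?_ hW1 (fun i => by rw [hL1i1, hL1, inv_one])
    · rw [Matrix.det_nonsing_inv, hL1d, Ring.inverse_one]; exact one_ne_zero
    · rw [hA0, ← hD, Matrix.mul_nonsing_inv_cancel_right _ _ hL1u]
  have hN0 : D' * U = U0 * D' * U0⁻¹ := by
    rw [hUdef]
    simp only [← Matrix.mul_assoc]
    rw [hDD', Matrix.one_mul]
  have hNup : Up (D' * U) := (blockTriangular_diagonal _).mul hUup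
  have hNd : ∀ i, (D' * U) i i = dinv d i := fun i => by
    rw [hD', Matrix.diagonal_mul, hUd, mul_one]
  obtain ⟨-, hZ1, hZ⟩ := eig_spec Function.injective_id hNup hNd (dinv_injective hV.2.1)
    (by rw [charpoly_of_isUpperTriangular _ hNup]; simp only [hNd])
  have hZeq : eig (D' * U) (dinv d) = U0 * diagonal (dinv fun i => U0 i i) := by
    refine eig_unique (dinv_injective hV.2.1) ?_ hZ ?_ hZ1 (fun i => by
      rw [Matrix.mul_diagonal, dinv]; exact mul_inv_cancel₀ (hu0 i))
    · rw [Matrix.det_mul, hU0d, det_diagonal, one_mul]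
      exact Finset.prod_ne_zero_iff.2 fun i _ => inv_ne_zero (hu0 i)
    · rw [hN0]
      simp only [Matrix.mul_assoc, Matrix.nonsing_inv_mul_cancel_left _ _ hU0u]
      rw [hD', diagonal_mul_diagonal, diagonal_mul_diagonal]
      simp only [mul_comm]
  have hB0 : coB (cm x) G e t = U0 * L1 := by
    rw [coB, hde, hdt, hu, ← hD', hZeq, hWeq, Matrix.nonsing_inv_nonsing_inv _ hL1u,
      Matrix.mul_assoc U0, diagonal_mul_diagonal]
    have : (fun i => (dinv fun i => U0 i i) i * U0 i i) = fun _ => (1 : ℂ) :=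
      funext fun i => inv_mul_cancel₀ (hu0 i)
    rw [this, diagonal_one, Matrix.mul_one]
  refine Prod.ext ?_ ?_
  · rw [fib, hgauge, hA0, hGi, hG]
    simp only [Matrix.mul_assoc, Matrix.mul_nonsing_inv_cancel_left _ _ hL1u]
    rw [← Matrix.mul_assoc V, hD, hV.2.2]
  · rw [fib, hgauge, hB0, hGi, hG]
    simp only [Matrix.mul_assoc, Matrix.mul_nonsing_inv_cancel_left _ _ hL1u]
    rw [← Matrix.mul_assoc L1 U0, hLU, hB]
    simp only [Matrix.mul_assoc, Matrix.mul_nonsing_inv_cancel_left _ _ hVu]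
    rw [Matrix.mul_nonsing_inv _ hVu, Matrix.mul_one]

end P002Surf
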