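import Vale.Agent.P002Surf.Moves

/-!
The twist flows fill a neighbourhood of a generic point in its commutator fibre.
-/

namespace P002Surf

open Matrix Filter Topology

open scoped Matrix.Norms.Operator

variable {g n : ℕ}

/-- `x.2` has simple spectrum and `x.1` is generic in its eigenbasis. -/
def G0 (x : Pair n) : Prop := ∃ P μ, DiagBy x.2 P μ ∧ Triple (P⁻¹ * x.1 * P)

theorem functional_trace (f : Mat n →ₗ[ℂ] ℂ) :
    ∀ X, f X = ((Matrix.of fun j i => f (Matrix.single i j 1)) * X).trace := by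
  intro X
  conv_lhs => rw [Matrix.matrix_eq_sum_single X]
  simp only [map_sum, Matrix.trace, Matrix.diag, Matrix.mul_apply, Matrix.of_apply]
  rw [Finset.sum_comm]
  refine Finset.sum_congr rfl fun j _ => Finset.sum_congr rfl fun i _ => ?_
  rw [show Matrix.single i j (X i j) = X i j • Matrix.single i j (1 : ℂ) by
    rw [Matrix.smul_single, smul_eq_mul, mul_one], map_smul, smul_eq_mul, mul_comm]

theorem hasDerivAt_det_one (M : Mat n) :
    HasDerivAt (fun t : ℂ => (1 + t • M).det) M.trace 0 := by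
  obtain ⟨r, hr⟩ : ∃ r : Polynomial ℂ, ∀ t : ℂ, (1 + t • M).det = 1 + M.trace * t + r.eval t * t ^ 2 :=
    ⟨_, fun t => Matrix.det_one_add_smul t M⟩
  simp only [hr]
  have h1 := ((hasDerivAt_id (0 : ℂ)).const_mul M.trace).const_add 1
  have h2 := (r.hasDerivAt (0 : ℂ)).mul ((hasDerivAt_id (0 : ℂ)).pow 2)
  simpa using h1.fun_add h2

theorem hasDerivAt_zN_line (M : Mat n) :
    HasDerivAt (fun t : ℂ => zN (1 + t • M)) ((n : ℂ) • M - M.trace • (1 : Mat n)) 0 := by
  have hl : HasDerivAt (fun t : ℂ => (1 : Mat n) + t • M) M 0 := by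
    exact HasDerivAt.const_add _ (by simpa using (hasDerivAt_id (0 : ℂ)).smul_const M)
  have hp : ∀ m : ℕ, HasDerivAt (fun t : ℂ => ((1 : Mat n) + t • M) ^ m) ((m : ℂ) • M) 0 := by
    intro m
    induction m with
    | zero =>
      simp only [pow_zero, Nat.cast_zero, zero_smul]
      exact hasDerivAt_const (0 : ℂ) (1 : Mat n)
    | succ m ih =>
      simp only [pow_succ]
      refine (ih.fun_mul hl).congr_deriv ?_
      rw [zero_smul, add_zero, one_pow, Matrix.one_mul, Matrix.mul_one, Nat.cast_succ, add_smul, one_smul]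
  have hd := (hasDerivAt_det_one M).fun_inv (by simp)
  refine (hd.fun_smul (hp n)).congr_deriv ?_
  rw [zero_smul, add_zero, Matrix.det_one, one_pow]
  simp only [inv_one, one_smul, div_one, one_pow, neg_smul]
  abel

theorem fderiv_det_apply {A : Mat n} (hA : A.det = 1) (δ : Mat n) :
    fderiv ℂ (fun Q : Mat n => Q.det) A δ = (A.adjugate * δ).trace := by
  have h1 : HasDerivAt (fun t : ℂ => A + t • δ) δ 0 := by
    exact HasDerivAt.const_add _ (by simpa using (hasDerivAt_id (0 : ℂ)).smul_const δ)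
  have h2 : HasDerivAt (fun t : ℂ => (A + t • δ).det) (fderiv ℂ (fun Q : Mat n => Q.det) A δ) 0 :=
    HasFDerivAt.comp_hasDerivAt_of_eq (0 : ℂ)
      ((contDiff_det.differentiable (by norm_num)) A).hasFDerivAt h1 (by simp)
  have h3 : (fun t : ℂ => (A + t • δ).det) = fun t => (1 + t • (A.adjugate * δ)).det := by
    funext t
    rw [show A + t • δ = A * (1 + t • (A.adjugate * δ)) by
      rw [Matrix.mul_add, Matrix.mul_one, Matrix.mul_smul, ← Matrix.mul_assoc, mul_adj_one hA,
        Matrix.one_mul], Matrix.det_mul, hA, one_mul]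
  rw [h3] at h2
  exact h2.unique (hasDerivAt_det_one _)

theorem trace_eq_zero_of_det {γ : ℂ → Mat n} {δ : Mat n} (h : HasDerivAt γ δ 0)
    (hev : ∀ᶠ t in 𝓝 (0 : ℂ), (γ t).det = 1) : ((γ 0).adjugate * δ).trace = 0 := by
  have h1 : HasDerivAt (fun t : ℂ => (γ t).det) (fderiv ℂ (fun Q : Mat n => Q.det) (γ 0) δ) 0 :=
    HasFDerivAt.comp_hasDerivAt (0 : ℂ)
      ((contDiff_det.differentiable (by norm_num)) (γ 0)).hasFDerivAt h
  rw [fderiv_det_apply hev.self_of_nhds] at h1
  exact h1.unique ((hasDerivAt_const (0 : ℂ) (1 : ℂ)).congr_of_eventuallyEq hev)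

variable (i : Fin g) (S : Set (Pair n)) (rest : Pair n → Fin g → Pair n) (x0 : Pair n)

/-- `y` is the image of `x0` under an allowed move. -/
def MovTo (y : Pair n) : Prop := ∃ h, Allowed i S rest h ∧ x0 ∈ h.source ∧ h x0 = y

/-- Velocities of one-parameter families of moves. -/
def IsVel (v : Pair n) : Prop :=
  ∃ F : ℂ × Pair n → Pair n, ContDiffAt ℂ 1 F (0, x0) ∧ (∀ᶠ x in 𝓝 x0, F (0, x) = x) ∧
    HasDerivAt (fun t => F (t, x0)) v 0 ∧
    ∀ᶠ p in 𝓝 ((0 : ℂ), x0), MovTo i S rest x0 p.2 → MovTo i S rest x0 (F p)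

variable {i S rest x0}

theorem MovTo.sl1 {y : Pair n} (h : MovTo i S rest x0 y) (h1 : SL1 x0) :
    SL1 y ∧ cm y = cm x0 ∧ Zd (Function.update (rest x0) i y) := by
  obtain ⟨h, hh, hx, rfl⟩ := h
  exact hh.fwd x0 hx h1

theorem movTo_self (hS : IsOpen S) (hz : ∀ x ∈ S, SL1 x → Zd (Function.update (rest x) i x))
    (hx0 : x0 ∈ S) : MovTo i S rest x0 x0 :=
  ⟨_, allowed_id hS hz, hx0, rfl⟩

theorem movTo_zN (hS : IsOpen S) (hrest : ContinuousOn rest S) (side adj : Bool) {Q : Mat n → Mat n}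
    (hQc : Continuous Q) (hQ : ∀ K, Commute K (Q K)) {y : Pair n} (hy : MovTo i S rest x0 y)
    (hdet : (Q (key side y)).det ≠ 0) :
    MovTo i S rest x0
      (stepFun side (fun K => cond adj (zN (Q K)).adjugate (zN (Q K))) y) := by
  obtain ⟨h, hh, hx, rfl⟩ := hy
  have hU : IsOpen {K : Mat n | (Q K).det ≠ 0} := isOpen_ne_fun hQc.matrix_det continuous_const
  have hc : ContinuousOn (fun K => cond adj (zN (Q K)).adjugate (zN (Q K)))
      {K : Mat n | (Q K).det ≠ 0} := by
    have h1 : ContinuousOn (fun K => zN (Q K)) {K : Mat n | (Q K).det ≠ 0} :=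
      (hQc.matrix_det.continuousOn.inv₀ (fun K hK => hK)).smul (hQc.pow n).continuousOn
    cases adj
    · exact h1
    · exact continuous_id.matrix_adjugate.comp_continuousOn h1
  have hd : ∀ K ∈ {K : Mat n | (Q K).det ≠ 0},
      (cond adj (zN (Q K)).adjugate (zN (Q K))).det = 1 := by
    intro K hK
    cases adj
    · exact det_zN hK
    · exact det_adj_one (det_zN hK)
  have hcom : ∀ K ∈ {K : Mat n | (Q K).det ≠ 0},
      K * cond adj (zN (Q K)).adjugate (zN (Q K)) = cond adj (zN (Q K)).adjugate (zN (Q K)) * K := by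
    intro K hK
    have h1 : K * zN (Q K) = zN (Q K) * K := (commute_zN (hQ K)).eq
    cases adj
    · exact h1
    · show K * (zN (Q K)).adjugate = (zN (Q K)).adjugate * K
      have hz := det_zN (Q := Q K) hK
      calc K * (zN (Q K)).adjugate
          = (zN (Q K)).adjugate * (zN (Q K) * K) * (zN (Q K)).adjugate := by
            rw [← Matrix.mul_assoc _ (zN (Q K)) K, adj_mul_one hz, Matrix.one_mul]
        _ = _ := by
            rw [← h1, Matrix.mul_assoc, Matrix.mul_assoc K, mul_adj_one hz, Matrix.mul_one]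
  exact ⟨_, allowed_step hS hrest hh side hU hc hd hcom, ⟨hx, hdet⟩, rfl⟩

theorem commute_aeval (q : Polynomial ℂ) (K : Mat n) : Commute K (Polynomial.aeval K q) :=
  Algebra.commute_of_mem_adjoin_self (Polynomial.aeval_mem_adjoin_singleton ℂ K)

theorem commute_line (p : Polynomial ℂ) (t : ℂ) (K : Mat n) :
    Commute K (1 + t • Polynomial.aeval K p) :=
  (Commute.one_right K).add_right ((commute_aeval p K).smul_right t)

/-- A single twist family. -/
theorem isVel_diag (hS : IsOpen S) (hrest : ContinuousOn rest S) (p : Polynomial ℂ) :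
    IsVel i S rest x0 (x0.1 * ((n : ℂ) • Polynomial.aeval x0.2 p -
      (Polynomial.aeval x0.2 p).trace • (1 : Mat n)), 0) := by
  refine ⟨fun a => stepFun false (fun K => zN (1 + a.1 • Polynomial.aeval K p)) a.2, ?_, ?_, ?_, ?_⟩
  · have h : ContDiffAt ℂ 1 (fun a : ℂ × Pair n => zN (1 + a.1 • Polynomial.aeval a.2.2 p))
        (0, x0) := by
      refine ContDiffAt.comp _ (contDiffAt_zN (by simp)) ?_
      exact (contDiff_const.add (contDiff_fst.smul
        ((contDiff_aeval p).comp (contDiff_snd.comp contDiff_snd)))).contDiffAt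
    exact ((contDiff_fst.comp contDiff_snd).contDiffAt.mul h).prodMk
      (contDiff_snd.comp contDiff_snd).contDiffAt
  · exact Eventually.of_forall fun x => by simp [stepFun, zN_one]
  · have h1 : HasDerivAt (fun t : ℂ => x0.1 * zN (1 + t • Polynomial.aeval x0.2 p))
        (x0.1 * ((n : ℂ) • Polynomial.aeval x0.2 p -
          (Polynomial.aeval x0.2 p).trace • (1 : Mat n))) 0 :=
      (hasDerivAt_zN_line (Polynomial.aeval x0.2 p)).const_mul x0.1
    exact h1.prodMk (hasDerivAt_const (0 : ℂ) x0.2)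
  · have hc : ContinuousAt (fun a : ℂ × Pair n => (1 + a.1 • Polynomial.aeval a.2.2 p).det) (0, x0) :=
      (contDiff_det.comp (contDiff_const.add (contDiff_fst.smul
        ((contDiff_aeval p).comp (contDiff_snd.comp contDiff_snd))))).continuous.continuousAt
    filter_upwards [hc.eventually_ne (by simp : (1 + ((0 : ℂ), x0).1 •
      Polynomial.aeval ((0 : ℂ), x0).2.2 p).det ≠ 0)] with a ha hm
    exact movTo_zN hS hrest false false (Q := fun K => 1 + a.1 • Polynomial.aeval K p)
      ((contDiff_const.add ((contDiff_aeval p).const_smul a.1)).continuous)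
      (fun K => commute_line p a.1 K) hm ha

/-- `K ↦ zN (q K)`. -/
noncomputable def zq (q : Polynomial ℂ) (K : Mat n) : Mat n := zN (Polynomial.aeval K q)

/-- Conjugated twists. -/
theorem isVel_word (hS : IsOpen S) (hrest : ContinuousOn rest S) (q p : Polynomial ℂ)
    (hq : (Polynomial.aeval x0.2 q).det ≠ 0) :
    IsVel i S rest x0
      (x0.1 * zq q x0.2 * fderiv ℂ (fun K => (zq q K).adjugate) x0.2
        (x0.2 * ((n : ℂ) • Polynomial.aeval (x0.1 * zq q x0.2) p -
          (Polynomial.aeval (x0.1 * zq q x0.2) p).trace • (1 : Mat n))),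
       x0.2 * ((n : ℂ) • Polynomial.aeval (x0.1 * zq q x0.2) p -
          (Polynomial.aeval (x0.1 * zq q x0.2) p).trace • (1 : Mat n))) := by
  let A1 : Pair n → Mat n := fun x => x.1 * zq q x.2
  let B1 : ℂ × Pair n → Mat n := fun a => a.2.2 * zN (1 + a.1 • Polynomial.aeval (A1 a.2) p)
  let F : ℂ × Pair n → Pair n := fun a => (A1 a.2 * (zq q (B1 a)).adjugate, B1 a)
  have hz : ∀ K : Mat n, (Polynomial.aeval K q).det ≠ 0 → ContDiffAt ℂ 1 (zq q) K := fun K hK =>
    ContDiffAt.comp K (contDiffAt_zN hK) (contDiff_aeval q).contDiffAt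
  have hA1 : ContDiffAt ℂ 1 A1 x0 :=
    contDiff_fst.contDiffAt.mul (ContDiffAt.comp (g := zq q) x0 (hz _ hq) contDiff_snd.contDiffAt)
  have hB1 : ContDiffAt ℂ 1 B1 (0, x0) := by
    refine (contDiff_snd.comp contDiff_snd).contDiffAt.mul
      (ContDiffAt.comp (g := zN) _ (contDiffAt_zN (by simp)) ?_)
    refine contDiffAt_const.add (contDiff_fst.contDiffAt.smul ?_)
    exact ContDiffAt.comp (g := fun K : Mat n => Polynomial.aeval K p) _ (contDiff_aeval p).contDiffAt
      (ContDiffAt.comp (g := A1) ((0 : ℂ), x0) hA1 contDiff_snd.contDiffAt)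
  have hB0 : B1 (0, x0) = x0.2 := by simp [B1, zN_one]
  have hG : ContDiffAt ℂ 1 (fun K => (zq q K).adjugate) x0.2 :=
    ContDiffAt.comp (g := fun Q : Mat n => Q.adjugate) x0.2 contDiff_adjugate.contDiffAt (hz _ hq)
  have hF : ContDiffAt ℂ 1 F (0, x0) := by
    refine ContDiffAt.prodMk (ContDiffAt.mul
      (ContDiffAt.comp (g := A1) ((0 : ℂ), x0) hA1 contDiff_snd.contDiffAt) ?_) hB1
    exact ContDiffAt.comp (g := fun K => (zq q K).adjugate) _ (by rw [hB0]; exact hG) hB1
  have hcq : Continuous fun x : Pair n => (Polynomial.aeval x.2 q).det :=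
    ((contDiff_aeval q).continuous.comp continuous_snd).matrix_det
  refine ⟨F, hF, ?_, ?_, ?_⟩
  · filter_upwards [hcq.continuousAt.eventually_ne hq] with x hx
    have hd : (zq q x.2).det = 1 := det_zN hx
    simp [F, A1, B1, zN_one, Matrix.mul_assoc, mul_adj_one hd]
  · have hb : HasDerivAt (fun t => B1 (t, x0))
        (x0.2 * ((n : ℂ) • Polynomial.aeval (A1 x0) p -
          (Polynomial.aeval (A1 x0) p).trace • (1 : Mat n))) 0 :=
      HasDerivAt.const_mul x0.2 (hasDerivAt_zN_line (Polynomial.aeval (A1 x0) p))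
    have ha : HasDerivAt (fun t => (zq q (B1 (t, x0))).adjugate)
        (fderiv ℂ (fun K => (zq q K).adjugate) x0.2
          (x0.2 * ((n : ℂ) • Polynomial.aeval (A1 x0) p -
            (Polynomial.aeval (A1 x0) p).trace • (1 : Mat n)))) 0 :=
      HasFDerivAt.comp_hasDerivAt_of_eq (0 : ℂ) (l := fun K => (zq q K).adjugate)
        (hG.differentiableAt one_ne_zero).hasFDerivAt hb
        hB0.symm
    exact (ha.const_mul (A1 x0)).prodMk hb
  · have h1 : ∀ᶠ a in 𝓝 ((0 : ℂ), x0), (Polynomial.aeval a.2.2 q).det ≠ 0 :=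
      (hcq.comp continuous_snd).continuousAt.eventually_ne hq
    have h2 : ∀ᶠ a in 𝓝 ((0 : ℂ), x0), (1 + a.1 • Polynomial.aeval (A1 a.2) p).det ≠ 0 := by
      refine ContinuousAt.eventually_ne ?_ (by simp)
      refine continuous_id.matrix_det.continuousAt.comp (continuousAt_const.add
        (continuous_fst.continuousAt.smul ?_))
      exact (contDiff_aeval p).continuous.continuousAt.comp
        (hA1.continuousAt.comp' continuous_snd.continuousAt)
    have h3 : ∀ᶠ a in 𝓝 ((0 : ℂ), x0), (Polynomial.aeval (B1 a) q).det ≠ 0 := by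
      refine ContinuousAt.eventually_ne ?_ (by rw [hB0]; exact hq)
      exact (contDiff_aeval q).continuous.matrix_det.continuousAt.comp hB1.continuousAt
    filter_upwards [h1, h2, h3] with a ha1 ha2 ha3 hm
    have m1 := movTo_zN hS hrest false false (contDiff_aeval q).continuous (commute_aeval q) hm ha1
    have m2 := movTo_zN hS hrest true false (Q := fun K => 1 + a.1 • Polynomial.aeval K p)
      ((contDiff_const.add ((contDiff_aeval p).const_smul a.1)).continuous)
      (fun K => commute_line p a.1 K) m1 ha2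
    exact movTo_zN hS hrest false true (contDiff_aeval q).continuous (commute_aeval q) m2 ha3

theorem isVel_trace (hS : IsOpen S) (hz : ∀ x ∈ S, SL1 x → Zd (Function.update (rest x) i x))
    (hx0 : x0 ∈ S) (h1 : SL1 x0) {v : Pair n} (hv : IsVel i S rest x0 v) :
    (x0.1.adjugate * v.1).trace = 0 ∧ (x0.2.adjugate * v.2).trace = 0 := by
  obtain ⟨F, -, hF0, hFd, hFm⟩ := hv
  have hev : ∀ᶠ t in 𝓝 (0 : ℂ), SL1 (F (t, x0)) := by
    have hm : ∀ᶠ t in 𝓝 (0 : ℂ), MovTo i S rest x0 x0 → MovTo i S rest x0 (F (t, x0)) :=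
      ((continuous_id.prodMk continuous_const).tendsto (0 : ℂ)).eventually hFm
    filter_upwards [hm] with t ht
    exact ((ht (movTo_self hS hz hx0)).sl1 h1).1
  have hd1 : HasDerivAt (fun t => (F (t, x0)).1) v.1 0 :=
    HasFDerivAt.comp_hasDerivAt (0 : ℂ) (l := Prod.fst)
      (l' := ContinuousLinearMap.fst ℂ (Mat n) (Mat n)) hasFDerivAt_fst hFd
  have hd2 : HasDerivAt (fun t => (F (t, x0)).2) v.2 0 :=
    HasFDerivAt.comp_hasDerivAt (0 : ℂ) (l := Prod.snd)
      (l' := ContinuousLinearMap.snd ℂ (Mat n) (Mat n)) hasFDerivAt_snd hFd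
  have e := hF0.self_of_nhds
  have t1 := trace_eq_zero_of_det hd1 (hev.mono fun t ht => ht.1)
  have t2 := trace_eq_zero_of_det hd2 (hev.mono fun t ht => ht.2)
  simp only [e] at t1 t2
  exact ⟨t1, t2⟩

end P002Surf
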