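import Vale.Agent.P002Surf.Generic

/-!
Local sections of the commutator map, and absorbing a change of the other handles in one handle.
-/

namespace P002Surf

open Matrix Filter Topology

open scoped Matrix.Norms.Operator

variable {g n : ℕ}

theorem hasDerivAt_adj_zN_line (M : Mat n) :
    HasDerivAt (fun t : ℂ => (zN (1 + t • M)).adjugate)
      (-((n : ℂ) • M - M.trace • (1 : Mat n))) 0 := by
  have hG := hasDerivAt_zN_line M
  have hd : DifferentiableAt ℂ (fun t : ℂ => (zN (1 + t • M)).adjugate) 0 :=
    ((contDiff_adjugate.differentiable one_ne_zero) _).comp (0 : ℂ) hG.differentiableAt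
  have hev : (fun t : ℂ => zN (1 + t • M) * (zN (1 + t • M)).adjugate) =ᶠ[𝓝 0] fun _ => 1 := by
    have hc : ContinuousAt (fun t : ℂ => (1 + t • M).det) 0 := (hasDerivAt_det_one M).continuousAt
    filter_upwards [hc.eventually_ne (by simp : (1 + (0 : ℂ) • M).det ≠ 0)] with t ht
    exact mul_adj_one (det_zN ht)
  have h := (hG.fun_mul hd.hasDerivAt).unique ((hasDerivAt_const (0 : ℂ) (1 : Mat n)).congr_of_eventuallyEq hev)
  simp only [zero_smul, add_zero, zN_one, Matrix.adjugate_one, Matrix.mul_one, Matrix.one_mul] at h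
  exact hd.hasDerivAt.congr_deriv (eq_neg_of_add_eq_zero_right h)

theorem eq_zero_of_trace_traceless (hn : (n : ℂ) ≠ 0) {V : Mat n} (hV : V.trace = 0)
    (h : ∀ X : Mat n, (V * ((n : ℂ) • X - X.trace • (1 : Mat n))).trace = 0) : V = 0 := by
  refine Matrix.ext_iff_trace_mul_right.2 fun X => ?_
  have := h X
  rw [Matrix.mul_sub, Matrix.trace_sub, Matrix.mul_smul, Matrix.mul_smul, Matrix.trace_smul,
    Matrix.trace_smul, Matrix.mul_one, hV, smul_zero, sub_zero, smul_eq_mul, mul_eq_zero] at this
  rw [Matrix.zero_mul, Matrix.trace_zero]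
  exact this.resolve_left hn

/-- Surjective strict derivative gives open image at all nearby points. -/
theorem eventually_map_nhds_eq {E F : Type*} [NormedAddCommGroup E] [NormedSpace ℂ E]
    [CompleteSpace E] [NormedAddCommGroup F] [NormedSpace ℂ F] [CompleteSpace F] {f : E → F}
    {f' : E →L[ℂ] F} {a : E} (hf : HasStrictFDerivAt f f' a) (h : f'.range = ⊤) :
    ∀ᶠ x in 𝓝 a, Filter.map f (𝓝 x) = 𝓝 (f x) := by
  let f'symm := f'.nonlinearRightInverseOfSurjective h
  set c : NNReal := f'symm.nnnorm⁻¹ / 2 with hc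
  have f'symm_pos : 0 < f'symm.nnnorm := f'.nonlinearRightInverseOfSurjective_nnnorm_pos h
  have cpos : 0 < c := by simp [hc, inv_pos, f'symm_pos]
  obtain ⟨s, s_nhds, hs⟩ : ∃ s ∈ 𝓝 a, ApproximatesLinearOn f f' s c :=
    hf.approximates_deriv_on_nhds (Or.inr cpos)
  filter_upwards [eventually_eventually_nhds.2 s_nhds] with x hx
  apply hs.map_nhds_eq f'symm hx (Or.inr (NNReal.half_lt_self _))
  simp [ne_of_gt f'symm_pos]

/-- The SL chart around a pair, with a scalar factor. -/
noncomputable def chart (x : Pair n) (a : Mat n × Mat n) : Pair n :=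
  (x.1 * zN (1 + a.1), x.2 * zN (1 + a.2))

theorem contDiffAt_chart (x : Pair n) :
    ContDiffAt ℂ 1 (chart x) (0 : Mat n × Mat n) := by
  have h1 : ContDiffAt ℂ 1 (fun a : Mat n × Mat n => zN (1 + a.1)) 0 :=
    ContDiffAt.comp (g := zN) _ (contDiffAt_zN (by simp)) (contDiff_const.add contDiff_fst).contDiffAt
  have h2 : ContDiffAt ℂ 1 (fun a : Mat n × Mat n => zN (1 + a.2)) 0 :=
    ContDiffAt.comp (g := zN) _ (contDiffAt_zN (by simp)) (contDiff_const.add contDiff_snd).contDiffAt
  exact (contDiffAt_const.mul h1).prodMk (contDiffAt_const.mul h2)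

theorem contDiff_cm : ContDiff ℂ 1 (fun x : Pair n => cm x) :=
  ((contDiff_fst.mul contDiff_snd).mul (contDiff_adjugate.comp contDiff_fst)).mul
    (contDiff_adjugate.comp contDiff_snd)

theorem chart_zero (x : Pair n) : chart x 0 = x := by simp [chart, zN_one]

theorem continuous_cm : Continuous (fun x : Pair n => cm x) := contDiff_cm.continuous

theorem hasDerivAt_cm_left (A B X : Mat n) :
    HasDerivAt (fun t : ℂ => cm (A * zN (1 + t • X), B))
      (A * ((n : ℂ) • X - X.trace • (1 : Mat n)) * B * A.adjugate * B.adjugate -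
        A * B * ((n : ℂ) • X - X.trace • (1 : Mat n)) * A.adjugate * B.adjugate) 0 := by
  simp only [cm, Matrix.adjugate_mul_distrib]
  have h := ((((hasDerivAt_zN_line X).const_mul A).mul_const B).fun_mul
    ((hasDerivAt_adj_zN_line X).mul_const A.adjugate)).mul_const B.adjugate
  refine h.congr_deriv ?_
  simp only [zero_smul, add_zero, zN_one, Matrix.adjugate_one, Matrix.mul_one, Matrix.one_mul,
    Matrix.neg_mul, Matrix.mul_neg, Matrix.add_mul, Matrix.mul_assoc, sub_eq_add_neg]

theorem hasDerivAt_cm_right (A B Y : Mat n) :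
    HasDerivAt (fun t : ℂ => cm (A, B * zN (1 + t • Y)))
      (A * B * ((n : ℂ) • Y - Y.trace • (1 : Mat n)) * A.adjugate * B.adjugate -
        A * B * A.adjugate * ((n : ℂ) • Y - Y.trace • (1 : Mat n)) * B.adjugate) 0 := by
  simp only [cm, Matrix.adjugate_mul_distrib]
  have h := (((((hasDerivAt_zN_line Y).const_mul B).const_mul A).mul_const A.adjugate)).fun_mul
    ((hasDerivAt_adj_zN_line Y).mul_const B.adjugate)
  refine h.congr_deriv ?_
  simp only [zero_smul, add_zero, zN_one, Matrix.adjugate_one, Matrix.mul_one, Matrix.one_mul,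
    Matrix.neg_mul, Matrix.mul_neg, Matrix.mul_assoc, sub_eq_add_neg]

/-- A continuous local section of the commutator through a pair with scalar commutant. -/
theorem cm_section (hn : 0 < n) {x : Pair n} (h1 : SL1 x) (hs : ScalarCommutant x) :
    ∃ (σ : Mat n → Pair n) (V : Set (Mat n)), IsOpen V ∧ cm x ∈ V ∧ ContinuousOn σ V ∧
      σ (cm x) = x ∧ ∀ K ∈ V, K.det = 1 → SL1 (σ K) ∧ cm (σ K) = K := by
  have hn' : (n : ℂ) ≠ 0 := by exact_mod_cast hn.ne'
  obtain ⟨A, B⟩ := x
  obtain ⟨hA, hB⟩ := h1
  simp only at hA hB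
  let E := (Mat n × Mat n) × ℂ
  let Φ : E → Mat n := fun a => (1 + a.2) • cm (chart (A, B) a.1)
  have hΦ0 : Φ 0 = cm (A, B) := by simp [Φ, chart_zero]
  have hΦ : ContDiffAt ℂ 1 Φ 0 :=
    (contDiff_const.add contDiff_snd).contDiffAt.smul
      (ContDiffAt.comp (g := fun y => cm y) (0 : E) contDiff_cm.contDiffAt
        (ContDiffAt.comp (g := chart (A, B)) (0 : E) (contDiffAt_chart _) contDiff_fst.contDiffAt))
  have hL : HasStrictFDerivAt Φ (fderiv ℂ Φ 0) 0 := hΦ.hasStrictFDerivAt one_ne_zero
  set L := fderiv ℂ Φ 0 with hLdef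
  have hline : ∀ a : E, HasDerivAt (fun t : ℂ => Φ (t • a)) (L a) 0 := fun a =>
    HasFDerivAt.comp_hasDerivAt_of_eq (0 : ℂ) hL.hasFDerivAt
      (by simpa using (hasDerivAt_id (0 : ℂ)).smul_const a) (zero_smul ℂ a).symm
  have hsurj : L.range = ⊤ := by
    by_contra hne
    obtain ⟨f, hf0, hf⟩ := Submodule.exists_dual_map_eq_bot_of_lt_top (lt_top_iff_ne_top.2 hne)
      inferInstance
    obtain ⟨W, hW⟩ : ∃ W : Mat n, ∀ H, f H = (W * H).trace := ⟨_, functional_trace f⟩
    have hkill : ∀ a : E, (W * L a).trace = 0 := fun a => by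
      rw [← hW]
      have := Submodule.mem_map_of_mem (f := f) (LinearMap.mem_range_self L.toLinearMap a)
      rw [hf, Submodule.mem_bot] at this
      exact this
    have hX : ∀ X : Mat n, (W * (A * ((n : ℂ) • X - X.trace • (1 : Mat n)) * B * A.adjugate * B.adjugate -
        A * B * ((n : ℂ) • X - X.trace • (1 : Mat n)) * A.adjugate * B.adjugate)).trace = 0 := by
      intro X
      have h := hline ((X, 0), 0)
      have e : (fun t : ℂ => Φ (t • (((X, 0), 0) : E))) = fun t => cm (A * zN (1 + t • X), B) := by
        funext t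
        simp [Φ, chart, zN_one]
      rw [e] at h
      rw [← h.unique (hasDerivAt_cm_left A B X)]
      exact hkill _
    have hY : ∀ Y : Mat n, (W * (A * B * ((n : ℂ) • Y - Y.trace • (1 : Mat n)) * A.adjugate * B.adjugate -
        A * B * A.adjugate * ((n : ℂ) • Y - Y.trace • (1 : Mat n)) * B.adjugate)).trace = 0 := by
      intro Y
      have h := hline ((0, Y), 0)
      have e : (fun t : ℂ => Φ (t • (((0, Y), 0) : E))) = fun t => cm (A, B * zN (1 + t • Y)) := by
        funext t
        simp [Φ, chart, zN_one]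
      rw [e] at h
      rw [← h.unique (hasDerivAt_cm_right A B Y)]
      exact hkill _
    have e1 : ∀ P Q Z : Mat n, (W * (P * Z * Q)).trace = ((Q * W * P) * Z).trace := by
      intro P Q Z
      rw [← Matrix.mul_assoc, Matrix.trace_mul_comm]
      simp only [Matrix.mul_assoc]
    have hU : B * (A.adjugate * B.adjugate * W * A) = A.adjugate * B.adjugate * W * A * B := by
      rw [← sub_eq_zero]
      refine eq_zero_of_trace_traceless hn' ?_ fun X => ?_
      · rw [Matrix.trace_sub, Matrix.trace_mul_comm B, sub_self]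
      · set X0 := (n : ℂ) • X - X.trace • (1 : Mat n)
        have := hX X
        rw [Matrix.mul_sub, Matrix.trace_sub,
          show A * X0 * B * A.adjugate * B.adjugate = A * X0 * (B * A.adjugate * B.adjugate) by
            simp only [Matrix.mul_assoc],
          show A * B * X0 * A.adjugate * B.adjugate = A * B * X0 * (A.adjugate * B.adjugate) by
            simp only [Matrix.mul_assoc], e1, e1, ← Matrix.trace_sub, ← Matrix.sub_mul] at this
        simpa only [Matrix.mul_assoc] using this
    set T := A.adjugate * B.adjugate * W * A * B with hT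
    have hTA : A * T = T * A := by
      have h : T - B.adjugate * W * A * B * A.adjugate = 0 := by
        refine eq_zero_of_trace_traceless hn' ?_ fun Y => ?_
        · rw [hT, Matrix.trace_sub, Matrix.trace_mul_comm (B.adjugate * W * A * B) A.adjugate]
          simp only [Matrix.mul_assoc, sub_self]
        · set Y0 := (n : ℂ) • Y - Y.trace • (1 : Mat n)
          have := hY Y
          rw [Matrix.mul_sub, Matrix.trace_sub,
            show A * B * Y0 * A.adjugate * B.adjugate = A * B * Y0 * (A.adjugate * B.adjugate) by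
              simp only [Matrix.mul_assoc],
            e1, e1, ← Matrix.trace_sub, ← Matrix.sub_mul] at this
          simpa only [hT, Matrix.mul_assoc] using this
      have h' : T = B.adjugate * W * A * B * A.adjugate := sub_eq_zero.1 h
      calc A * T = (A * A.adjugate) * (B.adjugate * W * A * B) := by
            simp only [hT, Matrix.mul_assoc]
        _ = B.adjugate * W * A * B * (A.adjugate * A) := by
            rw [mul_adj_one hA, adj_mul_one hA, Matrix.one_mul, Matrix.mul_one]
        _ = T * A := by rw [h', Matrix.mul_assoc (B.adjugate * W * A * B)]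
    have hTB : B * T = T * B := by
      rw [hT]
      calc B * (A.adjugate * B.adjugate * W * A * B)
          = (B * (A.adjugate * B.adjugate * W * A)) * B := by simp only [Matrix.mul_assoc]
        _ = _ := by rw [hU]
    obtain ⟨c, hc⟩ := hs T hTA.symm hTB.symm
    have hW' : W = c • (B * A * B.adjugate * A.adjugate) := by
      have : B * A * T * B.adjugate * A.adjugate = W := by
        simp only [hT, Matrix.mul_assoc]
        rw [← Matrix.mul_assoc A A.adjugate, mul_adj_one hA, Matrix.one_mul,
          ← Matrix.mul_assoc B B.adjugate (W * _), mul_adj_one hB, Matrix.one_mul,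
          ← Matrix.mul_assoc B B.adjugate, mul_adj_one hB, Matrix.one_mul, mul_adj_one hA,
          Matrix.mul_one]
      rw [← this, hc]
      simp
    have hc0 : c = 0 := by
      have h := hline ((0, 0), 1)
      have e : (fun t : ℂ => Φ (t • (((0, 0), 1) : E))) = fun t => (1 + t) • cm (A, B) := by
        funext t
        simp [Φ, chart, zN_one]
      rw [e] at h
      have hd : HasDerivAt (fun t : ℂ => (1 + t) • cm (A, B)) (cm (A, B)) 0 := by
        exact (((hasDerivAt_id (0 : ℂ)).const_add (1 : ℂ)).smul_const (cm (A, B))).congr_deriv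
          (one_smul ℂ _)
      have h0 := hkill ((0, 0), 1)
      rw [h.unique hd, hW', Matrix.smul_mul, Matrix.trace_smul] at h0
      have : B * A * B.adjugate * A.adjugate * cm (A, B) = 1 := cm_mul_swap hB hA
      rw [this, Matrix.trace_one, Fintype.card_fin, smul_eq_mul, mul_eq_zero] at h0
      exact h0.resolve_right hn'
    exact hf0 (LinearMap.ext fun H => by simp [hW, hW', hc0])
  obtain ⟨R, hR⟩ := L.toLinearMap.exists_rightInverse_of_surjective hsurj
  let Rc : Mat n →L[ℂ] E := R.toContinuousLinearMap
  have hgd : HasStrictFDerivAt (fun w => Φ (Rc w))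
      ((ContinuousLinearEquiv.refl ℂ (Mat n) : Mat n ≃L[ℂ] Mat n) : Mat n →L[ℂ] Mat n) 0 := by
    refine (HasStrictFDerivAt.comp (g := Φ) (0 : Mat n) (by rw [map_zero]; exact hL)
      Rc.hasStrictFDerivAt).congr_fderiv ?_
    refine ContinuousLinearMap.ext fun w => ?_
    exact LinearMap.congr_fun hR w
  let e := hgd.toOpenPartialHomeomorph (fun w => Φ (Rc w))
  have hsrc : (0 : Mat n) ∈ e.source := hgd.mem_toOpenPartialHomeomorph_source
  have hval : ∀ w, e w = Φ (Rc w) := fun w => rfl
  have he0 : e 0 = cm (A, B) := by rw [hval, map_zero, hΦ0]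
  have hsymm0 : e.symm (cm (A, B)) = 0 := by rw [← he0, e.left_inv hsrc]
  have hsmall : ∀ᶠ s in 𝓝 (0 : ℂ), (1 + s) ^ n = 1 → s = 0 := by
    let p : Polynomial ℂ := (Polynomial.C 1 + Polynomial.X) ^ n - 1
    have hp : p ≠ 0 := by
      intro h
      have hh := congrArg (Polynomial.eval (-1)) h
      simp [p, zero_pow hn.ne'] at hh
    have : ∀ᶠ s in 𝓝 (0 : ℂ), s ∉ {s | p.IsRoot s} \ {0} :=
      (((Polynomial.finite_setOfPred_isRoot hp).subset Set.sdiff_subset).isClosed.isOpen_compl).mem_nhds
        (by simp)
    filter_upwards [this] with s hs h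
    by_contra h0
    exact hs ⟨by simp [Polynomial.IsRoot, p, h], h0⟩
  have hcs : ContinuousAt (fun K => Rc (e.symm K)) (cm (A, B)) :=
    Rc.continuous.continuousAt.comp (e.continuousAt_symm (he0 ▸ e.map_source hsrc))
  have hd0 : ∀ᶠ a in 𝓝 (0 : E), (1 + a.1.1).det ≠ 0 ∧ (1 + a.1.2).det ≠ 0 ∧
      ((1 + a.2) ^ n = 1 → a.2 = 0) := by
    refine Eventually.and ?_ (Eventually.and ?_ ((continuous_snd.tendsto (0 : E)).eventually hsmall))
    · exact ((continuous_const.add (continuous_fst.comp continuous_fst)).matrix_det).continuousAt.eventually_ne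
        (by simp)
    · exact ((continuous_const.add (continuous_snd.comp continuous_fst)).matrix_det).continuousAt.eventually_ne
        (by simp)
  have hev : ∀ᶠ K in 𝓝 (cm (A, B)), K ∈ e.target ∧ ((1 + (Rc (e.symm K)).1.1).det ≠ 0 ∧
      (1 + (Rc (e.symm K)).1.2).det ≠ 0 ∧ ((1 + (Rc (e.symm K)).2) ^ n = 1 → (Rc (e.symm K)).2 = 0)) := by
    refine Eventually.and (e.open_target.mem_nhds (he0 ▸ e.map_source hsrc)) ?_
    exact hcs.tendsto.eventually (by rw [hsymm0, map_zero]; exact hd0)
  obtain ⟨V, hV, hVo, hVm⟩ := eventually_nhds_iff.1 hev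
  refine ⟨fun K => chart (A, B) (Rc (e.symm K)).1, V, hVo, hVm, ?_, ?_, ?_⟩
  · intro K hK
    refine ContinuousAt.continuousWithinAt ?_
    obtain ⟨hKt, hd1, hd2, -⟩ := hV K hK
    have hc : ContinuousAt (chart (A, B)) (Rc (e.symm K)).1 := by
      have h1 : ContinuousAt (fun a : Mat n × Mat n => zN (1 + a.1)) (Rc (e.symm K)).1 :=
        ContinuousAt.comp' (g := zN) (contDiffAt_zN hd1).continuousAt
          (continuousAt_const.add continuousAt_fst)
      have h2 : ContinuousAt (fun a : Mat n × Mat n => zN (1 + a.2)) (Rc (e.symm K)).1 :=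
        ContinuousAt.comp' (g := zN) (contDiffAt_zN hd2).continuousAt
          (continuousAt_const.add continuousAt_snd)
      exact (continuousAt_const.mul h1).prodMk (continuousAt_const.mul h2)
    have hin : ContinuousAt (fun K' => (Rc (e.symm K')).1) K :=
      ContinuousAt.comp' (g := fun a : E => a.1) continuous_fst.continuousAt
        (ContinuousAt.comp' (g := fun w => Rc w) Rc.continuous.continuousAt (e.continuousAt_symm hKt))
    exact ContinuousAt.comp' (g := chart (A, B)) hc hin
  · show chart (A, B) (Rc (e.symm (cm (A, B)))).1 = (A, B)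
    rw [hsymm0, map_zero]
    exact chart_zero _
  · intro K hK hKd
    obtain ⟨hKt, hd1, hd2, hsv⟩ := hV K hK
    set a := Rc (e.symm K) with ha
    have hsl : SL1 (chart (A, B) a.1) := by
      constructor <;> simp [chart, Matrix.det_mul, hA, hB, det_zN hd1, det_zN hd2]
    have hKe : (1 + a.2) • cm (chart (A, B) a.1) = K := by
      have := e.right_inv hKt
      rw [hval] at this
      exact this
    have hs0 : a.2 = 0 := by
      refine hsv ?_
      have := congrArg Matrix.det hKe
      rw [Matrix.det_smul, det_cm hsl.1 hsl.2, Fintype.card_fin, mul_one, hKd] at this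
      exact this
    rw [hs0, add_zero, one_smul] at hKe
    exact ⟨hsl, hKe⟩

/-- Product of the commutators of the handles before `j`. -/
def pre (j : Fin g) (q : Fin g → Pair n) : Mat n :=
  (((List.finRange g).take j).map fun k => cm (q k)).prod

/-- Product of the commutators of the handles after `j`. -/
def post (j : Fin g) (q : Fin g → Pair n) : Mat n :=
  (((List.finRange g).drop (j + 1)).map fun k => cm (q k)).prod

theorem prod_split (j : Fin g) (q : Fin g → Pair n) :
    (List.ofFn fun k => cm (q k)).prod = pre j q * cm (q j) * post j q := by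
  rw [List.ofFn_eq_map, ← List.take_append_drop j.1 (List.finRange g),
    List.drop_eq_getElem_cons (by simp), List.map_append, List.map_cons, List.prod_append,
    List.prod_cons]
  simp [pre, post, Matrix.mul_assoc]

theorem pre_congr (j : Fin g) {q q' : Fin g → Pair n} (h : ∀ k, k ≠ j → q k = q' k) :
    pre j q = pre j q' ∧ post j q = post j q' := by
  constructor <;> simp only [pre, post] <;> congr 1 <;> apply List.map_congr_left <;> intro k hk <;>
    rw [h k]
  · intro hkj
    subst hkj
    obtain ⟨i, hi, he⟩ := List.mem_take_iff_getElem.1 hk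
    rw [List.getElem_finRange] at he
    have := congrArg Fin.val he
    simp at this hi
    omega
  · intro hkj
    subst hkj
    obtain ⟨i, hi, he⟩ := List.mem_iff_getElem.1 hk
    rw [List.getElem_drop, List.getElem_finRange] at he
    have := congrArg Fin.val he
    simp at this
    omega

theorem continuous_pre (j : Fin g) : Continuous (pre (n := n) j) ∧ Continuous (post (n := n) j) :=
  ⟨continuous_list_prod _ fun k _ => continuous_cm.comp (continuous_apply k),
    continuous_list_prod _ fun k _ => continuous_cm.comp (continuous_apply k)⟩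

theorem det_list_prod {l : List (Mat n)} (h : ∀ M ∈ l, M.det = 1) : l.prod.det = 1 := by
  induction l with
  | nil => simp
  | cons M l ih =>
    rw [List.prod_cons, Matrix.det_mul, h M (by simp), ih fun N hN => h N (by simp [hN]), one_mul]

/-- Change the handle `j` so that the relation holds again. -/
theorem absorb (hn : 0 < n) {q : Fin g → Pair n} (hq : IsRep q) (j : Fin g)
    (hs : ScalarCommutant (q j)) :
    ∃ (Sg : (Fin g → Pair n) → Fin g → Pair n) (V : Set (Fin g → Pair n)), IsOpen V ∧ q ∈ V ∧
      ContinuousOn Sg V ∧ Sg q = q ∧ ∀ q' ∈ V, (∀ k, k ≠ j → SL1 (q' k)) →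
        IsRep (Sg q') ∧ ∀ k, k ≠ j → Sg q' k = q' k := by
  obtain ⟨σ, V, hVo, hVm, hσc, hσ0, hσ⟩ := cm_section hn (hq.1 j) hs
  let K : (Fin g → Pair n) → Mat n := fun q' => (pre j q').adjugate * (post j q').adjugate
  have hK : Continuous K :=
    (continuous_pre j).1.matrix_adjugate.mul (continuous_pre j).2.matrix_adjugate
  have hdet : ∀ q' : Fin g → Pair n, (∀ k, k ≠ j → SL1 (q' k)) →
      (pre j q').det = 1 ∧ (post j q').det = 1 := by
    intro q' h
    classical
    let q'' := Function.update q' j (1, 1)
    have h' : ∀ k, SL1 (q'' k) := fun k => by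
      by_cases hk : k = j
      · subst hk; simp [q'', SL1]
      · simpa [q'', hk] using h k hk
    obtain ⟨e1, e2⟩ := pre_congr j (q := q') (q' := q'') fun k hk => by simp [q'', hk]
    rw [e1, e2]
    constructor <;> refine det_list_prod fun M hM => ?_ <;>
      obtain ⟨k, -, rfl⟩ := List.mem_map.1 hM <;> exact det_cm (h' k).1 (h' k).2
  have hrel : ∀ (q' : Fin g → Pair n), (∀ k, k ≠ j → SL1 (q' k)) → ∀ y : Pair n, cm y = K q' →
      (List.ofFn fun k => cm (Function.update q' j y k)).prod = 1 := by
    intro q' h y hy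
    obtain ⟨e1, e2⟩ := pre_congr j (q := Function.update q' j y) (q' := q') fun k hk => by simp [hk]
    obtain ⟨d1, d2⟩ := hdet q' h
    rw [prod_split j, e1, e2, Function.update_self, hy]
    simp only [K, ← Matrix.mul_assoc, mul_adj_one d1, Matrix.one_mul, adj_mul_one d2]
  have hK0 : K q = cm (q j) := by
    obtain ⟨d1, d2⟩ := hdet q fun k _ => hq.1 k
    have h := hq.2
    rw [prod_split j] at h
    calc K q = (pre j q).adjugate * (pre j q * cm (q j) * post j q) * (post j q).adjugate := by
          rw [h, Matrix.mul_one]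
      _ = cm (q j) := by
          simp only [Matrix.mul_assoc, mul_adj_one d2, Matrix.mul_one]
          rw [← Matrix.mul_assoc, adj_mul_one d1, Matrix.one_mul]
  refine ⟨fun q' => Function.update q' j (σ (K q')), K ⁻¹' V, hVo.preimage hK, ?_, ?_, ?_, ?_⟩
  · show K q ∈ V
    rw [hK0]
    exact hVm
  · refine continuousOn_pi.2 fun k => ?_
    by_cases hk : k = j
    · subst hk
      simp only [Function.update_self]
      exact hσc.comp hK.continuousOn fun x hx => hx
    · simp only [Function.update_of_ne hk]
      exact (continuous_apply k).continuousOn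
  · show Function.update q j (σ (K q)) = q
    rw [hK0, hσ0, Function.update_eq_self]
  · intro q' hq' h
    obtain ⟨d1, d2⟩ := hdet q' h
    obtain ⟨hy1, hy2⟩ := hσ (K q') hq' (by simp [K, Matrix.det_mul, det_adj_one, d1, d2])
    refine ⟨⟨fun k => ?_, hrel q' h _ hy2⟩, fun k hk => by simp [hk]⟩
    by_cases hk : k = j
    · subst hk
      simpa [SL1] using hy1
    · simpa [hk, SL1] using h k hk

end P002Surf
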