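import Vale.Agent.P002Surf.Flow

/-!
Generic pairs: open, dense in SL, and with scalar commutant.
-/

namespace P002Surf

open Matrix Filter Topology

open scoped Matrix.Norms.Operator

variable {n : ℕ}

theorem isOpen_triple : IsOpen {A : Mat n | Triple A} := by
  have h1 : IsOpen (⋂ q : Fin n × Fin n, {A : Mat n | A q.1 q.2 ≠ 0}) :=
    isOpen_iInter_of_finite fun q => isOpen_ne_fun (by fun_prop) continuous_const
  have h2 : IsOpen (⋂ q : {p : Fin n × Fin n × Fin n // p.1 ≠ p.2.1 ∧ p.2.1 ≠ p.2.2 ∧ p.1 ≠ p.2.2},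
      {A : Mat n | A q.1.1 q.1.2.1 * A q.1.2.1 q.1.2.2 * A q.1.2.2 q.1.1 ≠
        A q.1.1 q.1.2.2 * A q.1.2.2 q.1.2.1 * A q.1.2.1 q.1.1}) :=
    isOpen_iInter_of_finite fun q => isOpen_ne_fun (by fun_prop) (by fun_prop)
  have : {A : Mat n | Triple A} =
      (⋂ q : Fin n × Fin n, {A : Mat n | A q.1 q.2 ≠ 0}) ∩
      (⋂ q : {p : Fin n × Fin n × Fin n // p.1 ≠ p.2.1 ∧ p.2.1 ≠ p.2.2 ∧ p.1 ≠ p.2.2},
      {A : Mat n | A q.1.1 q.1.2.1 * A q.1.2.1 q.1.2.2 * A q.1.2.2 q.1.1 ≠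
        A q.1.1 q.1.2.2 * A q.1.2.2 q.1.2.1 * A q.1.2.1 q.1.1}) := by
    ext A
    simp only [Triple, Set.mem_ofPred_eq, Set.mem_inter_iff, Set.mem_iInter, Subtype.forall,
      Prod.forall, and_imp]
  rw [this]
  exact h1.inter h2

theorem continuousAt_inv {P : Mat n} (hP : P.det ≠ 0) :
    ContinuousAt (fun M : Mat n => M⁻¹) P := by
  have h1 : ContinuousAt (fun M : Mat n => (M.det)⁻¹ • M.adjugate) P :=
    ContinuousAt.fun_smul (continuous_id.matrix_det.continuousAt.inv₀ hP)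
      continuous_id.matrix_adjugate.continuousAt
  have h2 : (fun M : Mat n => M⁻¹) = fun M => (M.det)⁻¹ • M.adjugate := by
    funext M
    rw [Matrix.inv_def, Ring.inverse_eq_inv']
  rw [h2]
  exact h1

theorem continuousAt_conj {P : Mat n} (hP : P.det ≠ 0) (A : Mat n) :
    ContinuousAt (fun a : Mat n × Mat n => a.2⁻¹ * a.1 * a.2) (A, P) := by
  have hi : ContinuousAt (fun a : Mat n × Mat n => a.2⁻¹) (A, P) :=
    ContinuousAt.comp' (g := fun M : Mat n => M⁻¹) (continuousAt_inv hP) continuousAt_snd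
  exact (hi.mul continuousAt_fst).mul continuousAt_snd

theorem isOpen_G0 : IsOpen {x : Pair n | G0 x} := by
  rw [isOpen_iff_mem_nhds]
  intro x hx
  obtain ⟨P, μ, hd, hT⟩ := hx
  have hc := continuousAt_conj hd.1 x.1
  have hev : ∀ᶠ a in 𝓝 (x.1, P), Triple (a.2⁻¹ * a.1 * a.2) :=
    hc.preimage_mem_nhds (isOpen_triple.mem_nhds hT)
  rw [nhds_prod_eq, Filter.eventually_prod_iff] at hev
  obtain ⟨p1, hp1, p2, hp2, hh⟩ := hev
  have hW : {a : Mat n × (Fin n → ℂ) | p2 a.1} ∈ 𝓝 (P, μ) :=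
    continuousAt_fst.preimage_mem_nhds hp2
  have h2 := eventually_diagBy hd hW
  have e1 : ∀ᶠ y : Pair n in 𝓝 x, p1 y.1 := (continuous_fst.tendsto x).eventually hp1
  have e2 : ∀ᶠ y : Pair n in 𝓝 x, ∃ P' μ', (P', μ') ∈ {a : Mat n × (Fin n → ℂ) | p2 a.1} ∧
      DiagBy y.2 P' μ' := (continuous_snd.tendsto x).eventually h2
  refine (e1.and e2).mono ?_
  intro y hy
  obtain ⟨h1, P', μ', hmem, hd'⟩ := hy
  exact ⟨P', μ', hd', hh h1 hmem⟩

theorem Triple.smul {A : Mat n} (h : Triple A) {c : ℂ} (hc : c ≠ 0) : Triple (c • A) := by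
  refine ⟨fun i j => by simpa using mul_ne_zero hc (h.1 i j), ?_⟩
  intro i j k hij hjk hik he
  simp only [Matrix.smul_apply, smul_eq_mul] at he
  refine h.2 i j k hij hjk hik (mul_left_cancel₀ (pow_ne_zero 3 hc) ?_)
  linear_combination he

/-- The product of all quantities whose non-vanishing gives `Triple`. -/
noncomputable def tripleFun (A : Mat n) : ℂ :=
  (∏ q : Fin n × Fin n, A q.1 q.2) *
  ∏ q : {p : Fin n × Fin n × Fin n // p.1 ≠ p.2.1 ∧ p.2.1 ≠ p.2.2 ∧ p.1 ≠ p.2.2},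
    (A q.1.1 q.1.2.1 * A q.1.2.1 q.1.2.2 * A q.1.2.2 q.1.1 -
      A q.1.1 q.1.2.2 * A q.1.2.2 q.1.2.1 * A q.1.2.1 q.1.1)

theorem polyLine_tripleFun : PolyLine (tripleFun (n := n)) := by
  refine PolyLine.mul (polyLine_prod _ fun q _ => polyLineM_id.entry _ _) (polyLine_prod _ fun q _ => ?_)
  exact ((((polyLineM_id.entry _ _).mul (polyLineM_id.entry _ _)).mul (polyLineM_id.entry _ _))).sub
    (((polyLineM_id.entry _ _).mul (polyLineM_id.entry _ _)).mul (polyLineM_id.entry _ _))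

theorem tripleFun_ne {A : Mat n} (h : tripleFun A ≠ 0) : Triple A := by
  simp only [tripleFun, mul_ne_zero_iff, Finset.prod_ne_zero_iff, Finset.mem_univ, forall_true_left,
    Subtype.forall, Prod.forall, sub_ne_zero, and_imp] at h
  exact h

theorem exists_triple : ∃ A : Mat n, tripleFun A ≠ 0 := by
  refine ⟨Matrix.of fun i j => if i < j then 1 else 2, ?_⟩
  simp only [tripleFun, mul_ne_zero_iff, Finset.prod_ne_zero_iff, Finset.mem_univ, forall_true_left,
    Subtype.forall, Prod.forall, sub_ne_zero, Matrix.of_apply]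
  refine ⟨fun i j => by split_ifs <;> norm_num, fun i j k ⟨hij, hjk, hik⟩ => ?_⟩
  have a : i.val ≠ j.val := Fin.val_ne_of_ne hij
  have b : j.val ≠ k.val := Fin.val_ne_of_ne hjk
  have c : i.val ≠ k.val := Fin.val_ne_of_ne hik
  simp only [Fin.lt_def]
  rcases lt_or_gt_of_ne a with a | a <;> rcases lt_or_gt_of_ne b with b | b <;>
    rcases lt_or_gt_of_ne c with c | c <;>
    simp [a, b, c, a.not_gt, b.not_gt, c.not_gt] <;> omega

theorem dense_G0 {x : Pair n} (h : SL1 x) {U : Set (Pair n)} (hU : U ∈ 𝓝 x) :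
    ∃ x' ∈ U, SL1 x' ∧ G0 x' := by
  obtain ⟨U1, hU1, U2, hU2, hsub⟩ := mem_nhds_prod_iff.1 hU
  obtain ⟨B, hB, hBd, P, μ, hdiag⟩ := dense_simple h.2 hU2
  have hPu := isUnit_det_of_ne hdiag.1
  have hPP : P * P⁻¹ = 1 := Matrix.mul_nonsing_inv P hPu
  have hc : Continuous fun X : Mat n => P * X * P⁻¹ := by fun_prop
  have hA : (P⁻¹ * x.1 * P).det = 1 := by
    rw [Matrix.det_mul, Matrix.det_mul, h.1, mul_one, ← Matrix.det_mul,
      Matrix.nonsing_inv_mul P hPu, Matrix.det_one]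
  have hx : P * (P⁻¹ * x.1 * P) * P⁻¹ = x.1 := by
    simp only [Matrix.mul_assoc, hPP, Matrix.mul_one]
    rw [← Matrix.mul_assoc, hPP, Matrix.one_mul]
  obtain ⟨X, hX, hXd, hXT⟩ := dense_SL polyLine_tripleFun (Q := Triple)
    (fun A hA _ c hc => (tripleFun_ne hA).smul hc) exists_triple _ hA
    (hc.continuousAt.preimage_mem_nhds (t := U1) (by rw [hx]; exact hU1))
  have hX' : P⁻¹ * (P * X * P⁻¹) * P = X := by
    simp only [← Matrix.mul_assoc, Matrix.nonsing_inv_mul P hPu, Matrix.one_mul]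
    rw [Matrix.mul_assoc, Matrix.nonsing_inv_mul P hPu, Matrix.mul_one]
  refine ⟨(P * X * P⁻¹, B), hsub ⟨hX, hB⟩, ⟨?_, hBd⟩, P, μ, hdiag, by rw [hX']; exact hXT⟩
  rw [Matrix.det_mul, Matrix.det_mul, hXd, mul_one, ← Matrix.det_mul, hPP, Matrix.det_one]

theorem commute_diagonal {μ : Fin n → ℂ} (hμ : Function.Injective μ) {T : Mat n}
    (h : T * diagonal μ = diagonal μ * T) : T = diagonal T.diag := by
  ext r c
  by_cases hrc : r = c
  · subst hrc; simp
  · have := congrFun (congrFun h r) c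
    rw [Matrix.mul_diagonal, Matrix.diagonal_mul] at this
    rw [Matrix.diagonal_apply_ne _ hrc]
    by_contra hne
    exact hμ.ne hrc (mul_left_cancel₀ hne (by linear_combination this)).symm

/-- Generic pairs have scalar commutant. -/
theorem G0.scalar {x : Pair n} (h : G0 x) : ScalarCommutant x := by
  obtain ⟨P, μ, hd, hT⟩ := h
  intro T h1 h2
  have hPu := isUnit_det_of_ne hd.1
  have hPP : P * P⁻¹ = 1 := Matrix.mul_nonsing_inv P hPu
  have hPP' : P⁻¹ * P = 1 := Matrix.nonsing_inv_mul P hPu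
  have cc : ∀ X : Mat n, P * (P⁻¹ * X) = X := fun X => by
    rw [← Matrix.mul_assoc, hPP, Matrix.one_mul]
  set T' := P⁻¹ * T * P with hT'
  have e2 : T' * diagonal μ = diagonal μ * T' := by
    rw [hT', ← hd.conj]
    simp only [Matrix.mul_assoc, cc]
    rw [← Matrix.mul_assoc T, h2, Matrix.mul_assoc]
  have e1 : T' * (P⁻¹ * x.1 * P) = (P⁻¹ * x.1 * P) * T' := by
    rw [hT']
    simp only [Matrix.mul_assoc, cc]
    rw [← Matrix.mul_assoc T, h1, Matrix.mul_assoc]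
  have hdiag := commute_diagonal hd.2.1 e2
  have hconst : ∀ r c, T' r r = T' c c := by
    intro r c
    by_cases hrc : r = c
    · rw [hrc]
    · rw [hdiag] at e1
      have := congrFun (congrFun e1 r) c
      rw [Matrix.diagonal_mul, Matrix.mul_diagonal] at this
      exact mul_right_cancel₀ (hT.1 r c) (this.trans (mul_comm _ _))
  rcases Nat.eq_zero_or_pos n with hn | hn
  · subst hn; exact ⟨0, Subsingleton.elim _ _⟩
  refine ⟨T' ⟨0, hn⟩ ⟨0, hn⟩, ?_⟩
  have hT'1 : T' = T' ⟨0, hn⟩ ⟨0, hn⟩ • (1 : Mat n) := by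
    rw [Matrix.smul_one_eq_diagonal]
    refine hdiag.trans ?_
    congr 1
    funext r
    exact hconst r _
  have hTT : T = P * T' * P⁻¹ := by
    simp only [hT', ← Matrix.mul_assoc, hPP, Matrix.one_mul]
    rw [Matrix.mul_assoc, hPP, Matrix.mul_one]
  rw [hTT]
  conv_lhs => rw [hT'1]
  rw [Matrix.mul_smul, Matrix.mul_one, Matrix.smul_mul, hPP]

end P002Surf
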