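import Mathlib

/-!
Shared definitions for integral points on SL_r representation varieties of closed surface groups.
-/

namespace P002Surf

open Matrix

/-- Commutator written with adjugates (the group commutator for determinant one). -/
def cm {n : ℕ} {R : Type} [CommRing R] (x : Matrix (Fin n) (Fin n) R × Matrix (Fin n) (Fin n) R) :
    Matrix (Fin n) (Fin n) R :=
  x.1 * x.2 * x.1.adjugate * x.2.adjugate

/-- A representation of the genus `g` surface group in `SL_n R`, as `g` handle pairs. -/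
def IsRep {g n : ℕ} {R : Type} [CommRing R]
    (q : Fin g → Matrix (Fin n) (Fin n) R × Matrix (Fin n) (Fin n) R) : Prop :=
  (∀ i, (q i).1.det = 1 ∧ (q i).2.det = 1) ∧ (List.ofFn fun i => cm (q i)).prod = 1

abbrev Idx (g n : ℕ) := Fin g × Bool × Fin n × Fin n

/-- The entries of a tuple of pairs. -/
def ev {g n : ℕ} {R : Type} (q : Fin g → Matrix (Fin n) (Fin n) R × Matrix (Fin n) (Fin n) R) :
    Idx g n → R :=
  fun v => cond v.2.1 ((q v.1).2 v.2.2.1 v.2.2.2) ((q v.1).1 v.2.2.1 v.2.2.2)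

/-- An integer tuple seen over `ℂ`. -/
def castInt {g n : ℕ} (a : Fin g → Matrix (Fin n) (Fin n) ℤ × Matrix (Fin n) (Fin n) ℤ) :
    Fin g → Matrix (Fin n) (Fin n) ℂ × Matrix (Fin n) (Fin n) ℂ :=
  fun i => ((a i).1.map fun z => (z : ℂ), (a i).2.map fun z => (z : ℂ))

/-- The Zariski closure of the integral representations. -/
def Zd {g n : ℕ} (q : Fin g → Matrix (Fin n) (Fin n) ℂ × Matrix (Fin n) (Fin n) ℂ) : Prop :=
  ∀ p : MvPolynomial (Idx g n) ℂ,
    (∀ a : Fin g → Matrix (Fin n) (Fin n) ℤ × Matrix (Fin n) (Fin n) ℤ, IsRep a →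
      MvPolynomial.eval (ev (castInt a)) p = 0) → MvPolynomial.eval (ev q) p = 0

/-- The commutant of the pair consists of scalars. -/
def ScalarCommutant {n : ℕ} (x : Matrix (Fin n) (Fin n) ℂ × Matrix (Fin n) (Fin n) ℂ) : Prop :=
  ∀ T : Matrix (Fin n) (Fin n) ℂ, T * x.1 = x.1 * T → T * x.2 = x.2 * T →
    ∃ c : ℂ, T = c • (1 : Matrix (Fin n) (Fin n) ℂ)

end P002Surf
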