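import Vale.Agent.P002Surf.PolyLine

/-!
Matrices with simple spectrum and with multiplicatively independent eigenvalues are dense in SL;
eigenbases can be chosen nearby.
-/

namespace P002Surf

open Matrix Polynomial Filter Topology

open scoped Matrix.Norms.Operator

variable {n : ℕ}

/-- `A` is diagonalised by the invertible `P` with injective eigenvalue vector `μ`. -/
def DiagBy (A P : Mat n) (μ : Fin n → ℂ) : Prop :=
  P.det ≠ 0 ∧ Function.Injective μ ∧ A = P * diagonal μ * P⁻¹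

def Simple (A : Mat n) : Prop := ∃ P μ, DiagBy A P μ

/-- Multiplicative independence modulo the all-equal exponent vector. -/
def MIndep (μ : Fin n → ℂ) : Prop :=
  ∀ α β : Fin n → ℕ, (∏ i, μ i ^ α i) = (∏ i, μ i ^ β i) →
    ∀ d : Fin n → ℂ, (∏ i, d i) = 1 → (∏ i, d i ^ α i) = ∏ i, d i ^ β i

def Indep (A : Mat n) : Prop := ∃ P μ, DiagBy A P μ ∧ MIndep μ

theorem isUnit_det_of_ne {P : Mat n} (h : P.det ≠ 0) : IsUnit P.det := isUnit_iff_ne_zero.2 h

theorem DiagBy.conj {A P : Mat n} {μ : Fin n → ℂ} (h : DiagBy A P μ) :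
    P⁻¹ * A * P = diagonal μ := by
  obtain ⟨hP, _, rfl⟩ := h
  rw [Matrix.mul_assoc P (diagonal μ), Matrix.nonsing_inv_mul_cancel_left P _ (isUnit_det_of_ne hP),
    Matrix.mul_assoc, Matrix.nonsing_inv_mul P (isUnit_det_of_ne hP), Matrix.mul_one]

theorem DiagBy.det {A P : Mat n} {μ : Fin n → ℂ} (h : DiagBy A P μ) : A.det = ∏ i, μ i := by
  rw [h.2.2, Matrix.det_mul, Matrix.det_mul, mul_comm P.det, mul_assoc, ← Matrix.det_mul,
    Matrix.mul_nonsing_inv P (isUnit_det_of_ne h.1), Matrix.det_one, mul_one, det_diagonal]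

theorem DiagBy.smul {A P : Mat n} {μ : Fin n → ℂ} (h : DiagBy A P μ) {c : ℂ} (hc : c ≠ 0) :
    DiagBy (c • A) P (c • μ) := by
  refine ⟨h.1, fun i j hij => h.2.1 (mul_left_cancel₀ hc hij), ?_⟩
  rw [Matrix.diagonal_smul, Matrix.mul_smul, Matrix.smul_mul, ← h.2.2]

/-- Separable characteristic polynomial gives simple spectrum. -/
theorem simple_of_separable {A : Mat n} (h : A.charpoly.Separable) : Simple A := by
  classical
  have hcard : Multiset.card A.charpoly.roots = n := by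
    rw [← (IsAlgClosed.splits A.charpoly).natDegree_eq_card_roots, charpoly_natDegree_eq_dim,
      Fintype.card_fin]
  have hnd : A.charpoly.roots.Nodup := Polynomial.nodup_roots h
  have hc : A.charpoly.roots.toFinset.card = n := by
    rw [Multiset.toFinset_card_of_nodup hnd, hcard]
  let e := (A.charpoly.roots.toFinset.equivFinOfCardEq hc).symm
  let μ : Fin n → ℂ := fun i => (e i).1
  have hμ : Function.Injective μ := fun i j hij => e.injective (Subtype.ext hij)
  have hev : ∀ i, Module.End.HasEigenvalue (Matrix.toLin' A) (μ i) := fun i => by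
    rw [Module.End.hasEigenvalue_iff_isRoot_charpoly, Matrix.charpoly_toLin']
    exact (Polynomial.mem_roots'.1 (Multiset.mem_toFinset.1 (e i).2)).2
  choose v hv using fun i => (hev i).exists_hasEigenvector
  have hli : LinearIndependent ℂ v := Module.End.eigenvectors_linearIndependent' _ μ hμ v hv
  let P : Mat n := Matrix.of fun i j => v j i
  have hP : P.det ≠ 0 := by
    have : LinearIndependent ℂ P.col := hli
    exact isUnit_iff_ne_zero.1 ((Matrix.isUnit_iff_isUnit_det P).1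
      (Matrix.linearIndependent_cols_iff_isUnit.1 this))
  refine ⟨P, μ, hP, hμ, ?_⟩
  have hAP : A * P = P * diagonal μ := by
    ext i j
    have := congrFun ((hv j).apply_eq_smul) i
    simp only [Matrix.toLin'_apply, Pi.smul_apply, smul_eq_mul] at this
    rw [Matrix.mul_diagonal]
    simpa [Matrix.mul_apply, Matrix.mulVec, dotProduct, P, mul_comm] using this
  rw [← hAP, Matrix.mul_nonsing_inv_cancel_right P _ (isUnit_det_of_ne hP)]

/-- A function which is nonzero exactly for separable characteristic polynomial. -/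
noncomputable def sepFun (A : Mat n) : ℂ :=
  resultant A.charpoly (derivative A.charpoly) n (n - 1)

theorem polyLine_sepFun : PolyLine (sepFun (n := n)) := by
  intro A B
  obtain ⟨R, hR⟩ := polyLineM_id A B
  refine ⟨resultant R.charpoly (derivative R.charpoly) n (n - 1), fun s => ?_⟩
  have hs : R.map (Polynomial.eval s) = A + s • B := hR s
  simp only [sepFun]
  rw [← hs, show R.map (Polynomial.eval s) = R.map (Polynomial.evalRingHom s) from rfl,
    Matrix.charpoly_map, Polynomial.derivative_map, resultant_map_map]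
  rfl

theorem sepFun_eq (A : Mat n) :
    sepFun A = resultant A.charpoly (derivative A.charpoly) := by
  have h1 : A.charpoly.natDegree = n := by rw [charpoly_natDegree_eq_dim, Fintype.card_fin]
  have h2 : (derivative A.charpoly).natDegree = n - 1 := by
    rw [Polynomial.natDegree_derivative, h1]
  rw [sepFun, h1, h2]

theorem sepFun_ne_zero_iff (A : Mat n) : sepFun A ≠ 0 ↔ A.charpoly.Separable := by
  rw [sepFun_eq, ← isUnit_iff_ne_zero, isUnit_resultant_iff_isCoprime (charpoly_monic A)]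
  rfl

theorem exists_sepFun : ∃ A : Mat n, sepFun A ≠ 0 := by
  refine ⟨diagonal (fun i => ((i : ℕ) : ℂ)), (sepFun_ne_zero_iff _).2 ?_⟩
  rw [charpoly_diagonal]
  apply Polynomial.separable_prod_X_sub_C_iff.2
  intro i j hij
  exact Fin.ext (by simpa using hij)

theorem dense_simple {A : Mat n} (hA : A.det = 1) {U : Set (Mat n)} (hU : U ∈ 𝓝 A) :
    ∃ A' ∈ U, A'.det = 1 ∧ Simple A' := by
  refine dense_SL polyLine_sepFun ?_ exists_sepFun A hA hU
  intro B hB _ c hc
  obtain ⟨P, μ, h⟩ := simple_of_separable ((sepFun_ne_zero_iff B).1 hB)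
  exact ⟨P, _, h.smul hc⟩

theorem exists_weights : ∃ w : Fin n → ℂ, (∑ i, w i) = 0 ∧
    ∀ m : Fin n → ℤ, (∑ i, (m i : ℂ) * w i) = 0 → ∀ i j, m i = m j := by
  rcases Nat.eq_zero_or_pos n with hn | hn
  · subst hn; exact ⟨0, by simp, fun _ _ i => i.elim0⟩
  let q : (Fin n → ℤ) → ℂ[X] := fun m => ∑ i : Fin n,
    C ((m i : ℂ) - (∑ k, (m k : ℂ)) / n) * Polynomial.X ^ (i : ℕ)
  have hq : ∀ m, q m = 0 → ∀ i j, m i = m j := by
    intro m hm i j
    have key : ∀ i : Fin n, (m i : ℂ) = (∑ k, (m k : ℂ)) / n := by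
      intro i
      have := congrArg (fun p => Polynomial.coeff p (i : ℕ)) hm
      simp only [q, finsetSum_coeff, coeff_C_mul, coeff_X_pow, coeff_zero, mul_ite, mul_one,
        mul_zero] at this
      rw [Finset.sum_eq_single i] at this
      · simpa [sub_eq_zero] using this
      · intro b _ hb; simp [Fin.val_ne_of_ne (Ne.symm hb)]
      · simp
    exact_mod_cast (key i).trans (key j).symm
  have hcount : (⋃ m : {m : Fin n → ℤ // q m ≠ 0}, {x : ℂ | (q m.1).IsRoot x}).Countable :=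
    Set.countable_iUnion fun m => (Polynomial.finite_setOfPred_isRoot m.2).countable
  obtain ⟨x, hx⟩ : ∃ x : ℂ, x ∉ ⋃ m : {m : Fin n → ℤ // q m ≠ 0}, {x : ℂ | (q m.1).IsRoot x} :=
    (hcount.dense_compl ℂ).nonempty
  refine ⟨fun i => x ^ (i : ℕ) - (∑ k : Fin n, x ^ (k : ℕ)) / n, ?_, ?_⟩
  · have hn' : (n : ℂ) ≠ 0 := by exact_mod_cast hn.ne'
    rw [Finset.sum_sub_distrib, Finset.sum_const, Finset.card_univ, Fintype.card_fin, nsmul_eq_mul,
      mul_div_cancel₀ _ hn', sub_self]
  · intro m hm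
    apply hq
    by_contra hne
    apply hx
    refine Set.mem_iUnion.2 ⟨⟨m, hne⟩, ?_⟩
    show (q m).eval x = 0
    simp only [q, eval_finsetSum, eval_mul, eval_C, eval_pow, eval_X]
    rw [← hm]
    simp only [sub_mul, mul_sub, Finset.sum_sub_distrib, ← Finset.sum_mul, ← Finset.mul_sum]
    ring

theorem dense_indep {A : Mat n} (hA : A.det = 1) {U : Set (Mat n)} (hU : U ∈ 𝓝 A) :
    ∃ A' ∈ U, A'.det = 1 ∧ Indep A' := by
  obtain ⟨A1, hA1, hd1, P, μ, hdiag⟩ :=
    dense_simple hA (interior_mem_nhds.2 hU)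
  obtain ⟨w, hw0, hw⟩ := exists_weights (n := n)
  have hμ0 : ∀ i, μ i ≠ 0 := by
    intro i hi
    have := hdiag.det
    rw [hd1, Finset.prod_eq_zero (Finset.mem_univ i) hi] at this
    exact one_ne_zero this
  let ν : ℂ → Fin n → ℂ := fun s i => μ i * Complex.exp (s * w i)
  let Φ : ℂ → Mat n := fun s => P * diagonal (ν s) * P⁻¹
  have hν0 : ν 0 = μ := funext fun i => by simp [ν]
  have hcont : Continuous Φ := by
    simp only [Φ, ν]
    fun_prop
  have hΦ0 : Φ 0 = A1 := by simp only [Φ, hν0]; exact hdiag.2.2.symm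
  have hinj : ∀ᶠ s in 𝓝 (0 : ℂ), Function.Injective (ν s) := by
    have : ∀ p : Fin n × Fin n, p.1 ≠ p.2 → ∀ᶠ s in 𝓝 (0 : ℂ), ν s p.1 ≠ ν s p.2 := by
      intro p hp
      have hc : ContinuousAt (fun s => ν s p.1 - ν s p.2) 0 := by simp only [ν]; fun_prop
      have h0 : ν 0 p.1 - ν 0 p.2 ≠ 0 := by rw [hν0]; exact sub_ne_zero.2 (hdiag.2.1.ne hp)
      have := hc.eventually_ne h0
      filter_upwards [this] with s hs h
      exact hs (sub_eq_zero.2 h)
    have h2 := (eventually_all (l := 𝓝 (0 : ℂ))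
      (p := fun (q : {p : Fin n × Fin n // p.1 ≠ p.2}) s => ν s q.1.1 ≠ ν s q.1.2)).2
      fun q => this q.1 q.2
    filter_upwards [h2] with s hs i j hij
    by_contra hne
    exact hs ⟨(i, j), hne⟩ hij
  let σ : (Fin n → ℕ) × (Fin n → ℕ) → ℂ := fun m => ∑ i, ((m.1 i : ℤ) - m.2 i : ℤ) * w i
  let bad : Set ℂ := ⋃ m : (Fin n → ℕ) × (Fin n → ℕ), ⋃ k : ℤ,
    {(Complex.log ((∏ i, μ i ^ m.2 i) / ∏ i, μ i ^ m.1 i) + k * (2 * Real.pi * Complex.I)) / σ m}
  have hbad : bad.Countable :=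
    Set.countable_iUnion fun _ => Set.countable_iUnion fun _ => Set.countable_singleton _
  have hev : ∀ᶠ s in 𝓝 (0 : ℂ), Φ s ∈ interior U ∧ Function.Injective (ν s) := by
    have h1 : ∀ᶠ s in 𝓝 (0 : ℂ), Φ s ∈ interior U :=
      hcont.continuousAt.preimage_mem_nhds (by rw [hΦ0]; exact isOpen_interior.mem_nhds hA1)
    exact h1.and hinj
  obtain ⟨S, hS, hSo, hS0⟩ := eventually_nhds_iff.1 hev
  obtain ⟨s, hsS, hsbad⟩ : ∃ s ∈ S, s ∉ bad :=
    (hbad.dense_compl ℂ).inter_open_nonempty S hSo ⟨0, hS0⟩ |>.imp fun _ h => h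
  refine ⟨Φ s, interior_subset (hS s hsS).1, ?_, P, ν s, ⟨hdiag.1, (hS s hsS).2, rfl⟩, ?_⟩
  · have hd : DiagBy (Φ s) P (ν s) := ⟨hdiag.1, (hS s hsS).2, rfl⟩
    rw [hd.det]
    simp only [ν, Finset.prod_mul_distrib, ← Complex.exp_sum, ← Finset.mul_sum, hw0, mul_zero,
      Complex.exp_zero, mul_one]
    rw [← hdiag.det, hd1]
  · intro α β hαβ d hd
    by_cases hσ : σ (α, β) = 0
    · rcases Nat.eq_zero_or_pos n with hn | hn
      · subst hn; simp
      let i0 : Fin n := ⟨0, hn⟩
      have hm := hw _ hσ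
      have hshift : ∀ i, α i + β i0 = β i + α i0 := fun i => by
        have := hm i i0
        simp at this
        omega
      have e : ∀ γ : Fin n → ℕ, ∀ c : ℕ, (∏ i, d i ^ (γ i + c)) = ∏ i, d i ^ γ i := by
        intro γ c
        simp only [pow_add, Finset.prod_mul_distrib, Finset.prod_pow, hd, one_pow, mul_one]
      rw [← e α (β i0), ← e β (α i0)]
      simp only [hshift]
    · exfalso
      apply hsbad
      have hp : ∀ γ : Fin n → ℕ, (∏ i, μ i ^ γ i) ≠ 0 := fun γ =>
        Finset.prod_ne_zero_iff.2 fun i _ => pow_ne_zero _ (hμ0 i)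
      have key : Complex.exp (s * σ (α, β)) = (∏ i, μ i ^ β i) / ∏ i, μ i ^ α i := by
        simp only [ν, mul_pow, Finset.prod_mul_distrib, ← Complex.exp_nat_mul, ← Complex.exp_sum]
          at hαβ
        rw [eq_div_iff (hp α)]
        have hα : (∑ i, ((α i : ℕ) : ℂ) * (s * w i)) = s * σ (α, β) + ∑ i, ((β i : ℕ) : ℂ) * (s * w i) := by
          simp only [σ, Finset.mul_sum, ← Finset.sum_add_distrib]
          exact Finset.sum_congr rfl fun i _ => by push_cast; ring
        rw [hα, Complex.exp_add, mul_left_comm, ← mul_assoc] at hαβ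
        have := mul_right_cancel₀ (Complex.exp_ne_zero _) (by linear_combination hαβ :
          (Complex.exp (s * σ (α, β)) * ∏ i, μ i ^ α i) * Complex.exp (∑ i, ((β i : ℕ) : ℂ) * (s * w i))
            = (∏ i, μ i ^ β i) * Complex.exp (∑ i, ((β i : ℕ) : ℂ) * (s * w i)))
        exact this
      rw [← Complex.exp_log (div_ne_zero (hp β) (hp α))] at key
      obtain ⟨k, hk⟩ := Complex.exp_eq_exp_iff_exists_int.1 key
      refine Set.mem_iUnion.2 ⟨(α, β), Set.mem_iUnion.2 ⟨k, ?_⟩⟩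
      rw [Set.mem_singleton_iff, eq_div_iff hσ]
      exact hk

/-- The eigenbasis varies continuously: nearby matrices are diagonalised by nearby bases. -/
theorem eventually_diagBy {A P : Mat n} {μ : Fin n → ℂ} (h : DiagBy A P μ)
    {W : Set (Mat n × (Fin n → ℂ))} (hW : W ∈ 𝓝 (P, μ)) :
    ∀ᶠ A' in 𝓝 A, ∃ P' μ', (P', μ') ∈ W ∧ DiagBy A' P' μ' := by
  let u : (Mat n)ˣ := Matrix.nonsingInvUnit P (isUnit_det_of_ne h.1)
  let dg : (Fin n → ℂ) →L[ℂ] Mat n := (Matrix.diagonalLinearMap (Fin n) ℂ ℂ).toContinuousLinearMap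
  let f : Mat n × (Fin n → ℂ) → Mat n := fun x => x.1 * diagonal x.2 * Ring.inverse x.1
  have hf1 : HasStrictFDerivAt (fun x : Mat n × (Fin n → ℂ) => x.1 * diagonal x.2)
      _ (P, μ) := (hasStrictFDerivAt_fst (𝕜 := ℂ)).mul' (dg.hasStrictFDerivAt.comp _ hasStrictFDerivAt_snd)
  have hinv : HasStrictFDerivAt (𝕜 := ℂ) (Ring.inverse : Mat n → Mat n) _ (P, μ).1 :=
    hasStrictFDerivAt_ringInverse u
  have hf2 : HasStrictFDerivAt (fun x : Mat n × (Fin n → ℂ) => Ring.inverse x.1)
      _ (P, μ) := hinv.comp (P, μ) hasStrictFDerivAt_fst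
  have hf := hf1.mul' hf2
  have hmap := hf.map_nhds_eq_of_surj (f := f) (by
    rw [eq_top_iff]
    intro H _
    let K : Mat n := P⁻¹ * H * P
    let ξ : Mat n := Matrix.of fun i j => K i j / (μ j - μ i)
    let δ : Fin n → ℂ := fun i => K i i
    refine ⟨(P * ξ, δ), ?_⟩
    have hsum : ξ * diagonal μ - diagonal μ * ξ + diagonal δ = K := by
      ext i j
      simp only [Matrix.add_apply, Matrix.sub_apply, Matrix.mul_diagonal, Matrix.diagonal_mul, ξ, δ,
        Matrix.of_apply]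
      by_cases hij : i = j
      · subst hij; simp
      · have : μ j - μ i ≠ 0 := sub_ne_zero.2 (h.2.1.ne (Ne.symm hij))
        rw [Matrix.diagonal_apply_ne _ hij, add_zero]
        field_simp
    have hi : Ring.inverse P = P⁻¹ := (Matrix.nonsing_inv_eq_ringInverse P).symm
    have hu : ((u⁻¹ : (Mat n)ˣ) : Mat n) = P⁻¹ := rfl
    have hdg : ∀ v : Fin n → ℂ, dg v = diagonal v := fun v => rfl
    simp [hi, hu]
    have hdg : (dg.comp (ContinuousLinearMap.snd ℂ (Mat n) (Fin n → ℂ))) (P * ξ, δ) = diagonal δ :=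
      rfl
    have hPP : P * P⁻¹ = 1 := Matrix.mul_nonsing_inv P (isUnit_det_of_ne h.1)
    have hPP' : P⁻¹ * P = 1 := Matrix.nonsing_inv_mul P (isUnit_det_of_ne h.1)
    have hH : H = P * K * P⁻¹ := by
      simp only [K, ← Matrix.mul_assoc, hPP, Matrix.one_mul]
      rw [Matrix.mul_assoc, hPP, Matrix.mul_one]
    rw [hH, ← hsum]
    simp only [Matrix.mul_add, Matrix.add_mul, Matrix.mul_sub, Matrix.sub_mul, Matrix.mul_assoc,
      ← Matrix.mul_assoc P⁻¹ P, hPP', Matrix.one_mul]
    erw [hdg]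
    abel)
  have hf0 : f (P, μ) = A := by
    simp only [f]
    rw [← Matrix.nonsing_inv_eq_ringInverse]
    exact h.2.2.symm
  have hgood : W ∩ {x | x.1.det ≠ 0 ∧ Function.Injective x.2} ∈ 𝓝 (P, μ) := by
    refine inter_mem hW (IsOpen.mem_nhds ?_ ⟨h.1, h.2.1⟩)
    refine IsOpen.inter ?_ ?_
    · exact isOpen_ne_fun (continuous_fst.matrix_det) continuous_const
    · have : {x : Mat n × (Fin n → ℂ) | Function.Injective x.2} =
          ⋂ q : {p : Fin n × Fin n // p.1 ≠ p.2}, {x | x.2 q.1.1 ≠ x.2 q.1.2} := by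
        ext x
        simp only [Set.mem_ofPred_eq, Set.mem_iInter]
        exact ⟨fun hx q => hx.ne q.2, fun hx i j hij => by
          by_contra hne; exact hx ⟨(i, j), hne⟩ hij⟩
      show IsOpen {x : Mat n × (Fin n → ℂ) | Function.Injective x.2}
      rw [this]
      exact isOpen_iInter_of_finite fun q => isOpen_ne_fun (by fun_prop) (by fun_prop)
  have := image_mem_map (m := f) hgood
  have hm : Filter.map f (𝓝 (P, μ)) = 𝓝 A := hf0 ▸ hmap
  replace this := hm ▸ this
  filter_upwards [this] with A' ⟨x, hx, hxA⟩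
  refine ⟨x.1, x.2, hx.1, hx.2.1, hx.2.2, ?_⟩
  rw [← hxA, Matrix.nonsing_inv_eq_ringInverse]

end P002Surf
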