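import Vale.Agent.P002Surf.Flow

/-!
Near a generic point, the fibre of the commutator map lies in the closure.
-/

namespace P002Surf

open Matrix Filter Topology

open scoped Matrix.Norms.Operator

variable {g n : ℕ} {i : Fin g} {S : Set (Pair n)} {rest : Pair n → Fin g → Pair n} {x0 : Pair n}

theorem reach_step {m : ℕ} {Ψ : (Fin m → ℂ) → Pair n} {L : (Fin m → ℂ) →L[ℂ] Pair n}
    (hd : HasStrictFDerivAt Ψ L 0) (h0 : Ψ 0 = x0)
    (hm : ∀ᶠ τ in 𝓝 0, MovTo i S rest x0 (Ψ τ)) {v : Pair n} (hv : IsVel i S rest x0 v) :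
    ∃ (Ψ' : (Fin (m + 1) → ℂ) → Pair n) (L' : (Fin (m + 1) → ℂ) →L[ℂ] Pair n),
      HasStrictFDerivAt Ψ' L' 0 ∧ Ψ' 0 = x0 ∧ (∀ᶠ τ in 𝓝 0, MovTo i S rest x0 (Ψ' τ)) ∧
      L.range ≤ L'.range ∧ v ∈ L'.range := by
  obtain ⟨F, hF, hF0, hFd, hFm⟩ := hv
  let Pl : (Fin (m + 1) → ℂ) →L[ℂ] ℂ := ContinuousLinearMap.proj (Fin.last m)
  let Pi : (Fin (m + 1) → ℂ) →L[ℂ] (Fin m → ℂ) :=
    ContinuousLinearMap.pi fun j => ContinuousLinearMap.proj j.castSucc
  let D := fderiv ℂ F (0, x0)
  have hFs : HasStrictFDerivAt F D (0, x0) := hF.hasStrictFDerivAt one_ne_zero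
  have hD0 : ∀ u : Pair n, D (0, u) = u := by
    have h1 : HasFDerivAt (fun x : Pair n => F ((0 : ℂ), x))
        (D.comp (ContinuousLinearMap.inr ℂ ℂ (Pair n))) x0 :=
      HasFDerivAt.comp x0 hFs.hasFDerivAt (ContinuousLinearMap.inr ℂ ℂ (Pair n)).hasFDerivAt
    have h2 : HasFDerivAt (fun x : Pair n => F ((0 : ℂ), x)) (ContinuousLinearMap.id ℂ (Pair n)) x0 :=
      (hasFDerivAt_id x0).congr_of_eventuallyEq hF0
    intro u
    exact congrArg (fun T : Pair n →L[ℂ] Pair n => T u) (h1.unique h2)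
  have hD1 : D (1, 0) = v := by
    have h1 : HasDerivAt (fun t : ℂ => F (t, x0)) (D (1, 0)) 0 :=
      HasFDerivAt.comp_hasDerivAt (0 : ℂ) hFs.hasFDerivAt
        ((hasDerivAt_id (0 : ℂ)).prodMk (hasDerivAt_const (0 : ℂ) x0))
    exact h1.unique hFd
  have hinner : HasStrictFDerivAt (fun τ => (Pl τ, Ψ (Pi τ))) (Pl.prod (L.comp Pi)) 0 :=
    Pl.hasStrictFDerivAt.prodMk
      (HasStrictFDerivAt.comp (g := Ψ) 0 (by rw [map_zero]; exact hd) Pi.hasStrictFDerivAt)
  have he0 : (Pl 0, Ψ (Pi 0)) = ((0 : ℂ), x0) := by rw [map_zero, map_zero, h0]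
  refine ⟨fun τ => F (Pl τ, Ψ (Pi τ)), D.comp (Pl.prod (L.comp Pi)), ?_, ?_, ?_, ?_, ?_⟩
  · exact HasStrictFDerivAt.comp (g := F) 0 (by rw [he0]; exact hFs) hinner
  · show F (Pl 0, Ψ (Pi 0)) = x0
    rw [he0]
    exact hF0.self_of_nhds
  · have ht : Tendsto (fun τ => (Pl τ, Ψ (Pi τ))) (𝓝 0) (𝓝 ((0 : ℂ), x0)) := by
      have := hinner.continuousAt.tendsto
      rwa [he0] at this
    have hp : Tendsto (fun τ => Pi τ) (𝓝 0) (𝓝 0) := by
      simpa using Pi.continuous.tendsto 0
    filter_upwards [ht.eventually hFm, hp.eventually hm] with τ h1 h2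
    exact h1 h2
  · rintro u ⟨τ, rfl⟩
    refine ⟨Fin.snoc τ 0, ?_⟩
    show D (Pl (Fin.snoc τ 0), L (Pi (Fin.snoc τ 0))) = L τ
    rw [show Pl (Fin.snoc τ (0 : ℂ)) = 0 by simp [Pl],
      show Pi (Fin.snoc τ (0 : ℂ)) = τ by ext j; simp [Pi], hD0]
  · refine ⟨Fin.snoc 0 1, ?_⟩
    show D (Pl (Fin.snoc 0 1), L (Pi (Fin.snoc 0 1))) = v
    rw [show Pl (Fin.snoc (0 : Fin m → ℂ) 1) = 1 by simp [Pl],
      show Pi (Fin.snoc (0 : Fin m → ℂ) (1 : ℂ)) = 0 by ext j; simp [Pi], map_zero, hD1]

theorem reach_finset (hS : IsOpen S) (hz : ∀ x ∈ S, SL1 x → Zd (Function.update (rest x) i x))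
    (hx0 : x0 ∈ S) (s : Finset (Pair n)) (hs : ∀ v ∈ s, IsVel i S rest x0 v) :
    ∃ (m : ℕ) (Ψ : (Fin m → ℂ) → Pair n) (L : (Fin m → ℂ) →L[ℂ] Pair n),
      HasStrictFDerivAt Ψ L 0 ∧ Ψ 0 = x0 ∧ (∀ᶠ τ in 𝓝 0, MovTo i S rest x0 (Ψ τ)) ∧
      Submodule.span ℂ (s : Set (Pair n)) ≤ L.range := by
  classical
  induction s using Finset.induction with
  | empty =>
    exact ⟨0, fun _ => x0, 0, hasStrictFDerivAt_const x0 0, rfl,
      Eventually.of_forall fun _ => movTo_self hS hz hx0, by simp⟩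
  | insert v s hvs ih =>
    obtain ⟨m, Ψ, L, hd, h0, hm, hr⟩ := ih fun w hw => hs w (Finset.mem_insert_of_mem hw)
    obtain ⟨Ψ', L', hd', h0', hm', hle, hv'⟩ :=
      reach_step hd h0 hm (hs v (Finset.mem_insert_self v s))
    refine ⟨m + 1, Ψ', L', hd', h0', hm', ?_⟩
    rw [Finset.coe_insert, Submodule.span_le, Set.insert_subset_iff]
    exact ⟨hv', fun w hw => hle (hr (Submodule.subset_span hw))⟩

/-- The twist velocities span the kernel of the differential of the commutator. -/
theorem mem_span_vel (hS : IsOpen S) (hrest : ContinuousOn rest S)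
    (hz : ∀ x ∈ S, SL1 x → Zd (Function.update (rest x) i x)) (hx0 : x0 ∈ S) (h1 : SL1 x0)
    (hG : G0 x0) {u : Pair n}
    (he : u.1 * x0.2 + x0.1 * u.2 = cm x0 * (u.2 * x0.1 + x0.2 * u.1))
    (ht1 : (x0.1.adjugate * u.1).trace = 0) (ht2 : (x0.2.adjugate * u.2).trace = 0) :
    u ∈ Submodule.span ℂ {v | IsVel i S rest x0 v} := by
  rcases Nat.eq_zero_or_pos n with hn | hn
  · subst hn
    rw [Subsingleton.elim u 0]
    exact Submodule.zero_mem _
  have hn' : (n : ℂ) ≠ 0 := by exact_mod_cast hn.ne'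
  by_contra hu
  obtain ⟨φ, hφu, hφ⟩ := Submodule.exists_dual_map_eq_bot_of_notMem hu inferInstance
  have hkill : ∀ v, IsVel i S rest x0 v → φ v = 0 := fun v hv => by
    have := Submodule.mem_map_of_mem (f := φ) (Submodule.subset_span (R := ℂ)
      (show v ∈ {v | IsVel i S rest x0 v} from hv))
    rwa [hφ, Submodule.mem_bot] at this
  apply hφu
  obtain ⟨P, b, hb, hT⟩ := hG
  obtain ⟨A, B⟩ := x0
  obtain ⟨hA, hB⟩ := h1
  simp only at hA hB hT hb he ht1 ht2
  have hP := isUnit_det_of_ne hb.1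
  have PP : P * P⁻¹ = 1 := Matrix.mul_nonsing_inv P hP
  have PP' : P⁻¹ * P = 1 := Matrix.nonsing_inv_mul P hP
  have cc : ∀ X : Mat n, P * (P⁻¹ * X) = X := fun X => by
    rw [← Matrix.mul_assoc, PP, Matrix.one_mul]
  have cc' : ∀ X : Mat n, P⁻¹ * (P * X) = X := fun X => by
    rw [← Matrix.mul_assoc, PP', Matrix.one_mul]
  have trc : ∀ X : Mat n, (P⁻¹ * X * P).trace = X.trace := fun X => by
    rw [Matrix.trace_mul_comm, cc]
  -- the functional in eigen coordinates
  let f1 : Mat n →ₗ[ℂ] ℂ :=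
    { toFun := fun X => φ (A * (P * X * P⁻¹), 0)
      map_add' := fun X Y => by
        rw [← map_add]; congr 1
        simp [Matrix.mul_add, Matrix.add_mul]
      map_smul' := fun t X => by
        rw [RingHom.id_apply, ← map_smul]; congr 1
        simp }
  let f2 : Mat n →ₗ[ℂ] ℂ :=
    { toFun := fun X => φ (0, B * (P * X * P⁻¹))
      map_add' := fun X Y => by
        rw [← map_add]; congr 1
        simp [Matrix.mul_add, Matrix.add_mul]
      map_smul' := fun t X => by
        rw [RingHom.id_apply, ← map_smul]; congr 1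
        simp }
  obtain ⟨Pm, hPm⟩ : ∃ Pm : Mat n, ∀ X, f1 X = (Pm * X).trace := ⟨_, functional_trace f1⟩
  obtain ⟨Qm, hQm⟩ : ∃ Qm : Mat n, ∀ X, f2 X = (Qm * X).trace := ⟨_, functional_trace f2⟩
  let cX : Pair n → Mat n := fun v => P⁻¹ * (A.adjugate * v.1) * P
  let cY : Pair n → Mat n := fun v => P⁻¹ * (B.adjugate * v.2) * P
  have hsplit : ∀ v, φ v = (Pm * cX v).trace + (Qm * cY v).trace := by
    intro v
    rw [← hPm, ← hQm]
    show φ v = φ (A * (P * cX v * P⁻¹), 0) + φ (0, B * (P * cY v * P⁻¹))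
    have e1 : A * (P * cX v * P⁻¹) = v.1 := by
      simp only [cX, Matrix.mul_assoc, PP, Matrix.mul_one, cc]
      rw [← Matrix.mul_assoc, mul_adj_one hA, Matrix.one_mul]
    have e2 : B * (P * cY v * P⁻¹) = v.2 := by
      simp only [cY, Matrix.mul_assoc, PP, Matrix.mul_one, cc]
      rw [← Matrix.mul_assoc, mul_adj_one hB, Matrix.one_mul]
    rw [e1, e2, ← map_add]
    simp
  have hB' : B = P * diagonal b * P⁻¹ := hb.2.2
  have hbp : ∏ j, b j = 1 := by rw [← hb.det]; exact hB
  have hb0 : ∀ j, b j ≠ 0 := fun j hj => one_ne_zero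
    (hbp.symm.trans (Finset.prod_eq_zero (Finset.mem_univ j) hj))
  -- diagonal velocities
  have hdiag : ∀ j, Pm j j = Pm.trace / n := by
    intro j
    classical
    let p := Lagrange.basis Finset.univ b j
    have hp : (fun k => p.eval (b k)) = Pi.single j (1 : ℂ) := by
      funext k
      by_cases hk : k = j
      · subst hk
        rw [Pi.single_eq_same]
        exact Lagrange.eval_basis_self hb.2.1.injOn (Finset.mem_univ _)
      · rw [Pi.single_eq_of_ne hk]
        exact Lagrange.eval_basis_of_ne (Ne.symm hk) (Finset.mem_univ _)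
    have hvel := hkill _ (isVel_diag (i := i) (x0 := (A, B)) hS hrest p)
    have haev : Polynomial.aeval B p = P * diagonal (Pi.single j (1 : ℂ)) * P⁻¹ := by
      rw [hB', aeval_conj hb.1, hp]
    simp only [haev] at hvel
    rw [hsplit] at hvel
    simp only [cX, cY] at hvel
    rw [← Matrix.mul_assoc A.adjugate, adj_mul_one hA, Matrix.one_mul] at hvel
    have htr : (P * diagonal (Pi.single j (1 : ℂ)) * P⁻¹).trace = 1 := by
      rw [Matrix.trace_mul_comm, cc', Matrix.trace_diagonal]; simp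
    rw [htr] at hvel
    simp only [Matrix.mul_sub, Matrix.sub_mul, Matrix.mul_smul, Matrix.smul_mul, Matrix.mul_assoc,
      cc', PP', Matrix.mul_one, one_smul, Matrix.mul_zero, Matrix.zero_mul,
      Matrix.trace_sub, Matrix.trace_smul, Matrix.trace_zero, add_zero, smul_eq_mul] at hvel
    have hd : (Pm * diagonal (Pi.single j (1 : ℂ))).trace = Pm j j := by
      simp [Matrix.trace, Matrix.mul_diagonal, Pi.single_apply]
    rw [hd] at hvel
    rw [eq_div_iff hn']
    linear_combination hvel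
  let P0 : Mat n := Pm - (Pm.trace / n) • 1
  let Q0 : Mat n := Qm - (Qm.trace / n) • 1
  have hP0 : ∀ j, P0 j j = 0 := fun j => by simp [P0, hdiag j]
  have hQ0 : Q0.trace = 0 := by simp [Q0, hn']
  have hsplit0 : ∀ v, (cX v).trace = 0 → (cY v).trace = 0 →
      φ v = (P0 * cX v).trace + (Q0 * cY v).trace := by
    intro v hx hy
    rw [hsplit]
    simp [P0, Q0, Matrix.sub_mul, hx, hy]
  let A' : Mat n := P⁻¹ * A * P
  have hA' : A'.det = 1 := by
    simp only [A', Matrix.det_mul]
    rw [hA, mul_one, ← Matrix.det_mul, PP', Matrix.det_one]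
  have hAu : A'⁻¹ = P⁻¹ * A.adjugate * P := by
    apply Matrix.inv_eq_right_inv
    simp only [A', Matrix.mul_assoc, cc]
    rw [← Matrix.mul_assoc A, mul_adj_one hA, Matrix.one_mul, PP']
  have key : ∀ d : Fin n → ℂ, (∀ j, d j ≠ 0) → ∀ k : ℕ, k ≤ 2 →
      ((A' * diagonal d) ^ (k + 1) * (Q0 - (Matrix.of fun j l => P0 j l * b l / (b j - b l)) +
        diagonal (fun j => (d j)⁻¹) * (Matrix.of fun j l => P0 j l * b l / (b j - b l)) *
          diagonal d)).trace = 0 := by
    intro d hd k _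
    classical
    set K : Mat n := Matrix.of fun j l => P0 j l * b l / (b j - b l) with hK
    set R : Mat n := Q0 - K + diagonal (fun j => (d j)⁻¹) * K * diagonal d with hR
    have hKd : ∀ j, K j j = 0 := fun j => by simp [hK]
    have hRt : R.trace = 0 := by
      have h1 : K.trace = 0 := by simp [Matrix.trace, hKd]
      have h2 : (diagonal (fun j => (d j)⁻¹) * K * diagonal d).trace = 0 := by
        simp [Matrix.trace, Matrix.mul_diagonal, Matrix.diagonal_mul, hKd]
      simp [hR, hQ0, h1, h2]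
    let e : Fin n → ℂ := fun j => Complex.exp (Complex.log (d j) / n)
    have hen : ∀ j, e j ^ n = d j := fun j => by
      simp only [e]
      rw [← Complex.exp_nat_mul, mul_div_cancel₀ _ hn', Complex.exp_log (hd j)]
    let q := Lagrange.interpolate Finset.univ b e
    have hqe : (fun j => q.eval (b j)) = e := funext fun j =>
      Lagrange.eval_interpolate_at_node e hb.2.1.injOn (Finset.mem_univ j)
    have hqB : Polynomial.aeval B q = P * diagonal e * P⁻¹ := by
      rw [hB', aeval_conj hb.1, hqe]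
    have he0 : ∀ j, e j ≠ 0 := fun j => Complex.exp_ne_zero _
    have hep : (∏ j, e j) ≠ 0 := Finset.prod_ne_zero_iff.2 fun j _ => he0 j
    have hqd : (Polynomial.aeval B q).det ≠ 0 := by
      rw [hqB, Matrix.det_mul, Matrix.det_mul, mul_comm P.det, mul_assoc, ← Matrix.det_mul, PP,
        Matrix.det_one, mul_one, det_diagonal]
      exact hep
    set c : ℂ := (∏ j, e j)⁻¹ with hc
    have hc0 : c ≠ 0 := inv_ne_zero hep
    have hZ : zq q B = P * diagonal (fun j => c * d j) * P⁻¹ := by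
      rw [zq, hqB, zN_smul_diag P hb.1]
      simp only [hen, hc]
    have hZd : (zq q B).det = 1 := det_zN hqd
    have hG0 : (zq q B).adjugate = P * diagonal (fun j => (c * d j)⁻¹) * P⁻¹ := by
      refine adj_eq_of_mul hZd ?_
      rw [hZ]
      simp only [Matrix.mul_assoc, cc']
      rw [← Matrix.mul_assoc (diagonal _) (diagonal _), diagonal_mul_diagonal,
        show (fun i => c * d i * (c * d i)⁻¹) = fun _ => (1 : ℂ) from
          funext fun i => mul_inv_cancel₀ (mul_ne_zero hc0 (hd i)), diagonal_one, Matrix.one_mul, PP]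
    have hv := isVel_word (i := i) (x0 := (A, B)) hS hrest q (Polynomial.X ^ (k + 1)) hqd
    simp only [map_pow, Polynomial.aeval_X] at hv
    set M : Mat n := (A * zq q B) ^ (k + 1) with hM
    set zd : Mat n := (n : ℂ) • M - M.trace • (1 : Mat n) with hzd
    set G1 : Mat n := fderiv ℂ (fun K => (zq q K).adjugate) B (B * zd) with hG1
    have hM' : P⁻¹ * M * P = c ^ (k + 1) • (A' * diagonal d) ^ (k + 1) := by
      have : ∀ m : ℕ, P⁻¹ * (A * zq q B) ^ m * P = c ^ m • (A' * diagonal d) ^ m := by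
        intro m
        induction m with
        | zero => simp [PP']
        | succ m ih =>
          have h1 : P⁻¹ * (A * zq q B) * P = c • (A' * diagonal d) := by
            rw [hZ, show (fun j => c * d j) = c • d from rfl, Matrix.diagonal_smul]
            simp only [A', Matrix.mul_smul, Matrix.smul_mul, Matrix.mul_assoc, PP', Matrix.mul_one]
          calc P⁻¹ * (A * zq q B) ^ (m + 1) * P
              = (P⁻¹ * (A * zq q B) ^ m * P) * (P⁻¹ * (A * zq q B) * P) := by
                simp only [pow_succ, Matrix.mul_assoc, cc]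
            _ = _ := by
                rw [ih, h1, Matrix.smul_mul, Matrix.mul_smul, smul_smul, ← pow_succ, ← pow_succ]
      exact this (k + 1)
    -- differentiate the commutation of G with its argument
    have hGd : DifferentiableAt ℂ (fun K : Mat n => (zq q K).adjugate) B := by
      have h1 : ContDiffAt ℂ 1 (zq q) B :=
        ContDiffAt.comp B (contDiffAt_zN hqd) (contDiff_aeval q).contDiffAt
      exact (ContDiffAt.comp (g := fun Q : Mat n => Q.adjugate) B contDiff_adjugate.contDiffAt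
        h1).differentiableAt one_ne_zero
    have hcomm : ∀ δ : Mat n, (zq q B).adjugate * δ +
        fderiv ℂ (fun K => (zq q K).adjugate) B δ * B =
          B * fderiv ℂ (fun K => (zq q K).adjugate) B δ + δ * (zq q B).adjugate := by
      intro δ
      have h1 := hGd.hasFDerivAt.fun_mul' (hasFDerivAt_id (𝕜 := ℂ) B)
      have h2 := (hasFDerivAt_id (𝕜 := ℂ) B).fun_mul' hGd.hasFDerivAt
      have hev : (fun K : Mat n => K * (zq q K).adjugate) =ᶠ[𝓝 B]
          fun K => (zq q K).adjugate * K := by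
        filter_upwards [(contDiff_aeval q).continuous.matrix_det.continuousAt.eventually_ne hqd]
          with K hK
        have hd1 : (zq q K).det = 1 := det_zN hK
        have hcom : K * zq q K = zq q K * K := (commute_zN (commute_aeval q K)).eq
        calc K * (zq q K).adjugate
            = (zq q K).adjugate * (zq q K * K) * (zq q K).adjugate := by
              rw [← Matrix.mul_assoc _ (zq q K) K, adj_mul_one hd1, Matrix.one_mul]
          _ = _ := by
              rw [← hcom, Matrix.mul_assoc, Matrix.mul_assoc K, mul_adj_one hd1, Matrix.mul_one]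
      have h3 := congrArg (fun T : Mat n →L[ℂ] Mat n => T δ) (h1.unique (h2.congr_of_eventuallyEq hev.symm))
      exact h3
    set v : Pair n := (A * zq q B * G1, B * zd) with hvdef
    have htr := isVel_trace hS hz hx0 ⟨hA, hB⟩ hv
    simp only at htr
    have hcy : cY v = P⁻¹ * zd * P := by
      simp only [cY, hvdef]
      rw [← Matrix.mul_assoc B.adjugate, adj_mul_one hB, Matrix.one_mul]
    have hcx : cX v = diagonal (fun j => c * d j) * (P⁻¹ * G1 * P) := by
      simp only [cX, hvdef, Matrix.mul_assoc]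
      rw [← Matrix.mul_assoc A.adjugate A, adj_mul_one hA, Matrix.one_mul, hZ]
      simp only [Matrix.mul_assoc, cc']
    have hφ0 := hkill v hv
    rw [hsplit0 v (by simp only [cX]; rw [trc]; exact htr.1)
      (by simp only [cY]; rw [trc]; exact htr.2), hcx, hcy] at hφ0
    set z' : Mat n := P⁻¹ * zd * P with hz'
    set G' : Mat n := P⁻¹ * G1 * P with hG'
    have hcoord : ∀ j l, (c * d j)⁻¹ * (b j * z' j l) + G' j l * b l =
        b j * G' j l + b j * z' j l * (c * d l)⁻¹ := by
      intro j l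
      have h3 := congrArg (fun T => P⁻¹ * T * P) (hcomm (B * zd))
      simp only [← hG1, hG0] at h3
      have e1 : P⁻¹ * (P * diagonal (fun j => (c * d j)⁻¹) * P⁻¹ * (B * zd) + G1 * B) * P =
          diagonal (fun j => (c * d j)⁻¹) * (diagonal b * z') + G' * diagonal b := by
        simp only [hB', hz', hG', Matrix.mul_add, Matrix.add_mul, Matrix.mul_assoc, cc', PP',
          Matrix.mul_one]
      have e2 : P⁻¹ * (B * G1 + B * zd * (P * diagonal (fun j => (c * d j)⁻¹) * P⁻¹)) * P =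
          diagonal b * G' + diagonal b * z' * diagonal (fun j => (c * d j)⁻¹) := by
        simp only [hB', hz', hG', Matrix.mul_add, Matrix.add_mul, Matrix.mul_assoc, cc', PP',
          Matrix.mul_one]
      rw [e1, e2] at h3
      have := congrFun (congrFun h3 j) l
      simpa only [Matrix.add_apply, Matrix.mul_diagonal, Matrix.diagonal_mul] using this
    have hmid : (P0 * (diagonal (fun j => c * d j) * G')).trace =
        ((diagonal (fun j => (d j)⁻¹) * K * diagonal d - K) * z').trace := by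
      simp only [Matrix.trace, Matrix.diag, Matrix.mul_apply (M := P0),
        Matrix.mul_apply (M := _ - K)]
      refine Finset.sum_congr rfl fun j _ => Finset.sum_congr rfl fun l _ => ?_
      rw [Matrix.diagonal_mul, Matrix.sub_apply, Matrix.mul_diagonal, Matrix.diagonal_mul]
      by_cases hjl : j = l
      · subst hjl; simp [hP0, hKd]
      · have hbb : b j - b l ≠ 0 := sub_ne_zero.2 (hb.2.1.ne hjl)
        simp only [hK, Matrix.of_apply]
        have h4 := hcoord l j
        field_simp [hc0, hd j, hd l, hbb] at h4 ⊢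
        linear_combination P0 j l * h4
    rw [hmid, ← Matrix.trace_add, ← Matrix.add_mul,
      show diagonal (fun j => (d j)⁻¹) * K * diagonal d - K + Q0 = R by rw [hR]; abel] at hφ0
    have hz'' : z' = (n : ℂ) • (c ^ (k + 1) • (A' * diagonal d) ^ (k + 1)) - M.trace • 1 := by
      simp only [hz', hzd, Matrix.mul_sub, Matrix.sub_mul, Matrix.mul_smul, Matrix.smul_mul,
        Matrix.mul_one, PP']
      rw [← hM']
    rw [hz'', Matrix.mul_sub, Matrix.trace_sub, Matrix.mul_smul, Matrix.mul_smul, Matrix.mul_smul,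
      Matrix.mul_one, Matrix.trace_smul, Matrix.trace_smul, Matrix.trace_smul, hRt] at hφ0
    rw [Matrix.trace_mul_comm]
    simpa [hn', hc0] using hφ0
  obtain ⟨H, hQH, hPH⟩ := annihilator_eq hT (by rw [hA']; exact one_ne_zero) hb.2.1 hb0 hP0 key
  have hXt : (cX u).trace = 0 := by simp only [cX]; rw [trc]; exact ht1
  have hYt : (cY u).trace = 0 := by simp only [cY]; rw [trc]; exact ht2
  rw [hsplit0 u hXt hYt]
  have heq : B.adjugate * (A.adjugate * u.1) * B + B.adjugate * u.2 =
      A.adjugate * (B.adjugate * u.2) * A + A.adjugate * u.1 := by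
    have hC : B.adjugate * (A.adjugate * cm (A, B)) = A.adjugate * B.adjugate := by
      simp only [cm, Matrix.mul_assoc]
      rw [← Matrix.mul_assoc A.adjugate A, adj_mul_one hA, Matrix.one_mul,
        ← Matrix.mul_assoc B.adjugate B, adj_mul_one hB, Matrix.one_mul]
    have h := congrArg (fun T => B.adjugate * (A.adjugate * T)) he
    simp only [← Matrix.mul_assoc] at h hC
    rw [hC] at h
    simp only [Matrix.mul_add, Matrix.mul_assoc] at h
    rw [← Matrix.mul_assoc A.adjugate A u.2, adj_mul_one hA, Matrix.one_mul,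
      ← Matrix.mul_assoc B.adjugate B u.1, adj_mul_one hB, Matrix.one_mul] at h
    simpa only [Matrix.mul_assoc] using h
  have heq' : diagonal (fun j => (b j)⁻¹) * cX u * diagonal b + cY u =
      A'⁻¹ * cY u * A' + cX u := by
    have h := congrArg (fun T => P⁻¹ * T * P) heq
    have hBi : P⁻¹ * B.adjugate * P = diagonal (fun j => (b j)⁻¹) := by
      have hBa : B.adjugate = P * diagonal (fun j => (b j)⁻¹) * P⁻¹ := by
        refine adj_eq_of_mul hB ?_
        rw [hB']
        simp only [Matrix.mul_assoc, cc']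
        rw [← Matrix.mul_assoc (diagonal _) (diagonal _), diagonal_mul_diagonal]
        simp [hb0, PP]
      rw [hBa]
      simp only [Matrix.mul_assoc, cc', PP', Matrix.mul_one]
    rw [← hBi, hAu, ← hb.conj]
    simpa only [cX, cY, A', Matrix.mul_add, Matrix.add_mul, Matrix.mul_assoc, cc] using h
  have e3 : ∀ U V X : Mat n, (U * H * V * X).trace = (H * (V * X * U)).trace := by
    intro U V X
    rw [Matrix.mul_assoc U H, Matrix.mul_assoc U, Matrix.trace_mul_comm]
    simp only [Matrix.mul_assoc]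
  rw [hPH, hQH, Matrix.sub_mul, Matrix.sub_mul, Matrix.trace_sub, Matrix.trace_sub, e3, e3,
    sub_add_sub_comm, ← Matrix.trace_add, ← Matrix.trace_add, ← Matrix.mul_add, ← Matrix.mul_add,
    heq', add_comm (A'⁻¹ * cY u * A'), sub_self]

/-- Points of the fibre near a generic point are in the closure. -/
theorem local_move (hS : IsOpen S) (hrest : ContinuousOn rest S)
    (hz : ∀ x ∈ S, SL1 x → Zd (Function.update (rest x) i x)) (hx0 : x0 ∈ S) (h1 : SL1 x0)
    (hG : G0 x0) :
    ∀ᶠ y in 𝓝 x0, SL1 y → cm y = cm x0 → Zd (Function.update (rest x0) i y) := by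
  classical
  obtain ⟨b, hb, hspan, hli⟩ := exists_linearIndependent ℂ {v | IsVel i S rest x0 v}
  have hfin : b.Finite := hli.setFinite
  obtain ⟨m, Ψ, L, hd, h0, hm, hr⟩ := reach_finset hS hz hx0 hfin.toFinset
    (fun v hv => hb (hfin.mem_toFinset.1 hv))
  rw [Set.Finite.coe_toFinset, hspan] at hr
  let N : Pair n → Mat n × ℂ × ℂ :=
    fun x => (x.1 * x.2 - cm x0 * (x.2 * x.1), x.1.det, x.2.det)
  have hN : ContDiffAt ℂ 1 N x0 := by
    refine ContDiffAt.prodMk ?_ (ContDiffAt.prodMk ?_ ?_)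
    · exact ((contDiff_fst.mul contDiff_snd).sub
        (contDiff_const.mul (contDiff_snd.mul contDiff_fst))).contDiffAt
    · exact (contDiff_det.comp contDiff_fst).contDiffAt
    · exact (contDiff_det.comp contDiff_snd).contDiffAt
  have hNs : HasStrictFDerivAt N (fderiv ℂ N x0) x0 := hN.hasStrictFDerivAt one_ne_zero
  have hNval : ∀ u : Pair n, fderiv ℂ N x0 u = (u.1 * x0.2 + x0.1 * u.2 -
      cm x0 * (u.2 * x0.1 + x0.2 * u.1), (x0.1.adjugate * u.1).trace,
      (x0.2.adjugate * u.2).trace) := by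
    intro u
    have ha : HasDerivAt (fun t : ℂ => x0.1 + t • u.1) u.1 0 :=
      HasDerivAt.const_add _ (by simpa using (hasDerivAt_id (0 : ℂ)).smul_const u.1)
    have hb' : HasDerivAt (fun t : ℂ => x0.2 + t • u.2) u.2 0 :=
      HasDerivAt.const_add _ (by simpa using (hasDerivAt_id (0 : ℂ)).smul_const u.2)
    have hline : HasDerivAt (fun t : ℂ => N (x0 + t • u)) (fderiv ℂ N x0 u) 0 :=
      HasFDerivAt.comp_hasDerivAt_of_eq (0 : ℂ) hNs.hasFDerivAt (ha.prodMk hb') (by simp)
    have hm1 : HasDerivAt (fun t : ℂ => (x0.1 + t • u.1) * (x0.2 + t • u.2) -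
        cm x0 * ((x0.2 + t • u.2) * (x0.1 + t • u.1)))
        (u.1 * x0.2 + x0.1 * u.2 - cm x0 * (u.2 * x0.1 + x0.2 * u.1)) 0 :=
      ((ha.fun_mul hb').fun_sub ((hb'.fun_mul ha).const_mul (cm x0))).congr_deriv (by simp)
    have hd1 : HasDerivAt (fun t : ℂ => (x0.1 + t • u.1).det) ((x0.1.adjugate * u.1).trace) 0 := by
      rw [← fderiv_det_apply h1.1]
      exact HasFDerivAt.comp_hasDerivAt_of_eq (0 : ℂ)
        ((contDiff_det.differentiable (by norm_num)) x0.1).hasFDerivAt ha (by simp)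
    have hd2 : HasDerivAt (fun t : ℂ => (x0.2 + t • u.2).det) ((x0.2.adjugate * u.2).trace) 0 := by
      rw [← fderiv_det_apply h1.2]
      exact HasFDerivAt.comp_hasDerivAt_of_eq (0 : ℂ)
        ((contDiff_det.differentiable (by norm_num)) x0.2).hasFDerivAt hb' (by simp)
    exact hline.unique (hm1.prodMk (hd1.prodMk hd2))
  have hker : (fderiv ℂ N x0).ker ≤ L.range := by
    intro u hu
    have h := hNval u
    have hz0 : fderiv ℂ N x0 u = 0 := LinearMap.mem_ker.1 hu
    rw [hz0] at h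
    have h1' := (Prod.ext_iff.1 h.symm).1
    have h2 := (Prod.ext_iff.1 (Prod.ext_iff.1 h.symm).2)
    exact hr (mem_span_vel hS hrest hz hx0 h1 hG (sub_eq_zero.1 h1') h2.1 h2.2)
  obtain ⟨K, hK⟩ := Submodule.exists_isCompl L.range
  let ι : K →L[ℂ] Pair n := K.subtypeL
  have hinj : ((fderiv ℂ N x0).comp ι).toLinearMap.ker = ⊥ := by
    rw [Submodule.eq_bot_iff]
    rintro ⟨c, hc⟩ hc0
    have : c ∈ L.range ⊓ K := ⟨hker hc0, hc⟩
    rw [hK.inf_eq_bot, Submodule.mem_bot] at this
    exact Subtype.ext this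
  obtain ⟨κ, hκ0, hκ⟩ := LinearMap.exists_antilipschitzWith _ hinj
  let Λ : (Fin m → ℂ) × K → Pair n := fun p => Ψ p.1 + ι p.2
  have hΛ : HasStrictFDerivAt Λ (L.comp (ContinuousLinearMap.fst ℂ _ _) +
      ι.comp (ContinuousLinearMap.snd ℂ _ _)) 0 :=
    (HasStrictFDerivAt.comp (g := Ψ) (0 : (Fin m → ℂ) × K) hd hasStrictFDerivAt_fst).fun_add
      (HasStrictFDerivAt.comp (g := fun c => ι c) (0 : (Fin m → ℂ) × K) ι.hasStrictFDerivAt
        hasStrictFDerivAt_snd)
  have hmap := hΛ.map_nhds_eq_of_surj (by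
    rw [eq_top_iff]
    intro u _
    have : u ∈ L.range ⊔ K := by rw [hK.sup_eq_top]; trivial
    obtain ⟨a, ⟨τ, rfl⟩, c, hc, rfl⟩ := Submodule.mem_sup.1 this
    exact ⟨(τ, ⟨c, hc⟩), rfl⟩)
  have hΛ0 : Λ 0 = x0 := by simp [Λ, h0]
  rw [hΛ0] at hmap
  have hlo := hasStrictFDerivAt_iff_isLittleO.1 hNs
  have hε : ∀ᶠ p in 𝓝 (x0, x0), ‖N p.1 - N p.2 - fderiv ℂ N x0 (p.1 - p.2)‖ ≤
      (2 * (κ : ℝ))⁻¹ * ‖p.1 - p.2‖ := hlo.def (by positivity)
  have hgood : ∀ᶠ p : (Fin m → ℂ) × K in 𝓝 0, SL1 (Λ p) → cm (Λ p) = cm x0 →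
      Zd (Function.update (rest x0) i (Λ p)) := by
    have ht1 : Tendsto (fun p : (Fin m → ℂ) × K => (Λ p, Ψ p.1)) (𝓝 0) (𝓝 (x0, x0)) := by
      have := (hΛ.continuousAt.prodMk
        (ContinuousAt.comp (g := Ψ) (x := (0 : (Fin m → ℂ) × K)) hd.continuousAt
          continuous_fst.continuousAt)).tendsto
      simpa [hΛ0, h0] using this
    have ht2 : Tendsto (fun p : (Fin m → ℂ) × K => p.1) (𝓝 0) (𝓝 0) :=
      continuous_fst.tendsto _
    filter_upwards [ht1.eventually hε, ht2.eventually hm] with p hp hmv hsl hcm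
    have hy := hmv.sl1 h1
    have hN1 : ∀ z : Pair n, SL1 z → cm z = cm x0 → N z = (0, 1, 1) := by
      intro z hz1 hz2
      have h : z.1 * z.2 = cm z * (z.2 * z.1) := by
        simp only [cm, Matrix.mul_assoc]
        rw [← Matrix.mul_assoc z.2.adjugate z.2, adj_mul_one hz1.2, Matrix.one_mul,
          adj_mul_one hz1.1, Matrix.mul_one]
      simp only [N, hz1.1, hz1.2, ← hz2]
      rw [← h, sub_self]
    have hdiff : Λ p - Ψ p.1 = ι p.2 := by simp [Λ]
    simp only [hN1 _ hsl hcm, hN1 _ hy.1 hy.2.1, hdiff, sub_self, zero_sub, norm_neg] at hp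
    have hanti := hκ.le_mul_dist p.2 0
    simp only [dist_zero_right, map_zero] at hanti
    have hnorm : ‖p.2‖ = ‖ι p.2‖ := rfl
    have hc0 : p.2 = 0 := by
      rw [← norm_eq_zero]
      have h3 : ‖p.2‖ ≤ (κ : ℝ) * ((2 * (κ : ℝ))⁻¹ * ‖p.2‖) :=
        hanti.trans (mul_le_mul_of_nonneg_left (by rw [hnorm]; exact hp) κ.coe_nonneg)
      have h4 : (κ : ℝ) * ((2 * (κ : ℝ))⁻¹ * ‖p.2‖) = ‖p.2‖ / 2 := by
        have : (κ : ℝ) ≠ 0 := by positivity
        field_simp
      rw [h4] at h3
      linarith [norm_nonneg p.2]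
    have : Λ p = Ψ p.1 := by simp [Λ, hc0]
    rw [this]
    exact hy.2.2
  have : ∀ᶠ y in Filter.map Λ (𝓝 0), SL1 y → cm y = cm x0 →
      Zd (Function.update (rest x0) i y) := eventually_map.2 hgood
  exact this.filter_mono hmap.ge

end P002Surf
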