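import Mathlib

/-!
Functions on complex matrices that are polynomial along every affine line, and a
density tool for the special linear group.
-/

namespace P002Surf

open Matrix Polynomial Filter Topology

open scoped Matrix.Norms.Operator

variable {n : ℕ}

abbrev Mat (n : ℕ) := Matrix (Fin n) (Fin n) ℂ

/-- `F` is polynomial along every line. -/
def PolyLine (F : Mat n → ℂ) : Prop :=
  ∀ A B : Mat n, ∃ r : ℂ[X], ∀ s : ℂ, r.eval s = F (A + s • B)

/-- A matrix valued function which is polynomial along every line. -/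
def PolyLineM {m k : Type} (G : Mat n → Matrix m k ℂ) : Prop :=
  ∀ A B : Mat n, ∃ R : Matrix m k ℂ[X], ∀ s : ℂ, R.map (Polynomial.eval s) = G (A + s • B)

theorem polyLineM_id : PolyLineM (fun A : Mat n => A) := by
  intro A B
  refine ⟨Matrix.of fun i j => C (A i j) + Polynomial.X * C (B i j), fun s => ?_⟩
  ext i j
  simp only [Matrix.map_apply, Matrix.of_apply, Matrix.add_apply, Matrix.smul_apply, smul_eq_mul,
    eval_add, eval_mul, eval_C, eval_X]

theorem polyLineM_const {m k : Type} (K : Matrix m k ℂ) : PolyLineM (fun _ : Mat n => K) :=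
  fun _ _ => ⟨K.map C, fun s => by ext i j; simp [Matrix.map_apply]⟩

theorem PolyLineM.entry {m k : Type} {G : Mat n → Matrix m k ℂ} (hG : PolyLineM G) (i : m) (j : k) :
    PolyLine (fun A => G A i j) := by
  intro A B
  obtain ⟨R, hR⟩ := hG A B
  exact ⟨R i j, fun s => by simp only [← hR s]; rfl⟩

theorem PolyLineM.mul {m k l : Type} [Fintype k] {G : Mat n → Matrix m k ℂ}
    {H : Mat n → Matrix k l ℂ} (hG : PolyLineM G) (hH : PolyLineM H) :
    PolyLineM (fun A => G A * H A) := by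
  intro A B
  obtain ⟨R, hR⟩ := hG A B
  obtain ⟨S, hS⟩ := hH A B
  refine ⟨R * S, fun s => ?_⟩
  simp only [← hR s, ← hS s]
  exact Matrix.map_mul (f := Polynomial.evalRingHom s)

theorem PolyLineM.submatrix {m k m' k' : Type} {G : Mat n → Matrix m k ℂ} (hG : PolyLineM G)
    (f : m' → m) (g : k' → k) : PolyLineM (fun A => (G A).submatrix f g) := by
  intro A B
  obtain ⟨R, hR⟩ := hG A B
  exact ⟨R.submatrix f g, fun s => by simp only [← hR s]; ext i j; rfl⟩

theorem PolyLineM.adjugate {m : Type} [Fintype m] [DecidableEq m] {G : Mat n → Matrix m m ℂ}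
    (hG : PolyLineM G) : PolyLineM (fun A => (G A).adjugate) := by
  intro A B
  obtain ⟨R, hR⟩ := hG A B
  refine ⟨R.adjugate, fun s => ?_⟩
  simp only [← hR s]
  exact (Polynomial.evalRingHom s).map_adjugate R

theorem PolyLineM.det {m : Type} [Fintype m] [DecidableEq m] {G : Mat n → Matrix m m ℂ}
    (hG : PolyLineM G) : PolyLine (fun A => (G A).det) := by
  intro A B
  obtain ⟨R, hR⟩ := hG A B
  exact ⟨R.det, fun s => by simp only [← hR s]; exact (Polynomial.evalRingHom s).map_det R⟩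

theorem PolyLine.mul {F G : Mat n → ℂ} (hF : PolyLine F) (hG : PolyLine G) :
    PolyLine (fun A => F A * G A) := by
  intro A B
  obtain ⟨r, hr⟩ := hF A B
  obtain ⟨q, hq⟩ := hG A B
  exact ⟨r * q, fun s => by rw [Polynomial.eval_mul, hr, hq]⟩

theorem PolyLine.sub {F G : Mat n → ℂ} (hF : PolyLine F) (hG : PolyLine G) :
    PolyLine (fun A => F A - G A) := by
  intro A B
  obtain ⟨r, hr⟩ := hF A B
  obtain ⟨q, hq⟩ := hG A B
  exact ⟨r - q, fun s => by rw [Polynomial.eval_sub, hr, hq]⟩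

theorem polyLine_prod {ι : Type} (S : Finset ι) {F : ι → Mat n → ℂ}
    (hF : ∀ i ∈ S, PolyLine (F i)) : PolyLine (fun A => ∏ i ∈ S, F i A) := by
  intro A B
  classical
  choose r hr using fun i (hi : i ∈ S) => hF i hi A B
  refine ⟨∏ i ∈ S.attach, r i.1 i.2, fun s => ?_⟩
  simp only [Polynomial.eval_prod]
  rw [← Finset.prod_attach S (fun i => F i (A + s • B))]
  exact Finset.prod_congr rfl fun i _ => hr i.1 i.2 s

/-- Density in `SL` of a scale invariant property implied by the non-vanishing of a polynomial. -/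
theorem dense_SL {F : Mat n → ℂ} (hF : PolyLine F) {Q : Mat n → Prop}
    (hQ : ∀ A, F A ≠ 0 → A.det ≠ 0 → ∀ c : ℂ, c ≠ 0 → Q (c • A))
    (hne : ∃ A1, F A1 ≠ 0) (A : Mat n) (hA : A.det = 1) {U : Set (Mat n)} (hU : U ∈ 𝓝 A) :
    ∃ A' ∈ U, A'.det = 1 ∧ Q A' := by
  obtain ⟨A1, hA1⟩ := hne
  obtain ⟨r, hr⟩ := hF A (A1 - A)
  obtain ⟨d, hd⟩ := (PolyLineM.det polyLineM_id) A (A1 - A)
  have hr0 : r ≠ 0 := fun h => hA1 (by have := hr 1; rw [h] at this; simpa using this.symm)
  have hd0 : d ≠ 0 := fun h => by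
    have := hd 0; rw [h] at this; simp [hA] at this
  let c : ℂ → ℂ := fun s => Complex.exp (-(Complex.log ((A + s • (A1 - A)).det)) / n)
  have hc0 : c 0 = 1 := by simp [c, hA]
  have hcont : ContinuousAt (fun s => c s • (A + s • (A1 - A))) 0 := by
    have h1 : ContinuousAt (fun s : ℂ => (A + s • (A1 - A)).det) 0 := by fun_prop
    have h2 : ContinuousAt Complex.log ((fun s : ℂ => (A + s • (A1 - A)).det) 0) := by
      apply continuousAt_clog
      simp [hA, Complex.slitPlane]
    have h3 : ContinuousAt (fun s : ℂ => Complex.log ((A + s • (A1 - A)).det)) 0 :=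
      ContinuousAt.comp_of_eq (g := Complex.log) (continuousAt_clog (by simp [hA, Complex.slitPlane])) h1 rfl
    have h4 : ContinuousAt c 0 := ((h3.neg).div_const _).cexp
    exact h4.smul (by fun_prop)
  have hev : ∀ᶠ s in 𝓝 (0 : ℂ), c s • (A + s • (A1 - A)) ∈ U := by
    apply hcont.preimage_mem_nhds
    simpa [hc0] using hU
  have hfin : ∀ᶠ s in 𝓝[≠] (0 : ℂ), r.eval s ≠ 0 ∧ d.eval s ≠ 0 := by
    have hf : ({s | r.IsRoot s} ∪ {s | d.IsRoot s}).Finite :=
      (Polynomial.finite_setOfPred_isRoot hr0).union (Polynomial.finite_setOfPred_isRoot hd0)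
    have : ∀ᶠ s in 𝓝[≠] (0 : ℂ), s ∈ (({s | r.IsRoot s} ∪ {s | d.IsRoot s}) \ {0})ᶜ := by
      apply eventually_nhdsWithin_of_eventually_nhds
      exact ((hf.subset Set.sdiff_subset).isClosed.isOpen_compl).mem_nhds (by simp)
    filter_upwards [this, self_mem_nhdsWithin] with s hs hs0
    simp only [Set.mem_compl_iff, Set.mem_sdiff, Set.mem_union, Set.mem_ofPred_eq,
      Set.mem_singleton_iff, not_and, not_not] at hs
    exact ⟨fun h => hs0 (hs (Or.inl h)), fun h => hs0 (hs (Or.inr h))⟩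
  obtain ⟨s, hsU, hsr, hsd⟩ := ((hev.filter_mono nhdsWithin_le_nhds).and hfin).exists
  rw [hr] at hsr
  rw [hd] at hsd
  refine ⟨_, hsU, ?_, hQ _ hsr hsd _ (Complex.exp_ne_zero _)⟩
  rw [Matrix.det_smul, Fintype.card_fin]
  rcases Nat.eq_zero_or_pos n with hn | hn
  · subst hn; simp
  · simp only [c]
    have hn' : (n : ℂ) ≠ 0 := by exact_mod_cast hn.ne'
    rw [← Complex.exp_nat_mul, mul_div_cancel₀ _ hn', Complex.exp_neg, Complex.exp_log hsd]
    exact inv_mul_cancel₀ hsd

end P002Surf
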