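import Vale.Agent.P002Surf.Defs
import Vale.Agent.P002Surf.Dense

/-!
Polynomial maps preserving integral representations, integral density in SL, and twist tori.
-/

namespace P002Surf

open Matrix Filter Topology

abbrev Pair (n : ℕ) := Mat n × Mat n

def SL1 {n : ℕ} (x : Pair n) : Prop := x.1.det = 1 ∧ x.2.det = 1

variable {g g' n : ℕ}

/-! ### adjugates in determinant one -/

theorem mul_adj_one {R : Type} [CommRing R] {A : Matrix (Fin n) (Fin n) R} (h : A.det = 1) :
    A * A.adjugate = 1 := by rw [Matrix.mul_adjugate, h, one_smul]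

theorem adj_mul_one {R : Type} [CommRing R] {A : Matrix (Fin n) (Fin n) R} (h : A.det = 1) :
    A.adjugate * A = 1 := by rw [Matrix.adjugate_mul, h, one_smul]

theorem det_adj_one {R : Type} [CommRing R] {A : Matrix (Fin n) (Fin n) R} (h : A.det = 1) :
    A.adjugate.det = 1 := by rw [Matrix.det_adjugate, h, one_pow]

theorem adj_eq_of_mul {R : Type} [CommRing R] {A B : Matrix (Fin n) (Fin n) R} (h : A.det = 1)
    (hAB : A * B = 1) : A.adjugate = B := by
  calc A.adjugate = A.adjugate * (A * B) := by rw [hAB, Matrix.mul_one]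
    _ = B := by rw [← Matrix.mul_assoc, adj_mul_one h, Matrix.one_mul]

theorem det_cm {R : Type} [CommRing R] {x : Matrix (Fin n) (Fin n) R × Matrix (Fin n) (Fin n) R}
    (h1 : x.1.det = 1) (h2 : x.2.det = 1) : (cm x).det = 1 := by
  simp [cm, Matrix.det_mul, h1, h2, det_adj_one]

theorem cm_mul_swap {R : Type} [CommRing R] {A B : Matrix (Fin n) (Fin n) R} (hA : A.det = 1)
    (hB : B.det = 1) : cm (A, B) * cm (B, A) = 1 := by
  simp only [cm, Matrix.mul_assoc]
  rw [← Matrix.mul_assoc B.adjugate B, adj_mul_one hB, Matrix.one_mul,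
    ← Matrix.mul_assoc A.adjugate A, adj_mul_one hA, Matrix.one_mul,
    ← Matrix.mul_assoc B B.adjugate, mul_adj_one hB, Matrix.one_mul, mul_adj_one hA]

/-- Multiplying the first entry by something commuting with the second keeps the commutator. -/
theorem cm_twistA {R : Type} [CommRing R] {A B Z : Matrix (Fin n) (Fin n) R} (hZ : Z.det = 1)
    (hc : B * Z = Z * B) : cm (A * Z, B) = cm (A, B) := by
  simp only [cm, Matrix.adjugate_mul_distrib, Matrix.mul_assoc]
  rw [← Matrix.mul_assoc Z B, ← hc, Matrix.mul_assoc, ← Matrix.mul_assoc Z Z.adjugate,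
    mul_adj_one hZ, Matrix.one_mul]

/-- Multiplying the second entry by something commuting with the first keeps the commutator. -/
theorem cm_twistB {R : Type} [CommRing R] {A B Z : Matrix (Fin n) (Fin n) R} (hZ : Z.det = 1)
    (hc : A * Z = Z * A) : cm (A, B * Z) = cm (A, B) := by
  simp only [cm, Matrix.adjugate_mul_distrib, Matrix.mul_assoc]
  have hc' : A.adjugate * Z.adjugate = Z.adjugate * A.adjugate := by
    rw [← Matrix.adjugate_mul_distrib, ← Matrix.adjugate_mul_distrib, hc]
  rw [← Matrix.mul_assoc A.adjugate Z.adjugate, hc', Matrix.mul_assoc,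
    ← Matrix.mul_assoc Z Z.adjugate, mul_adj_one hZ, Matrix.one_mul]

/-! ### substitution -/

/-- The tuple with the images of all entries. -/
def mapT {R S : Type} [CommRing R] [CommRing S] (f : R →+* S)
    (q : Fin g → Matrix (Fin n) (Fin n) R × Matrix (Fin n) (Fin n) R) :
    Fin g → Matrix (Fin n) (Fin n) S × Matrix (Fin n) (Fin n) S :=
  fun i => ((q i).1.map f, (q i).2.map f)

theorem ev_mapT {R S : Type} [CommRing R] [CommRing S] (f : R →+* S)
    (q : Fin g → Matrix (Fin n) (Fin n) R × Matrix (Fin n) (Fin n) R) :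
    ev (mapT f q) = fun v => f (ev q v) := by
  funext v
  obtain ⟨i, b, r, c⟩ := v
  cases b <;> rfl

theorem castInt_eq (a : Fin g → Matrix (Fin n) (Fin n) ℤ × Matrix (Fin n) (Fin n) ℤ) :
    castInt a = mapT (Int.castRingHom ℂ) a := rfl

/-- The tuple of variables. -/
noncomputable def genT (g n : ℕ) :
    Fin g → Matrix (Fin n) (Fin n) (MvPolynomial (Idx g n) ℂ) ×
      Matrix (Fin n) (Fin n) (MvPolynomial (Idx g n) ℂ) :=
  fun i => (Matrix.of fun r c => MvPolynomial.X (i, false, r, c),
    Matrix.of fun r c => MvPolynomial.X (i, true, r, c))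

theorem mapT_genT (q : Fin g → Pair n) : mapT (MvPolynomial.eval (ev q)) (genT g n) = q := by
  funext i
  ext r c <;> simp [mapT, genT, ev]

theorem eval_subst {σ τ : Type} (T : σ → MvPolynomial τ ℂ) (v : τ → ℂ) (p : MvPolynomial σ ℂ) :
    MvPolynomial.eval v (MvPolynomial.aeval T p) =
      MvPolynomial.eval (fun i => MvPolynomial.eval v (T i)) p := by
  induction p using MvPolynomial.induction_on with
  | C a => simp
  | add p q hp hq => simp only [map_add, hp, hq]
  | mul_X p i hp => simp only [map_mul, MvPolynomial.aeval_X, MvPolynomial.eval_X, hp]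

/-- Natural maps preserving integral representations preserve their Zariski closure. -/
theorem zd_of_natural
    (F : ∀ (R : Type) [CommRing R], (Fin g → Matrix (Fin n) (Fin n) R × Matrix (Fin n) (Fin n) R) →
      (Fin g' → Matrix (Fin n) (Fin n) R × Matrix (Fin n) (Fin n) R))
    (nat : ∀ (R S : Type) [CommRing R] [CommRing S] (f : R →+* S) (q : Fin g →
      Matrix (Fin n) (Fin n) R × Matrix (Fin n) (Fin n) R), mapT f (F R q) = F S (mapT f q))
    (int : ∀ a : Fin g → Matrix (Fin n) (Fin n) ℤ × Matrix (Fin n) (Fin n) ℤ,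
      IsRep a → IsRep (F ℤ a))
    {q : Fin g → Pair n} (hq : Zd q) : Zd (F ℂ q) := by
  intro p hp
  have key : ∀ x : Fin g → Pair n,
      MvPolynomial.eval (ev x) (MvPolynomial.aeval (ev (F _ (genT g n))) p) =
        MvPolynomial.eval (ev (F ℂ x)) p := by
    intro x
    rw [eval_subst, ← ev_mapT, nat, mapT_genT]
  rw [← key]
  apply hq
  intro a ha
  rw [key, castInt_eq, ← nat, ← castInt_eq]
  exact hp _ (int a ha)

/-- `A` is a value of a determinant one matrix of integer polynomials. -/
def Param (A : Mat n) : Prop :=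
  ∃ (σ : Type) (M : Matrix (Fin n) (Fin n) (MvPolynomial σ ℤ)) (v : σ → ℂ),
    M.det = 1 ∧ A = M.map (MvPolynomial.eval₂Hom (Int.castRingHom ℂ) v)

theorem Param.mul {A B : Mat n} : Param A → Param B → Param (A * B) := by
  rintro ⟨σ, M, v, hM, rfl⟩ ⟨τ, N, w, hN, rfl⟩
  refine ⟨σ ⊕ τ, M.map (MvPolynomial.rename Sum.inl : MvPolynomial σ ℤ →ₐ[ℤ] _).toRingHom *
    N.map (MvPolynomial.rename Sum.inr : MvPolynomial τ ℤ →ₐ[ℤ] _).toRingHom, Sum.elim v w, ?_, ?_⟩
  · rw [Matrix.det_mul, ← RingHom.mapMatrix_apply, ← RingHom.map_det, hM,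
      ← RingHom.mapMatrix_apply, ← RingHom.map_det, hN, map_one, map_one, mul_one]
  · rw [Matrix.map_mul]
    congr 1 <;>
    · ext i j
      simp [MvPolynomial.eval₂_rename]

theorem param_transvection {i j : Fin n} (hij : i ≠ j) (c : ℂ) :
    Param (Matrix.transvection i j c) := by
  refine ⟨Unit, Matrix.transvection i j (MvPolynomial.X ()), fun _ => c,
    Matrix.det_transvection_of_ne i j hij _, ?_⟩
  ext a b
  simp only [Matrix.map_apply, Matrix.transvection, Matrix.add_apply, Matrix.single_apply,
    Matrix.one_apply, map_add]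
  split_ifs <;> simp

theorem diag2_eq {i j : Fin n} (hij : i ≠ j) {a : ℂ} (ha : a ≠ 0) :
    diagonal (fun k => if k = i then a else if k = j then a⁻¹ else 1) =
      transvection i j a * transvection j i (-a⁻¹) * transvection i j a *
        transvection i j (-1) * transvection j i 1 * transvection i j (-1) := by
  have hji : j ≠ i := Ne.symm hij
  simp only [Matrix.transvection, Matrix.add_mul, Matrix.mul_add, Matrix.one_mul, Matrix.mul_one,
    Matrix.single_mul_single_same]
  ext r c
  simp only [Matrix.add_apply, Matrix.one_apply, Matrix.single_apply, Matrix.diagonal_apply]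
  by_cases hri : r = i <;> by_cases hrj : r = j <;> by_cases hci : c = i <;>
    by_cases hcj : c = j <;> simp_all [eq_comm]

theorem param_of_det {A : Mat n} (hA : A.det = 1) : Param A := by
  rcases subsingleton_or_nontrivial (Fin n) with hs | hn
  · refine ⟨Unit, 1, fun _ => 0, Matrix.det_one, ?_⟩
    ext i j
    have hij : i = j := Subsingleton.elim i j
    subst hij
    rw [Matrix.det_eq_elem_of_subsingleton A i] at hA
    simp [hA]
  · exact Matrix.SpecialLinearGroup.diagonal_transvection_induction'
      (fun M : Matrix.SpecialLinearGroup (Fin n) ℂ => Param M.1) ⟨A, hA⟩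
      (fun i j hij c hc => by
        show Param (Matrix.SpecialLinearGroup.diag2n hij c hc).1
        rw [Matrix.SpecialLinearGroup.diag2n_coe, diag2_eq hij hc]
        exact (((((param_transvection hij _).mul (param_transvection hij.symm _)).mul
          (param_transvection hij _)).mul (param_transvection hij _)).mul
          (param_transvection hij.symm _)).mul (param_transvection hij _))
      (fun i j hij a => param_transvection hij a)
      (fun M N hM hN => hM.mul hN)

/-- A polynomial vanishing on integral SL tuples vanishes on complex SL tuples. -/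
theorem slz {k : ℕ} (p : MvPolynomial (Fin k × Fin n × Fin n) ℂ)
    (h : ∀ a : Fin k → Matrix (Fin n) (Fin n) ℤ, (∀ l, (a l).det = 1) →
      MvPolynomial.eval (fun v => ((a v.1 v.2.1 v.2.2 : ℤ) : ℂ)) p = 0)
    (A : Fin k → Mat n) (hA : ∀ l, (A l).det = 1) :
    MvPolynomial.eval (fun v => A v.1 v.2.1 v.2.2) p = 0 := by
  choose σ M w hM hAM using fun l => param_of_det (hA l)
  let τ := Σ l, σ l
  let W : τ → ℂ := fun t => w t.1 t.2
  let T : Fin k × Fin n × Fin n → MvPolynomial τ ℂ := fun v =>
    MvPolynomial.map (Int.castRingHom ℂ)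
      (MvPolynomial.rename (fun s => (⟨v.1, s⟩ : τ)) (M v.1 v.2.1 v.2.2))
  have key : ∀ u : τ → ℂ, MvPolynomial.eval u (MvPolynomial.aeval T p) =
      MvPolynomial.eval (fun v => MvPolynomial.eval₂ (Int.castRingHom ℂ) (fun s => u ⟨v.1, s⟩)
        (M v.1 v.2.1 v.2.2)) p := by
    intro u
    rw [eval_subst]
    congr 2
    funext v
    simp only [T]
    rw [MvPolynomial.eval_map, MvPolynomial.eval₂_rename]
    rfl
  have hG : MvPolynomial.aeval T p = 0 := by
    refine MvPolynomial.funext_set (fun _ => Set.range (Int.cast : ℤ → ℂ))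
      (fun _ => Set.infinite_range_of_injective Int.cast_injective) ?_
    intro x hx
    rw [map_zero, key]
    choose z hz using fun t => hx t (Set.mem_univ t)
    have := h (fun l => (M l).map (MvPolynomial.eval (fun s => z ⟨l, s⟩))) (fun l => by
      rw [← RingHom.mapMatrix_apply, ← RingHom.map_det, hM, map_one])
    convert this using 2
    congr 1
    funext v
    simp only [Matrix.map_apply]
    rw [show (fun s => x ⟨v.1, s⟩) = fun s => ((z ⟨v.1, s⟩ : ℤ) : ℂ) from funext fun s => (hz _).symm]
    exact (MvPolynomial.eval₂_comp_left (Int.castRingHom ℂ) (RingHom.id ℤ) _ _).symm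
  have := key W
  rw [hG, map_zero] at this
  convert this.symm using 2
  congr 1
  funext v
  rw [hAM]
  rfl

/-- Seeds in genus two. -/
theorem zd_seed {A B : Mat n} (hA : A.det = 1) (hB : B.det = 1) : Zd ![(A, B), (B, A)] := by
  intro p hp
  let X : Fin 2 → Matrix (Fin n) (Fin n) (MvPolynomial (Fin 2 × Fin n × Fin n) ℂ) :=
    fun l => Matrix.of fun r c => MvPolynomial.X (l, r, c)
  let F : ∀ (R : Type), Matrix (Fin n) (Fin n) R → Matrix (Fin n) (Fin n) R →
      (Fin 2 → Matrix (Fin n) (Fin n) R × Matrix (Fin n) (Fin n) R) :=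
    fun R a b => ![(a, b), (b, a)]
  have key : ∀ M : Fin 2 → Mat n, MvPolynomial.eval (fun v => M v.1 v.2.1 v.2.2)
      (MvPolynomial.aeval (ev (F _ (X 0) (X 1))) p) =
      MvPolynomial.eval (ev (F ℂ (M 0) (M 1))) p := by
    intro M
    rw [eval_subst]
    congr 2
    funext v
    obtain ⟨i, b, r, c⟩ := v
    fin_cases i <;> cases b <;> simp [F, X, ev]
  have := slz (MvPolynomial.aeval (ev (F _ (X 0) (X 1))) p) (fun a ha => by
      refine (key (fun l => (a l).map (fun z : ℤ => (z : ℂ)))).trans ?_
      have hint : IsRep (F ℤ (a 0) (a 1)) := by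
        constructor
        · intro i
          fin_cases i <;> simp [F, ha]
        · simp [F, List.ofFn_succ, cm_mul_swap (ha 0) (ha 1)]
      have hc : castInt (F ℤ (a 0) (a 1)) = F ℂ ((a 0).map fun z : ℤ => (z : ℂ))
          ((a 1).map fun z : ℤ => (z : ℂ)) := by
        funext i
        fin_cases i <;> rfl
      rw [← hc]
      exact hp _ hint) ![A, B] (fun l => by fin_cases l <;> simp [hA, hB])
  rw [key] at this
  simpa [F] using this

/-! ### twists -/

/-- The twist of handle `i` by powers, on either side. -/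
def twist {R : Type} [CommRing R] (i : Fin g) (side : Bool) (m : ℕ)
    (q : Fin g → Matrix (Fin n) (Fin n) R × Matrix (Fin n) (Fin n) R) :
    Fin g → Matrix (Fin n) (Fin n) R × Matrix (Fin n) (Fin n) R :=
  Function.update q i
    (cond side ((q i).1, (q i).2 * (q i).1 ^ m) ((q i).1 * (q i).2 ^ m, (q i).2))

theorem isRep_update {R : Type} [CommRing R]
    {q : Fin g → Matrix (Fin n) (Fin n) R × Matrix (Fin n) (Fin n) R} (hq : IsRep q) (i : Fin g)
    {y : Matrix (Fin n) (Fin n) R × Matrix (Fin n) (Fin n) R} (h1 : y.1.det = 1) (h2 : y.2.det = 1)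
    (hc : cm y = cm (q i)) : IsRep (Function.update q i y) := by
  constructor
  · intro k
    by_cases hk : k = i
    · subst hk; simp [h1, h2]
    · simp [hk, hq.1 k]
  · rw [show (fun k => cm (Function.update q i y k)) = fun k => cm (q k) by
      funext k
      by_cases hk : k = i
      · subst hk; simp [hc]
      · simp [hk]]
    exact hq.2

theorem zd_twist {q : Fin g → Pair n} (hq : Zd q) (i : Fin g) (side : Bool) (m : ℕ) :
    Zd (twist i side m q) := by
  refine zd_of_natural (fun R _ => twist i side m) ?_ ?_ hq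
  · intro R S _ _ f q
    funext k
    by_cases hk : k = i
    · subst hk
      cases side <;> simp [twist, mapT, Matrix.map_mul, Matrix.map_pow]
    · simp [twist, mapT, hk]
  · intro a ha
    obtain ⟨h1, h2⟩ := ha.1 i
    cases side
    · exact isRep_update ha i (by simp [h1, h2]) (by simp [h2])
        (cm_twistA (by simp [h2]) ((Commute.refl _).pow_right m).eq)
    · exact isRep_update ha i (by simp [h1]) (by simp [h1, h2])
        (cm_twistB (by simp [h1]) ((Commute.refl _).pow_right m).eq)

theorem sum_eq_zero_of_pow_sums {ι : Type} (s : Finset ι) (c w d : ι → ℂ)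
    (hc : ∀ m : ℕ, ∑ a ∈ s, c a * w a ^ m = 0)
    (hd : ∀ a ∈ s, ∀ b ∈ s, w a = w b → d a = d b) : ∑ a ∈ s, c a * d a = 0 := by
  classical
  let V := s.image w
  let e := V.equivFin
  let co : Fin V.card → ℂ := fun t => ∑ a ∈ s with w a = (e.symm t).1, c a
  have hco : co = 0 := by
    refine Matrix.eq_zero_of_forall_pow_sum_mul_pow_eq_zero (f := fun t => (e.symm t).1)
      (fun a b hab => e.symm.injective (Subtype.ext hab)) (fun m => ?_)
    rw [← hc m, ← Finset.sum_fiberwise_of_maps_to (t := V) (fun a ha => Finset.mem_image_of_mem w ha),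
      ← Finset.sum_coe_sort V, ← e.symm.sum_comp]
    refine Finset.sum_congr rfl fun t _ => ?_
    simp only [co, Finset.sum_mul]
    exact Finset.sum_congr rfl fun a ha => by rw [(Finset.mem_filter.1 ha).2]
  rw [← Finset.sum_fiberwise_of_maps_to (t := V) (fun a ha => Finset.mem_image_of_mem w ha)]
  refine Finset.sum_eq_zero fun v hv => ?_
  obtain ⟨a0, ha0, rfl⟩ := Finset.mem_image.1 hv
  have h0 : (∑ a ∈ s with w a = w a0, c a) = 0 := by
    have := congrFun hco (e ⟨w a0, hv⟩)
    simpa [co] using this
  calc (∑ a ∈ s with w a = w a0, c a * d a) = ∑ a ∈ s with w a = w a0, c a * d a0 :=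
        Finset.sum_congr rfl fun a ha => by
          rw [hd a (Finset.mem_filter.1 ha).1 a0 ha0 (Finset.mem_filter.1 ha).2]
    _ = 0 := by rw [← Finset.sum_mul, h0, zero_mul]

theorem commute_diag {P Z : Mat n} {μ : Fin n → ℂ} {B : Mat n} (h : DiagBy B P μ)
    (hc : B * Z = Z * B) : ∃ d : Fin n → ℂ, Z = P * diagonal d * P⁻¹ := by
  have hP := isUnit_det_of_ne h.1
  have hPP : P * P⁻¹ = 1 := Matrix.mul_nonsing_inv P hP
  let Y := P⁻¹ * Z * P
  have hY : diagonal μ * Y = Y * diagonal μ := by
    rw [← h.conj]
    simp only [Y, Matrix.mul_assoc]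
    rw [← Matrix.mul_assoc P P⁻¹, hPP, Matrix.one_mul, ← Matrix.mul_assoc P P⁻¹, hPP, Matrix.one_mul,
      ← Matrix.mul_assoc B Z, hc, Matrix.mul_assoc]
  refine ⟨Y.diag, ?_⟩
  have hd : diagonal Y.diag = Y := by
    ext r c
    by_cases hrc : r = c
    · subst hrc; simp
    · have := congrFun (congrFun hY r) c
      rw [Matrix.diagonal_mul, Matrix.mul_diagonal] at this
      rw [Matrix.diagonal_apply_ne _ hrc]
      by_contra hne
      exact h.2.1.ne hrc (mul_right_cancel₀ (Ne.symm hne) (this.trans (mul_comm _ _)))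
  rw [hd]
  simp only [Y, ← Matrix.mul_assoc, hPP, Matrix.one_mul]
  rw [Matrix.mul_assoc, hPP, Matrix.mul_one]

/-- Tori: at an independent point, any element commuting with the other entry may be multiplied. -/
theorem zd_torus {q : Fin g → Pair n} (hq : Zd q) (i : Fin g) (side : Bool) {Z : Mat n}
    (hind : Indep (cond side (q i).1 (q i).2)) (hdet : Z.det = 1)
    (hc : cond side (q i).1 (q i).2 * Z = Z * cond side (q i).1 (q i).2) :
    Zd (Function.update q i (cond side ((q i).1, (q i).2 * Z) ((q i).1 * Z, (q i).2))) := by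
  obtain ⟨P, μ, hdiag, hμ⟩ := hind
  obtain ⟨d, rfl⟩ := commute_diag hdiag hc
  have hd : (∏ k, d k) = 1 := by
    rwa [Matrix.det_mul, Matrix.det_mul, mul_comm P.det, mul_assoc, ← Matrix.det_mul,
      Matrix.mul_nonsing_inv P (isUnit_det_of_ne hdiag.1), Matrix.det_one, mul_one,
      det_diagonal] at hdet
  intro p hp
  let pt : ∀ (R : Type) [CommRing R], (ℂ →+* R) → (Fin n → R) →
      Fin g → Matrix (Fin n) (Fin n) R × Matrix (Fin n) (Fin n) R := fun R _ f x =>
    Function.update (mapT f q) i (cond side
      ((q i).1.map f, (q i).2.map f * (P.map f * diagonal x * P⁻¹.map f))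
      ((q i).1.map f * (P.map f * diagonal x * P⁻¹.map f), (q i).2.map f))
  let G : MvPolynomial (Fin n) ℂ :=
    MvPolynomial.aeval (ev (pt _ MvPolynomial.C MvPolynomial.X)) p
  have key : ∀ x : Fin n → ℂ, MvPolynomial.eval x G =
      MvPolynomial.eval (ev (pt ℂ (RingHom.id ℂ) x)) p := by
    intro x
    simp only [G]
    rw [eval_subst, ← ev_mapT]
    congr 3
    funext k
    by_cases hk : k = i
    · subst hk
      cases side <;>
        simp [pt, mapT, Matrix.map_mul, Matrix.map_map, Function.comp_def, Matrix.diagonal_map]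
    · simp [pt, mapT, hk, Matrix.map_map, Function.comp_def]
  have hpt : ∀ x, pt ℂ (RingHom.id ℂ) x = Function.update q i (cond side
      ((q i).1, (q i).2 * (P * diagonal x * P⁻¹))
      ((q i).1 * (P * diagonal x * P⁻¹), (q i).2)) := by
    intro x
    have hid : mapT (RingHom.id ℂ) q = q := by funext k; simp [mapT]
    simp only [pt, hid]
    cases side <;> simp
  have hpow : ∀ m : ℕ, MvPolynomial.eval (fun k => μ k ^ m) G = 0 := by
    intro m
    have hm : (cond side (q i).1 (q i).2) ^ m = P * diagonal (fun k => μ k ^ m) * P⁻¹ := by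
      induction m with
      | zero => simp [Matrix.mul_nonsing_inv P (isUnit_det_of_ne hdiag.1)]
      | succ m ih =>
        rw [pow_succ, ih, hdiag.2.2]
        simp only [Matrix.mul_assoc]
        rw [← Matrix.mul_assoc P⁻¹ P, Matrix.nonsing_inv_mul P (isUnit_det_of_ne hdiag.1),
          Matrix.one_mul, ← Matrix.mul_assoc (diagonal _) (diagonal μ), diagonal_mul_diagonal]
        simp [pow_succ]
    have := zd_twist hq i side m p hp
    rw [key, hpt]
    cases side
    · simp only [Bool.cond_false] at hm ⊢
      simpa [twist, hm] using this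
    · simp only [Bool.cond_true] at hm ⊢
      simpa [twist, hm] using this
  have hres := key d
  rw [hpt] at hres
  rw [← hres, MvPolynomial.eval_eq']
  refine sum_eq_zero_of_pow_sums _ _ (fun α => ∏ k, μ k ^ α k) _ (fun m => ?_) ?_
  · rw [← hpow m, MvPolynomial.eval_eq']
    refine Finset.sum_congr rfl fun α _ => ?_
    rw [← Finset.prod_pow]
    simp only [← pow_mul, mul_comm]
  · intro α _ β _ h
    exact hμ _ _ h d hd

/-! ### splitting a handle -/

/-- Replace the last handle `(A, X)` by `(A, B)`, `(B A B⁻¹, B W B⁻¹)` with `B = X W⁻¹`. -/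
def split {R : Type} [CommRing R] (W : Matrix (Fin n) (Fin n) R)
    (q : Fin (g + 1) → Matrix (Fin n) (Fin n) R × Matrix (Fin n) (Fin n) R) :
    Fin (g + 2) → Matrix (Fin n) (Fin n) R × Matrix (Fin n) (Fin n) R :=
  Fin.snoc (Fin.snoc (fun k : Fin g => q k.castSucc)
      ((q (Fin.last g)).1, (q (Fin.last g)).2 * W.adjugate))
    ((q (Fin.last g)).2 * W.adjugate * (q (Fin.last g)).1 *
        ((q (Fin.last g)).2 * W.adjugate).adjugate,
      (q (Fin.last g)).2 * W.adjugate * W * ((q (Fin.last g)).2 * W.adjugate).adjugate)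

theorem cm_split {R : Type} [CommRing R] {A B W : Matrix (Fin n) (Fin n) R} (hA : A.det = 1)
    (hB : B.det = 1) (hW : W.det = 1) :
    cm (A, B) * cm (B * A * B.adjugate, B * W * B.adjugate) = cm (A, B * W) := by
  have hB' := adj_mul_one hB
  have e : ∀ X : Matrix (Fin n) (Fin n) R, X.det = 1 →
      (B * X * B.adjugate).adjugate = B * X.adjugate * B.adjugate := by
    intro X hX
    refine adj_eq_of_mul (by simp [Matrix.det_mul, hB, hX, det_adj_one]) ?_
    simp only [Matrix.mul_assoc]
    rw [← Matrix.mul_assoc B.adjugate B, hB', Matrix.one_mul, ← Matrix.mul_assoc X,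
      mul_adj_one hX, Matrix.one_mul, mul_adj_one hB]
  simp only [cm, e A hA, e W hW]
  rw [Matrix.adjugate_mul_distrib B W]
  simp only [Matrix.mul_assoc]
  simp only [← Matrix.mul_assoc B.adjugate B, hB', Matrix.one_mul]
  rw [← Matrix.mul_assoc A.adjugate A, adj_mul_one hA, Matrix.one_mul]

theorem isRep_split {R : Type} [CommRing R] {W : Matrix (Fin n) (Fin n) R} (hW : W.det = 1)
    {q : Fin (g + 1) → Matrix (Fin n) (Fin n) R × Matrix (Fin n) (Fin n) R} (hq : IsRep q) :
    IsRep (split W q) := by
  obtain ⟨h1, h2⟩ := hq.1 (Fin.last g)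
  have hB : ((q (Fin.last g)).2 * W.adjugate).det = 1 := by simp [h2, hW, det_adj_one]
  constructor
  · intro k
    refine Fin.lastCases ?_ (fun k => ?_) k
    · simp [split, hW, h1, h2, Matrix.det_mul, det_adj_one]
    · refine Fin.lastCases ?_ (fun k => ?_) k
      · simp [split, hW, h1, h2, Matrix.det_mul, det_adj_one]
      · simpa [split] using hq.1 k.castSucc
  · have := hq.2
    rw [List.ofFn_succ', List.concat_eq_append, List.prod_append, List.prod_singleton] at this
    rw [List.ofFn_succ', List.concat_eq_append, List.prod_append, List.prod_singleton,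
      List.ofFn_succ', List.concat_eq_append, List.prod_append, List.prod_singleton, Matrix.mul_assoc]
    simp only [split, Fin.snoc_castSucc, Fin.snoc_last]
    rw [cm_split h1 hB hW, Matrix.mul_assoc (q (Fin.last g)).2, adj_mul_one hW, Matrix.mul_one]
    exact this

theorem mapT_split {R S : Type} [CommRing R] [CommRing S] (f : R →+* S)
    (W : Matrix (Fin n) (Fin n) R)
    (q : Fin (g + 1) → Matrix (Fin n) (Fin n) R × Matrix (Fin n) (Fin n) R) :
    mapT f (split W q) = split (W.map f) (mapT f q) := by
  have hadj : ∀ M : Matrix (Fin n) (Fin n) R, M.adjugate.map f = (M.map f).adjugate :=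
    fun M => f.map_adjugate M
  funext k
  refine Fin.lastCases ?_ (fun k => ?_) k
  · simp [split, mapT, Matrix.map_mul, hadj]
  · refine Fin.lastCases ?_ (fun k => ?_) k
    · simp [split, mapT, Matrix.map_mul, hadj]
    · simp [split, mapT]

theorem zd_split {q : Fin (g + 1) → Pair n} (hq : Zd q) {W : Mat n} (hW : W.det = 1) :
    Zd (split W q) := by
  intro p hp
  let X : Matrix (Fin n) (Fin n) (MvPolynomial (Fin 1 × Fin n × Fin n) ℂ) :=
    Matrix.of fun r c => MvPolynomial.X (0, r, c)
  let T := ev (split X (mapT MvPolynomial.C q))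
  have key : ∀ M : Fin 1 → Mat n, MvPolynomial.eval (fun v => M v.1 v.2.1 v.2.2)
      (MvPolynomial.aeval T p) = MvPolynomial.eval (ev (split (M 0) q)) p := by
    intro M
    simp only [T]
    rw [eval_subst, ← ev_mapT, mapT_split]
    rw [show X.map (MvPolynomial.eval fun v => M v.1 v.2.1 v.2.2) = M 0 by ext r c; simp [X],
      show mapT (MvPolynomial.eval fun v : Fin 1 × Fin n × Fin n => M v.1 v.2.1 v.2.2)
          (mapT MvPolynomial.C q) = q by
        funext k; ext r c <;> simp [mapT]]
  have := slz (MvPolynomial.aeval T p) (fun a ha => by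
    refine (key (fun l => (a l).map (fun z : ℤ => (z : ℂ)))).trans ?_
    have hz : Zd (split ((a 0).map fun z : ℤ => (z : ℂ)) q) := by
      have := zd_of_natural (fun R _ => split ((a 0).map (Int.castRingHom R))) ?_ ?_ hq
      · exact this
      · intro R S _ _ f q'
        rw [mapT_split]
        congr 1
        ext r c
        simp
      · intro b hb
        refine isRep_split ?_ hb
        simpa using ha 0
    exact hz p hp) (fun _ => W) (fun _ => hW)
  exact (key (fun _ => W)).symm.trans this

end P002Surf
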